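import Crest.Agent.N250.B2.Fam
import Crest.Agent.N250.H.Hol
import Crest.Agent.R266.Osgood

/-!
# Row 250, block (B2)+(L): real gradients of holomorphic functions, Cauchy estimates (helper34)
-/

set_option autoImplicit false
set_option linter.unusedSectionVars false

open Set Metric Filter Topology Asymptotics Function

noncomputable section

namespace Crest.Agent.N250.B2

section real

variable {σ : Type} [Fintype σ]

/-- `ofR` as a continuous linear map -/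
def ofRL : (σ → ℝ) →L[ℝ] (σ → ℂ) :=
  ContinuousLinearMap.pi fun i => Complex.ofRealCLM.comp (ContinuousLinearMap.proj i)


theorem norm_ofR (x : σ → ℝ) : ‖ofR x‖ = ‖x‖ := by
  refine le_antisymm ((pi_norm_le_iff_of_nonneg (norm_nonneg _)).2 fun i => ?_)
    ((pi_norm_le_iff_of_nonneg (norm_nonneg _)).2 fun i => ?_)
  · simpa [ofR] using norm_le_pi_norm x i
  · simpa [ofR] using norm_le_pi_norm (ofR x) i

theorem ofR_zero : ofR (0 : σ → ℝ) = 0 := by funext i; simp [ofR]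

theorem ofR_single [DecidableEq σ] (i : σ) : ofR (Pi.single i (1 : ℝ) : σ → ℝ) = Pi.single i 1 := by
  funext j
  by_cases h : j = i
  · subst h; simp [ofR]
  · simp [ofR, h]

theorem ofR_tr (P : ℕ → σ → ℝ) (N : ℕ) (t : ℝ) :
    tr (fun m => ofR (P m)) N (t : ℂ) = ofR (tr P N t) := by
  funext i
  simp [tr, ofR, Finset.sum_apply]

/-- real part on real points -/
def kr (k : (σ → ℂ) → ℂ) (x : σ → ℝ) : ℝ := (k (ofR x)).re

/-- the real gradient -/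
def gr [DecidableEq σ] (k : (σ → ℂ) → ℂ) (x : σ → ℝ) : σ → ℝ :=
  fun i => (fderiv ℂ k (ofR x) (Pi.single i 1)).re

theorem norm_le_sum [DecidableEq σ] (D : (σ → ℂ) →L[ℂ] ℂ) : ‖D‖ ≤ ∑ i, ‖D (Pi.single i 1)‖ := by
  refine D.opNorm_le_bound (by positivity) fun z => ?_
  have e : D z = ∑ i, z i * D (Pi.single i 1) := by
    conv_lhs => rw [pi_eq_sum_univ' z]
    simp [map_sum]
  rw [e, Finset.sum_mul]
  refine (norm_sum_le _ _).trans (Finset.sum_le_sum fun i _ => ?_)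
  rw [norm_mul, mul_comm]
  exact mul_le_mul_of_nonneg_left (norm_le_pi_norm z i) (norm_nonneg _)

theorem norm_single_le [DecidableEq σ] (D : (σ → ℂ) →L[ℂ] ℂ) (i : σ) :
    ‖D (Pi.single i 1)‖ ≤ ‖D‖ := by
  have := D.le_opNorm (Pi.single i 1)
  rwa [Pi.norm_single, norm_one, mul_one] at this

theorem norm_gr_le [DecidableEq σ] (k : (σ → ℂ) → ℂ) (x : σ → ℝ) :
    ‖gr k x‖ ≤ ‖fderiv ℂ k (ofR x)‖ :=
  (pi_norm_le_iff_of_nonneg (norm_nonneg _)).2 fun i =>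
    (Complex.abs_re_le_norm _).trans (norm_single_le _ i)

variable {k : (σ → ℂ) → ℂ} {r1 : ℝ}

theorem hasF_ofR {x : σ → ℝ} (h : DifferentiableAt ℂ k (ofR x)) :
    HasFDerivAt (fun x => k (ofR x)) (((fderiv ℂ k (ofR x)).restrictScalars ℝ).comp ofRL) x :=
  (h.hasFDerivAt.restrictScalars ℝ).comp x ofRL.hasFDerivAt

theorem norm_fderiv_kr {x : σ → ℝ} (h : DifferentiableAt ℂ k (ofR x)) :
    ‖fderiv ℝ (kr k) x‖ ≤ ‖fderiv ℂ k (ofR x)‖ := by
  have h1 : HasFDerivAt (kr k) _ x := Complex.reCLM.hasFDerivAt.comp x (hasF_ofR h)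
  rw [h1.fderiv]
  refine ContinuousLinearMap.opNorm_le_bound _ (norm_nonneg _) fun v => ?_
  refine (Complex.abs_re_le_norm (fderiv ℂ k (ofR x) (ofR v))).trans ?_
  rw [← norm_ofR v]
  exact (fderiv ℂ k (ofR x)).le_opNorm _

theorem im_fderiv (hd : DifferentiableOn ℂ k (ball 0 r1))
    (hr : ∀ x : σ → ℝ, ‖x‖ < r1 → (k (ofR x)).im = 0) {x : σ → ℝ} (hx : ‖x‖ < r1) (v : σ → ℝ) :
    (fderiv ℂ k (ofR x) (ofR v)).im = 0 := by
  have h : DifferentiableAt ℂ k (ofR x) :=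
    hd.differentiableAt (isOpen_ball.mem_nhds (by rwa [mem_ball_zero_iff, norm_ofR]))
  have h1 : HasFDerivAt (fun x => (k (ofR x)).im) _ x :=
    Complex.imCLM.hasFDerivAt.comp x (hasF_ofR h)
  have h2 : HasFDerivAt (fun x => (k (ofR x)).im) (0 : (σ → ℝ) →L[ℝ] ℝ) x := by
    refine (hasFDerivAt_const (0 : ℝ) x).congr_of_eventuallyEq ?_
    filter_upwards [isOpen_ball.mem_nhds (mem_ball_zero_iff.2 hx)] with y hy
    exact hr y (mem_ball_zero_iff.1 hy)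
  exact congrArg (fun L => L v) (h1.unique h2)

theorem an_zero (h0 : 0 < r1) (hd : DifferentiableOn ℂ k (ball 0 r1)) : AnalyticAt ℂ k 0 :=
  R266.SCV.analyticOnNhd_of_differentiableOn isOpen_ball hd 0 (mem_ball_self h0)

theorem an_ofR {G : Type} [NormedAddCommGroup G] [NormedSpace ℂ G] {k : (σ → ℂ) → G}
    (h : AnalyticAt ℂ k 0) : AnalyticAt ℝ (fun x : σ → ℝ => k (ofR x)) 0 :=
  (h.restrictScalars (𝕜 := ℝ)).comp_of_eq ((ofRL (σ := σ)).analyticAt 0) ofR_zero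

theorem an_kr (h : AnalyticAt ℂ k 0) : AnalyticAt ℝ (kr k) 0 :=
  (Complex.reCLM.analyticAt _).comp (an_ofR h)

theorem an_fd [DecidableEq σ] (h : AnalyticAt ℂ k 0) (i : σ) :
    AnalyticAt ℂ (fun z => fderiv ℂ k z (Pi.single i 1)) 0 :=
  ((ContinuousLinearMap.apply ℂ ℂ (Pi.single i 1 : σ → ℂ)).analyticAt _).comp h.fderiv

theorem an_gr [DecidableEq σ] (h : AnalyticAt ℂ k 0) : AnalyticAt ℝ (gr k) 0 :=
  analyticAt_pi_iff.2 fun i => (Complex.reCLM.analyticAt _).comp (an_ofR (an_fd h i))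

/-- order of vanishing can be read on the real axis -/
theorem isBigO_of_real {φ : ℂ → ℂ} (hφ : AnalyticAt ℂ φ 0) {N : ℕ}
    (h : (fun t : ℝ => φ t) =O[𝓝 0] fun t => t ^ N) : φ =O[𝓝 0] fun t => t ^ N := by
  by_cases h0 : ∀ᶠ z in 𝓝 (0 : ℂ), φ z = 0
  · exact (isBigO_zero _ _).congr' (h0.mono fun z hz => hz.symm) EventuallyEq.rfl
  obtain ⟨n, u, hu, hu0, e⟩ := hφ.exists_eventuallyEq_pow_smul_nonzero_iff.2 h0
  simp only [sub_zero, smul_eq_mul] at e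
  rcases le_or_gt N n with hn | hn
  · obtain ⟨d, rfl⟩ := Nat.exists_eq_add_of_le hn
    have h1 : (fun z : ℂ => z ^ d * u z) =O[𝓝 0] fun _ => (1 : ℂ) :=
      (((continuous_pow d).continuousAt.mul hu.continuousAt).tendsto).isBigO_one ℂ
    have h2 := (isBigO_refl (fun z : ℂ => z ^ N) (𝓝 0)).mul h1
    refine h2.congr' (e.mono fun z hz => ?_) (Eventually.of_forall fun z => mul_one _)
    simp only [hz, pow_add, mul_assoc]
  · exfalso
    obtain ⟨d, rfl⟩ := Nat.exists_eq_add_of_lt hn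
    have t0 : Tendsto (fun t : ℝ => (t : ℂ)) (𝓝 0) (𝓝 0) := Complex.continuous_ofReal.tendsto' _ _ rfl
    obtain ⟨C, hC⟩ := h.bound
    have h1 : ∀ᶠ t : ℝ in 𝓝[≠] 0, ‖u t‖ ≤ C * ‖t‖ ^ (d + 1) := by
      filter_upwards [nhdsWithin_le_nhds hC, nhdsWithin_le_nhds (t0.eventually e),
        self_mem_nhdsWithin] with t h1 h2 h3
      have h4 : 0 < ‖t‖ ^ n := pow_pos (norm_pos_iff.2 h3) n
      rw [h2, norm_mul, norm_pow, norm_pow, Complex.norm_real] at h1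
      refine le_of_mul_le_mul_left (h1.trans (le_of_eq ?_)) h4
      ring
    have h2 : Tendsto (fun t : ℝ => ‖u t‖) (𝓝[≠] 0) (𝓝 ‖u 0‖) :=
      ((hu.continuousAt.tendsto.comp t0).norm).mono_left nhdsWithin_le_nhds
    have h3 : Tendsto (fun t : ℝ => C * ‖t‖ ^ (d + 1)) (𝓝[≠] 0) (𝓝 0) :=
      ((by fun_prop : Continuous fun t : ℝ => C * ‖t‖ ^ (d + 1)).tendsto' 0 0
        (by simp)).mono_left nhdsWithin_le_nhds
    exact hu0 (norm_le_zero_iff.1 (le_of_tendsto_of_tendsto h2 h3 h1))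

theorem tr_zero {K E : Type} [Semiring K] [AddCommMonoid E] [Module K E] {P : ℕ → E} (h : P 0 = 0)
    (N : ℕ) : tr P N (0 : K) = 0 := by
  refine Finset.sum_eq_zero fun m _ => ?_
  cases m with
  | zero => rw [h, smul_zero]
  | succ m => rw [pow_succ, mul_zero, zero_smul]

theorem an_tr (P : ℕ → σ → ℂ) (N : ℕ) (t : ℂ) : AnalyticAt ℂ (fun t : ℂ => tr P N t) t := by
  unfold tr
  fun_prop

end real

section cauchy

variable {ι κ : Type} [Fintype ι] [Fintype κ]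

theorem aa_ofR (x : ι ⊕ κ → ℝ) : aa (ofR x) = ofR (aa x) := rfl

theorem norm_aa_ofR (x : ι ⊕ κ → ℝ) : ‖aa (ofR x)‖ = ‖aa x‖ := by rw [aa_ofR, norm_ofR]

theorem aa_near {z w : ι ⊕ κ → ℂ} {τ : ℝ} (hw : w ∈ ball z τ) : ‖aa w‖ ≤ ‖aa z‖ + τ := by
  have h1 : ‖aa (w - z)‖ ≤ ‖w - z‖ := norm_aa_le _
  have h2 : aa w = aa z + aa (w - z) := by funext j; simp [aa]
  rw [mem_ball, dist_eq_norm] at hw
  rw [h2]
  linarith [norm_add_le (aa z) (aa (w - z))]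

/-- Cauchy estimate for a function bounded by `C (|a|^n + e)` -/
theorem fd_bound {h : (ι ⊕ κ → ℂ) → ℂ} {z : ι ⊕ κ → ℂ} {τ C e : ℝ} {n : ℕ} (hτ : 0 < τ)
    (hC : 0 ≤ C) (ha : ‖aa z‖ ≤ 2 * τ) (hd : DifferentiableOn ℂ h (ball z τ))
    (hb : ∀ w ∈ ball z τ, ‖h w‖ ≤ C * (‖aa w‖ ^ (n + 1) + e)) :
    ‖fderiv ℂ h z‖ ≤ 2 * C * (3 ^ (n + 1) * τ ^ n + e / τ) := by
  refine (H.fd_le (M := C * ((3 * τ) ^ (n + 1) + e)) hτ hd fun w hw => (hb w hw).trans ?_).trans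
    (le_of_eq ?_)
  · have := aa_near hw
    gcongr
    linarith
  · field_simp
    ring

theorem fd_step {h : (ι ⊕ κ → ℂ) → ℂ} {r1 C : ℝ} {n : ℕ} (hd : DifferentiableOn ℂ h (ball 0 r1))
    (hb : ∀ w ∈ ball (0 : ι ⊕ κ → ℂ) r1, ‖h w‖ ≤ C * ‖aa w‖ ^ (n + 1)) {z : ι ⊕ κ → ℂ}
    (hz : ‖z‖ < r1 / 2) : ‖fderiv ℂ h z‖ ≤ 2 * |C| * 3 ^ (n + 1) * ‖aa z‖ ^ n := by
  have ha : ‖aa z‖ < r1 / 2 := (norm_aa_le z).trans_lt hz
  have h1 : ∀ᶠ τ in 𝓝[>] ‖aa z‖, ‖fderiv ℂ h z‖ ≤ 2 * |C| * 3 ^ (n + 1) * τ ^ n := by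
    filter_upwards [Ioo_mem_nhdsGT ha] with τ hτ
    have h0 : 0 < τ := (norm_nonneg _).trans_lt hτ.1
    have hs : ball z τ ⊆ ball 0 r1 := ball_subset_ball' (by rw [dist_zero_right]; linarith [hτ.2])
    refine (fd_bound (e := 0) (n := n) h0 (abs_nonneg C) (by linarith [hτ.1]) (hd.mono hs)
      fun w hw => (hb w (hs hw)).trans ?_).trans (le_of_eq (by ring))
    rw [add_zero]
    exact mul_le_mul_of_nonneg_right (le_abs_self C) (by positivity)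
  exact ge_of_tendsto (((by fun_prop : Continuous fun τ : ℝ =>
    2 * |C| * 3 ^ (n + 1) * τ ^ n).tendsto _).mono_left nhdsWithin_le_nhds) h1

end cauchy

end Crest.Agent.N250.B2
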