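import Mathlib
import Crest.Agent.N250.L.PA1
import Crest.Agent.N250.B2.Defs
import Crest.Agent.N250.B2.Gl0
import Crest.Agent.N250.EX.Main

-- ▼ part N250/L/Div
section

/-!
Row 250, block L (helper31): real analytic germs at `0`: division by a coordinate, the germs form a
domain, germs of the form monomial × unit (`MU`).
-/

set_option autoImplicit false
set_option linter.unusedSectionVars false
set_option linter.unusedVariables false

open Set Filter Topology Metric
open scoped ContDiff NNReal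

noncomputable section

namespace Crest.Agent.N250.Mo

section div

variable {E : Type*} [NormedAddCommGroup E] [NormedSpace ℝ E]

/-- analytic Hadamard division -/
theorem div_lemma {g : E → ℝ} (hg : AnalyticAt ℝ g 0) (P : E →L[ℝ] E) (l : E →L[ℝ] ℝ) (e : E)
    (hP : ∀ z, z - P z = l z • e) :
    ∃ h : E → ℝ, AnalyticAt ℝ h 0 ∧ ∀ᶠ z in 𝓝 0, g z - g (P z) = l z * h z := by
  obtain ⟨p, r, hp⟩ := hg
  let q : FormalMultilinearSeries ℝ E ℝ := fun n => ∑ i : Fin (n + 1),
    ((p (n + 1)).curryMid i e).compContinuousLinearMap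
      fun j => if i.succAbove j < i then ContinuousLinearMap.id ℝ E else P
  obtain ⟨C, ρ, hC, hρ, hb⟩ := p.le_mul_pow_of_radius_pos hp.radius_pos
  set M : ℝ := max 1 ‖P‖ with hM
  have M1 : 1 ≤ M := le_max_left _ _
  have hq : ∀ n, ‖q n‖ ≤ C * ρ * ‖e‖ * (2 * ρ * M) ^ n := fun n => by
    have h1 : ∀ i : Fin (n + 1), ‖((p (n + 1)).curryMid i e).compContinuousLinearMap
        fun j => if i.succAbove j < i then ContinuousLinearMap.id ℝ E else P‖ ≤
        C * ρ ^ (n + 1) * ‖e‖ * M ^ n := fun i => by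
      refine (ContinuousMultilinearMap.norm_compContinuousLinearMap_le _ _).trans ?_
      refine mul_le_mul ?_ ?_ (Finset.prod_nonneg fun _ _ => norm_nonneg _) (by positivity)
      · refine (ContinuousLinearMap.le_opNorm _ _).trans ?_
        rw [ContinuousMultilinearMap.norm_curryMid]
        exact mul_le_mul_of_nonneg_right (hb _) (norm_nonneg _)
      · refine (Finset.prod_le_prod (g := fun _ => M) (fun _ _ => norm_nonneg _)
          fun j _ => ?_).trans (by simp)
        split_ifs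
        · exact ContinuousLinearMap.norm_id_le.trans M1
        · exact le_max_right _ _
    refine (norm_sum_le _ _).trans ((Finset.sum_le_card_nsmul _ _ _ fun i _ => h1 i).trans ?_)
    have h2 : ((n + 1 : ℕ) : ℝ) ≤ 2 ^ n := by exact_mod_cast Nat.lt_two_pow_self
    rw [Finset.card_univ, Fintype.card_fin, nsmul_eq_mul]
    calc _ ≤ 2 ^ n * (C * ρ ^ (n + 1) * ‖e‖ * M ^ n) := by gcongr
      _ = _ := by rw [mul_pow, mul_pow]; ring
  have h0 : 0 < 2 * ρ * M := by positivity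
  have hr : 0 < q.radius := by
    refine lt_of_lt_of_le ?_ (q.le_radius_of_bound (C * ρ * ‖e‖)
      (r := ⟨(2 * ρ * M)⁻¹, by positivity⟩) fun n => ?_)
    · exact ENNReal.coe_pos.2 (inv_pos.2 h0)
    · refine (mul_le_mul_of_nonneg_right (hq n) (pow_nonneg (NNReal.coe_nonneg _) _)).trans (le_of_eq ?_)
      show _ * ((2 * ρ * M)⁻¹) ^ n = _
      rw [mul_assoc, ← mul_pow, mul_inv_cancel₀ h0.ne', one_pow, mul_one]
  refine ⟨q.sum, (q.hasFPowerSeriesOnBall hr).analyticAt, ?_⟩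
  have e1 : ∀ᶠ z in 𝓝 (0 : E), z ∈ eball (0 : E) r := eball_mem_nhds _ hp.r_pos
  have e2 : ∀ᶠ z in 𝓝 (0 : E), P z ∈ eball (0 : E) r :=
    (P.continuous.tendsto' 0 0 (map_zero P)).eventually e1
  have e3 : ∀ᶠ z in 𝓝 (0 : E), z ∈ eball (0 : E) q.radius := eball_mem_nhds _ hr
  filter_upwards [e1, e2, e3] with z h1 h2 h3
  have s1 := (hp.hasSum h1).sub (hp.hasSum h2)
  rw [zero_add, zero_add, ← hasSum_nat_add_iff' 1] at s1
  have s0 : ∑ i ∈ Finset.range 1, ((p i fun _ => z) - p i fun _ => P z) = 0 := by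
    rw [Finset.sum_range_one, sub_eq_zero]; congr 1; exact Subsingleton.elim _ _
  rw [s0, sub_zero] at s1
  suffices h : ∀ n, ((p (n + 1) fun _ => z) - p (n + 1) fun _ => P z) = l z * q n fun _ => z by
    simp only [h] at s1
    exact s1.unique ((q.hasSum h3).mul_left (l z))
  intro n
  have t := (p (n + 1)).toMultilinearMap.map_sub_map_piecewise (fun _ => z) (fun _ => P z)
    Finset.univ
  rw [Finset.piecewise_univ] at t
  refine t.trans ?_
  simp only [q, sum_apply, Finset.mul_sum]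
  refine Finset.sum_congr rfl fun i _ => ?_
  rw [ContinuousMultilinearMap.compContinuousLinearMap_apply, ← smul_eq_mul,
    ← smul_apply, ← map_smul, ContinuousMultilinearMap.curryMid_apply]
  refine congrArg (p (n + 1)) (funext fun j => ?_)
  refine Fin.succAboveCases i ?_ (fun j => ?_) j
  · simp [hP]
  · by_cases h : i.succAbove j < i <;> simp [h, (Fin.succAbove_ne i j).symm]

/-- analytic germs form a domain -/
theorem mul_eq_zero_germ {f g : E → ℝ} (hf : AnalyticAt ℝ f 0) (hg : AnalyticAt ℝ g 0)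
    (h : ∀ᶠ z in 𝓝 0, f z * g z = 0) : (∀ᶠ z in 𝓝 0, f z = 0) ∨ ∀ᶠ z in 𝓝 0, g z = 0 := by
  obtain ⟨r, hr, H⟩ := Metric.eventually_nhds_iff_ball.1
    (h.and (hf.eventually_analyticAt.and hg.eventually_analyticAt))
  by_cases h1 : ∀ z ∈ ball (0 : E) r, f z = 0
  · exact Or.inl (mem_of_superset (ball_mem_nhds _ hr) h1)
  · push Not at h1
    obtain ⟨w, hw, h1⟩ := h1
    have h2 : g =ᶠ[𝓝 w] 0 := by
      filter_upwards [(H w hw).2.1.continuousAt.eventually_ne h1, isOpen_ball.mem_nhds hw]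
        with z a b using (mul_eq_zero.1 (H z b).1).resolve_left a
    have h3 := AnalyticOnNhd.eqOn_zero_of_preconnected_of_eventuallyEq_zero
      (fun z hz => (H z hz).2.2) (convex_ball (0 : E) r).isPreconnected hw h2
    exact Or.inr (mem_of_superset (ball_mem_nhds _ hr) h3)

end div

/-- the model space -/
abbrev V (n : ℕ) := Fin n → ℝ

variable {n m : ℕ}

/-- monomials -/
def mono (α : Fin n → ℕ) (y : V n) : ℝ := ∏ i, y i ^ α i

/-- nonzero germ -/
def NZ (g : V n → ℝ) : Prop := ¬ ∀ᶠ z in 𝓝 0, g z = 0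

/-- monomial times unit -/
def MU (g : V n → ℝ) : Prop :=
  ∃ (α : Fin n → ℕ) (u : V n → ℝ), AnalyticAt ℝ u 0 ∧ u 0 ≠ 0 ∧ ∀ᶠ y in 𝓝 0, g y = mono α y * u y

lemma an_coord (i : Fin n) (x : V n) : AnalyticAt ℝ (fun y : V n => y i) x :=
  (ContinuousLinearMap.proj (R := ℝ) (φ := fun _ : Fin n => ℝ) i).analyticAt x

lemma an_mono (α : Fin n → ℕ) (x : V n) : AnalyticAt ℝ (mono α) x :=
  Finset.analyticAt_fun_prod _ fun i _ => (an_coord i x).pow _

lemma mono_zero (y : V n) : mono 0 y = 1 := by simp [mono]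

lemma mono_add (α β : Fin n → ℕ) (y : V n) : mono (α + β) y = mono α y * mono β y := by
  simp [mono, pow_add, Finset.prod_mul_distrib]

lemma mono_smul (k : ℕ) (α : Fin n → ℕ) (y : V n) : mono (k • α) y = mono α y ^ k := by
  simp [mono, ← Finset.prod_pow, ← pow_mul, mul_comm]

lemma mono_single (i : Fin n) (y : V n) : mono (Pi.single i 1) y = y i := by
  rw [mono, Finset.prod_eq_single i] <;> simp +contextual

lemma mono_eq_zero {α : Fin n → ℕ} {y : V n} {i : Fin n} (h : α i ≠ 0) (hy : y i = 0) :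
    mono α y = 0 :=
  Finset.prod_eq_zero (Finset.mem_univ i) (by rw [hy, zero_pow h])

lemma mono_at_zero {α : Fin n → ℕ} (h : α ≠ 0) : mono α 0 = 0 := by
  obtain ⟨i, hi⟩ := Function.ne_iff.1 h
  exact mono_eq_zero hi rfl

lemma mono_sub {α : Fin n → ℕ} {i : Fin n} (h : α i ≠ 0) (y : V n) :
    mono α y = y i * mono (α - Pi.single i 1) y := by
  rw [← mono_single i y, ← mono_add]
  congr 1
  funext j
  by_cases hj : j = i
  · subst hj; simp; omega
  · simp [hj]

lemma sum_sub_lt {α : Fin n → ℕ} {i : Fin n} (h : α i ≠ 0) :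
    ∑ j, (α - Pi.single i 1 : Fin n → ℕ) j < ∑ j, α j :=
  Finset.sum_lt_sum (fun j _ => Nat.sub_le _ _) ⟨i, Finset.mem_univ _, by simp; omega⟩

lemma NZ.mul {f g : V n → ℝ} (hf : AnalyticAt ℝ f 0) (hg : AnalyticAt ℝ g 0) (h1 : NZ f)
    (h2 : NZ g) : NZ fun z => f z * g z := fun h => (mul_eq_zero_germ hf hg h).elim h1 h2

lemma nz_of_ne {f : V n → ℝ} (h : f 0 ≠ 0) : NZ f := fun e => h e.self_of_nhds

lemma nz_prod {ι : Type*} (s : Finset ι) {f : ι → V n → ℝ} (hf : ∀ i ∈ s, AnalyticAt ℝ (f i) 0)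
    (h : ∀ i ∈ s, NZ (f i)) : NZ fun z => ∏ i ∈ s, f i z := by
  classical
  induction s using Finset.induction_on with
  | empty => exact nz_of_ne (by simp)
  | insert a s ha ih =>
    simp only [Finset.prod_insert ha]
    have h1 := fun i hi => hf i (Finset.mem_insert_of_mem hi)
    exact NZ.mul (hf a (Finset.mem_insert_self _ _)) (Finset.analyticAt_fun_prod _ h1)
      (h a (Finset.mem_insert_self _ _)) (ih h1 fun i hi => h i (Finset.mem_insert_of_mem hi))

lemma nz_coord (i : Fin n) : NZ fun y : V n => y i := fun h => by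
  have t : Tendsto (fun r : ℝ => fun _ : Fin n => r) (𝓝[>] 0) (𝓝 0) :=
    tendsto_pi_nhds.2 fun _ => nhdsWithin_le_nhds
  obtain ⟨r, h1, h2⟩ := ((t.eventually h).and self_mem_nhdsWithin).exists
  exact ne_of_gt h2 h1

lemma nz_mono (α : Fin n → ℕ) : NZ (mono α) :=
  nz_prod _ (fun i _ => (an_coord i 0).pow _) fun i _ => by
    simpa using nz_prod (Finset.range (α i)) (fun _ _ => an_coord i 0) fun _ _ => nz_coord i

lemma MU.an {g : V n → ℝ} (h : MU g) : AnalyticAt ℝ g 0 := by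
  obtain ⟨α, u, hu, -, e⟩ := h
  exact ((an_mono α 0).mul hu).congr (e.mono fun y hy => hy.symm)


lemma MU.congr {f g : V n → ℝ} (h : MU f) (e : ∀ᶠ y in 𝓝 0, g y = f y) : MU g := by
  obtain ⟨α, u, hu, h1, e'⟩ := h
  exact ⟨α, u, hu, h1, by filter_upwards [e, e'] with y a b using a.trans b⟩

lemma mu_unit {u : V n → ℝ} (hu : AnalyticAt ℝ u 0) (h : u 0 ≠ 0) : MU u :=
  ⟨0, u, hu, h, .of_forall fun y => by rw [mono_zero, one_mul]⟩

lemma mu_mono (α : Fin n → ℕ) : MU (mono α) :=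
  ⟨α, fun _ => 1, analyticAt_const, one_ne_zero, .of_forall fun y => (mul_one _).symm⟩

lemma mu_coord (i : Fin n) : MU fun y : V n => y i :=
  (mu_mono (Pi.single i 1)).congr (.of_forall fun y => (mono_single i y).symm)

lemma MU.mul {f g : V n → ℝ} (hf : MU f) (hg : MU g) : MU fun y => f y * g y := by
  obtain ⟨α, u, hu, h1, e⟩ := hf
  obtain ⟨β, v, hv, h2, e'⟩ := hg
  refine ⟨α + β, fun y => u y * v y, hu.mul hv, mul_ne_zero h1 h2, ?_⟩
  filter_upwards [e, e'] with y a b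
  rw [a, b, mono_add]; ring

lemma mu_prod {ι : Type*} (s : Finset ι) {f : ι → V n → ℝ} (h : ∀ i ∈ s, MU (f i)) :
    MU fun z => ∏ i ∈ s, f i z := by
  classical
  induction s using Finset.induction_on with
  | empty => exact mu_unit analyticAt_const (by simp)
  | insert a s ha ih =>
    simp only [Finset.prod_insert ha]
    exact (h a (Finset.mem_insert_self _ _)).mul (ih fun i hi => h i (Finset.mem_insert_of_mem hi))

lemma MU.pow {f : V n → ℝ} (hf : MU f) (k : ℕ) : MU fun y => f y ^ k := by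
  simpa using mu_prod (Finset.range k) fun _ _ => hf

lemma tendsto_of_an {ρ : V m → V n} (h : AnalyticAt ℝ ρ 0) (h0 : ρ 0 = 0) :
    Tendsto ρ (𝓝 0) (𝓝 0) := by
  simpa only [ContinuousAt, h0] using h.continuousAt

lemma an_comp {F : Type*} [NormedAddCommGroup F] [NormedSpace ℝ F] {g : V n → F}
    {ρ : V m → V n} (hg : AnalyticAt ℝ g 0) (h : AnalyticAt ℝ ρ 0) (h0 : ρ 0 = 0) :
    AnalyticAt ℝ (fun y => g (ρ y)) 0 :=
  hg.comp_of_eq h h0

lemma MU.comp {g : V n → ℝ} (hg : MU g) {ρ : V m → V n} (h0 : ρ 0 = 0)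
    (hρ : ∀ i, MU fun y => ρ y i) : MU fun y => g (ρ y) := by
  obtain ⟨α, u, hu, h1, e⟩ := hg
  have ha : AnalyticAt ℝ ρ 0 := analyticAt_pi_iff.2 fun i => (hρ i).an
  refine ((mu_prod Finset.univ fun i _ => (hρ i).pow (α i)).mul
    (mu_unit (an_comp hu ha h0) (by rwa [h0]))).congr ?_
  exact (tendsto_of_an ha h0).eventually e

/-- killing the coordinate `i` -/
def kill (i : Fin n) : V n →L[ℝ] V n :=
  ContinuousLinearMap.id ℝ _ - (ContinuousLinearMap.proj i).smulRight (Pi.single i 1)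

lemma kill_apply (i : Fin n) (y : V n) : kill i y = Function.update y i 0 := by
  funext j
  by_cases h : j = i
  · subst h; simp [kill]
  · simp [kill, h]

lemma div_coord {g : V n → ℝ} (hg : AnalyticAt ℝ g 0) (i : Fin n) :
    ∃ h : V n → ℝ, AnalyticAt ℝ h 0 ∧ ∀ᶠ z in 𝓝 0, g z - g (kill i z) = z i * h z :=
  div_lemma hg (kill i) (ContinuousLinearMap.proj i) (Pi.single i 1) fun z => by simp [kill]

lemma kill_tendsto (i : Fin n) : Tendsto (kill i) (𝓝 0) (𝓝 (0 : V n)) :=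
  (kill i).continuous.tendsto' 0 0 (map_zero _)

lemma cancel {f g : V n → ℝ} (hf : AnalyticAt ℝ f 0) (hg : AnalyticAt ℝ g 0) (α : Fin n → ℕ)
    (h : ∀ᶠ y in 𝓝 0, mono α y * f y = mono α y * g y) : ∀ᶠ y in 𝓝 0, f y = g y := by
  refine ((mul_eq_zero_germ (an_mono α 0) (hf.sub hg) ?_).resolve_left (nz_mono α)).mono
    fun y hy => sub_eq_zero.1 hy
  filter_upwards [h] with y hy
  rw [Pi.sub_apply, mul_sub, hy, sub_self]

/-- factors of a monomial times unit -/
lemma MU.of_mul {f g : V n → ℝ} (hf : AnalyticAt ℝ f 0) (hg : AnalyticAt ℝ g 0)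
    (h : MU fun y => f y * g y) : MU f := by
  obtain ⟨α, u, hu, h1, e⟩ := h
  replace e : ∀ᶠ y in 𝓝 0, f y * g y = mono α y * u y := e
  induction hk : ∑ j, α j using Nat.strong_induction_on generalizing α f g with
  | _ k ih =>
  by_cases h0 : α = 0
  · refine mu_unit hf (left_ne_zero_of_mul (b := g 0) ?_)
    rw [e.self_of_nhds, h0, mono_zero, one_mul]; exact h1
  obtain ⟨i, hi⟩ := Function.ne_iff.1 h0
  have hlt := hk ▸ sum_sub_lt hi
  have k0 : kill i 0 = 0 := map_zero _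
  have e0 : ∀ᶠ y in 𝓝 (0 : V n), f (kill i y) * g (kill i y) = 0 := by
    filter_upwards [(kill_tendsto i).eventually e] with y hy
    rw [hy, mono_eq_zero hi (by simp [kill_apply]), zero_mul]
  have hu' := (an_mono (α - Pi.single i 1) 0).mul hu
  rcases mul_eq_zero_germ (an_comp hf ((kill i).analyticAt 0) k0)
    (an_comp hg ((kill i).analyticAt 0) k0) e0 with e1 | e1
  · obtain ⟨h, ha, e2⟩ := div_coord hf i
    have e3 : ∀ᶠ y in 𝓝 0, f y = y i * h y := by
      filter_upwards [e1, e2] with y a b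
      rw [← b, a, sub_zero]
    refine ((mu_coord i).mul (ih _ hlt ha hg _ (cancel (ha.mul hg) hu' (Pi.single i 1) ?_)
      rfl)).congr e3
    filter_upwards [e, e3] with y a b
    rw [mono_single, ← mul_assoc, ← mul_assoc, ← b, a, mono_sub hi]
  · obtain ⟨h, ha, e2⟩ := div_coord hg i
    refine ih _ hlt hf ha _ (cancel (hf.mul ha) hu' (Pi.single i 1) ?_) rfl
    filter_upwards [e, e1, e2] with y a b c
    rw [b, sub_zero] at c
    rw [mono_single, mul_left_comm, ← c, a, mono_sub hi, mul_assoc]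

lemma MU.of_prod {ι : Type*} {s : Finset ι} {f : ι → V n → ℝ}
    (hf : ∀ i ∈ s, AnalyticAt ℝ (f i) 0) (h : MU fun y => ∏ i ∈ s, f i y) {i : ι} (hi : i ∈ s) :
    MU (f i) := by
  classical
  refine MU.of_mul (g := fun y => ∏ j ∈ s.erase i, f j y) (hf i hi)
    (Finset.analyticAt_fun_prod _ fun j hj => hf j (Finset.mem_of_mem_erase hj)) ?_
  exact h.congr (.of_forall fun y => Finset.mul_prod_erase s (fun j => f j y) hi)

/-- a monomial times an analytic germ is divisible only by smaller monomials -/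
lemma le_of_eq {α β : Fin n → ℕ} {u v : V n → ℝ} (hu : AnalyticAt ℝ u 0) (hv : AnalyticAt ℝ v 0)
    (h0 : u 0 ≠ 0) (h : ∀ᶠ y in 𝓝 0, mono α y * u y = mono β y * v y) : β ≤ α := fun i => by
  by_contra hi
  have hi' : α i < β i := not_le.1 hi
  set γ : Fin n → ℕ := Pi.single i (α i)
  have e1 : α = γ + (α - γ) := (add_tsub_cancel_of_le fun j => by
    by_cases hj : j = i
    · subst hj; simp [γ]
    · simp [γ, hj]).symm
  have e2 : β = γ + (β - γ) := (add_tsub_cancel_of_le fun j => by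
    by_cases hj : j = i
    · subst hj; simp [γ, hi'.le]
    · simp [γ, hj]).symm
  have e3 := cancel ((an_mono (α - γ) 0).mul hu) ((an_mono (β - γ) 0).mul hv) γ (by
    filter_upwards [h] with y hy
    rw [Pi.mul_apply, Pi.mul_apply, ← mul_assoc, ← mul_assoc, ← mono_add, ← mono_add, ← e1, ← e2,
      hy])
  refine NZ.mul (an_mono (α - γ) 0) (an_comp hu ((kill i).analyticAt 0) (map_zero _)) (nz_mono _)
    (nz_of_ne (by rwa [map_zero])) ?_
  filter_upwards [(kill_tendsto i).eventually e3] with y hy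
  rw [Pi.mul_apply, Pi.mul_apply, mono_eq_zero (α := β - γ) (i := i) (by simp [γ]; omega)
    (by simp [kill_apply]), zero_mul] at hy
  rw [← hy]
  congr 1
  refine Finset.prod_congr rfl fun j _ => ?_
  by_cases hj : j = i
  · subst hj; simp [γ]
  · simp [kill_apply, hj]

/-- if the difference of two monomials times units is again one, the exponents are comparable -/
lemma cmp {α β : Fin n → ℕ} {u v : V n → ℝ} (hu : AnalyticAt ℝ u 0) (hv : AnalyticAt ℝ v 0)
    (u0 : u 0 ≠ 0) (v0 : v 0 ≠ 0) (h : MU fun y => mono α y * u y - mono β y * v y) :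
    α ≤ β ∨ β ≤ α := by
  obtain ⟨γ, w, hw, w0, e⟩ := h
  set δ := α ⊓ β
  have e1 : α = δ + (α - δ) := (add_tsub_cancel_of_le inf_le_left).symm
  have e2 : β = δ + (β - δ) := (add_tsub_cancel_of_le inf_le_right).symm
  have hd := ((an_mono (α - δ) 0).mul hu).sub ((an_mono (β - δ) 0).mul hv)
  have h1 : δ ≤ γ := le_of_eq hw hd w0 (by
    filter_upwards [e] with y hy
    rw [← hy, Pi.sub_apply, Pi.mul_apply, Pi.mul_apply, mul_sub, ← mul_assoc, ← mul_assoc,
      ← mono_add, ← mono_add, ← e1, ← e2])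
  have e3 : γ = δ + (γ - δ) := (add_tsub_cancel_of_le h1).symm
  have e4 := cancel hd ((an_mono (γ - δ) 0).mul hw) δ (by
    filter_upwards [e] with y hy
    rw [Pi.sub_apply, Pi.mul_apply, Pi.mul_apply, Pi.mul_apply, mul_sub, ← mul_assoc, ← mul_assoc,
      ← mul_assoc, ← mono_add, ← mono_add, ← mono_add, ← e1, ← e2, ← e3, hy])
  by_contra hc
  obtain ⟨⟨i, hi⟩, ⟨j, hj⟩⟩ : (∃ i, β i < α i) ∧ ∃ j, α j < β j := by
    simpa [Pi.le_def, not_or] using hc
  have a0 : (α - δ) i ≠ 0 := by simp [δ]; omega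
  have b0 : (β - δ) j ≠ 0 := by simp [δ]; omega
  have g0 : γ - δ ≠ 0 := fun h0 => by
    have := e4.self_of_nhds
    rw [Pi.sub_apply, Pi.mul_apply, Pi.mul_apply, Pi.mul_apply, mono_eq_zero a0 rfl,
      mono_eq_zero b0 rfl, h0, mono_zero] at this
    exact w0 (by linarith)
  obtain ⟨k, hk⟩ := Function.ne_iff.1 g0
  -- both `α - δ` and `β - δ` are then `≥` the unit vector `k`, or one is `≤` the other
  have t : ∀ {α' β' : Fin n → ℕ} {u' v' w' : V n → ℝ} {j : Fin n}, AnalyticAt ℝ u' 0 →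
      AnalyticAt ℝ v' 0 → AnalyticAt ℝ w' 0 → u' 0 ≠ 0 → α' k = 0 → α' j = 0 → β' j ≠ 0 →
      (∀ᶠ y in 𝓝 0, mono α' y * u' y = mono β' y * v' y + mono (γ - δ) y * w' y) → False := by
    intro α' β' u' v' w' j hu hv hw u0 ak aj bj e
    have k0 : kill k (kill j 0) = 0 := by simp
    have ka : AnalyticAt ℝ (fun y => kill k (kill j y)) (0 : V n) :=
      ((kill k).comp (kill j)).analyticAt 0
    refine NZ.mul (an_mono α' 0) (an_comp hu ka k0) (nz_mono _) (nz_of_ne (by rwa [k0])) ?_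
    filter_upwards [(tendsto_of_an ka k0).eventually e] with y hy
    rw [mono_eq_zero bj (by simp [kill_apply, Function.update_apply]),
      mono_eq_zero hk (by simp [kill_apply]), zero_mul, zero_mul, add_zero] at hy
    rw [← hy]
    congr 1
    refine Finset.prod_congr rfl fun l _ => ?_
    by_cases h1 : l = k
    · subst h1; simp [ak]
    by_cases h2 : l = j
    · subst h2; simp [aj]
    · simp [kill_apply, h1, h2]
  by_cases ak : (α - δ) k = 0
  · refine t hu hv hw u0 ak (by simp [δ]; omega) b0 ?_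
    filter_upwards [e4] with y hy
    simp only [Pi.sub_apply, Pi.mul_apply] at hy ⊢
    linarith
  · refine t hv hu hw.neg v0 (α' := β - δ) (by simp [δ] at ak ⊢; omega) (by simp [δ]; omega) a0 ?_
    filter_upwards [e4] with y hy
    simp only [Pi.sub_apply, Pi.mul_apply, Pi.neg_apply] at hy ⊢
    linarith

end Crest.Agent.N250.Mo
end
end

-- ▼ part N250/L/Tor
section

/-!
Row 250, block L (helper31): lifting an ultrafilter point through elementary maps (blow ups, power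
substitutions), the toric step, expansions in the first variable.
-/

set_option autoImplicit false
set_option linter.unusedSectionVars false
set_option linter.unusedVariables false

open Set Filter Topology Metric
open scoped ContDiff NNReal Nat

noncomputable section

namespace Crest.Agent.N250.Mo

variable {n m : ℕ} {A : Type*} {U : Ultrafilter A}

/-- the point `z` lifts through the analytic germ `π` to the point `y` -/
structure Lift (U : Ultrafilter A) (z : A → V n) (π : V n → V n) (y : A → V n) : Prop where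
  an : AnalyticAt ℝ π 0
  z0 : π 0 = 0
  lim : Tendsto y U (𝓝 0)
  eq : ∀ᶠ a in U, π (y a) = z a

lemma Lift.comp {z y y' : A → V n} {π π' : V n → V n} (h : Lift U z π y) (h' : Lift U y π' y') :
    Lift U z (fun w => π (π' w)) y' :=
  ⟨an_comp h.an h'.an h'.z0, by rw [h'.z0, h.z0], h'.lim, by
    filter_upwards [h.eq, h'.eq] with a e e'
    rw [e', e]⟩

lemma Lift.tendsto {z y : A → V n} {π : V n → V n} (h : Lift U z π y) :
    Tendsto π (𝓝 0) (𝓝 0) := tendsto_of_an h.an h.z0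

lemma lift_id {z : A → V n} (hz : Tendsto z U (𝓝 0)) : Lift U z (fun w => w) z :=
  ⟨analyticAt_id, rfl, hz, .of_forall fun _ => rfl⟩

/-- first coordinate and tail -/
def cs (t : ℝ) (x : V n) : V (n + 1) := Fin.cons t x
/-- tail -/
def tl (w : V (n + 1)) : V n := fun i => w i.succ

@[simp] lemma cs_zero (t : ℝ) (x : V n) : cs t x 0 = t := rfl
@[simp] lemma cs_succ (t : ℝ) (x : V n) (i : Fin n) : cs t x i.succ = x i := rfl
@[simp] lemma tl_cs (t : ℝ) (x : V n) : tl (cs t x) = x := rfl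
@[simp] lemma tl_apply (w : V (n + 1)) (i : Fin n) : tl w i = w i.succ := rfl
@[simp] lemma tl_zero : tl (0 : V (n + 1)) = 0 := rfl
@[simp] lemma cs_tl (w : V (n + 1)) : cs (w 0) (tl w) = w := Fin.cons_self_tail w
@[simp] lemma cs_zero_zero : cs 0 (0 : V n) = 0 := cs_tl 0

lemma an_tl (w : V (n + 1)) : AnalyticAt ℝ tl w := analyticAt_pi_iff.2 fun i => an_coord _ w

lemma an_cs {E : Type*} [NormedAddCommGroup E] [NormedSpace ℝ E] {f : E → ℝ} {g : E → V n} {x : E}
    (hf : AnalyticAt ℝ f x) (hg : AnalyticAt ℝ g x) : AnalyticAt ℝ (fun y => cs (f y) (g y)) x :=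
  analyticAt_pi_iff.2 fun i => Fin.cases hf (fun i => analyticAt_pi_iff.1 hg i) i

lemma an_tl' {g : V n → ℝ} (hg : AnalyticAt ℝ g 0) : AnalyticAt ℝ (fun w => g (tl w)) 0 :=
  an_comp hg (an_tl 0) rfl

lemma tendsto_tl : Tendsto tl (𝓝 0) (𝓝 (0 : V n)) := tendsto_of_an (an_tl 0) rfl

lemma tendsto_cs {l : Filter A} {f : A → ℝ} {g : A → V n} (hf : Tendsto f l (𝓝 0))
    (hg : Tendsto g l (𝓝 0)) : Tendsto (fun a => cs (f a) (g a)) l (𝓝 0) :=
  tendsto_pi_nhds.2 fun i => Fin.cases hf (fun i => tendsto_pi_nhds.1 hg i) i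

lemma MU.tl {g : V n → ℝ} (hg : MU g) : MU fun w => g (tl w) :=
  hg.comp rfl fun i => mu_coord _

lemma Lift.tail {z : A → V (n + 1)} (hz : Tendsto z U (𝓝 0)) {π : V n → V n} {y : A → V n}
    (h : Lift U (fun a => tl (z a)) π y) :
    Lift U z (fun w => cs (w 0) (π (tl w))) fun a => cs (z a 0) (y a) :=
  ⟨an_cs (an_coord 0 0) (an_comp h.an (an_tl 0) rfl), by simp [h.z0],
    tendsto_cs (tendsto_pi_nhds.1 hz 0) h.lim, by
      filter_upwards [h.eq] with a e
      simp [e]⟩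

lemma ratio (U : Ultrafilter A) (f g : A → ℝ) :
    (∃ (c : ℝ) (σ : A → ℝ), Tendsto σ U (𝓝 0) ∧ ∀ᶠ a in U, f a = g a * (c + σ a)) ∨
      ∀ C : ℝ, ∀ᶠ a in U, C * |g a| < |f a| := by
  by_cases h : ∀ C : ℝ, ∀ᶠ a in U, C * |g a| < |f a|
  · exact Or.inr h
  obtain ⟨C, hC⟩ := not_forall.1 h
  have h1 : ∀ᶠ a in U, |f a| ≤ C * |g a| :=
    (Ultrafilter.eventually_not.2 hC).mono fun a ha => not_lt.1 ha
  obtain ⟨c, -, hc⟩ := (isCompact_closedBall (0 : ℝ) |C|).ultrafilter_le_nhds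
    (U.map fun a => f a / g a) (le_principal_iff.2 (by
      rw [Ultrafilter.coe_map, mem_map]
      filter_upwards [h1] with a ha
      rw [mem_preimage, mem_closedBall_zero_iff, Real.norm_eq_abs, abs_div]
      exact div_le_of_le_mul₀ (abs_nonneg _) (abs_nonneg _)
        (ha.trans (mul_le_mul_of_nonneg_right (le_abs_self _) (abs_nonneg _)))))
  refine Or.inl ⟨c, fun a => f a / g a - c, tendsto_sub_nhds_zero_iff.2 hc, ?_⟩
  filter_upwards [h1] with a ha
  by_cases h0 : g a = 0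
  · simpa [h0] using ha
  · field_simp; ring

/-- blow up chart -/
def blow (β : Fin n → ℕ) (c : ℝ) (w : V (n + 1)) : V (n + 1) :=
  cs (mono β (tl w) * (c + w 0)) (tl w)

lemma lift_blow {β : Fin n → ℕ} (hβ : β ≠ 0) {c : ℝ} {σ : A → ℝ} {z : A → V (n + 1)}
    (hz : Tendsto z U (𝓝 0)) (hσ : Tendsto σ U (𝓝 0))
    (e : ∀ᶠ a in U, z a 0 = mono β (tl (z a)) * (c + σ a)) :
    Lift U z (blow β c) fun a => cs (σ a) (tl (z a)) :=
  ⟨an_cs ((an_tl' (an_mono β 0)).mul (analyticAt_const.add (an_coord 0 0))) (an_tl 0),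
    by simp [blow, mono_at_zero hβ], tendsto_cs hσ (tendsto_tl.comp hz), by
      filter_upwards [e] with a ha
      simp [blow, ← ha]⟩

lemma mu_blow (β : Fin n → ℕ) (c : ℝ) (i : Fin (n + 1)) : MU fun w => blow β c w i := by
  refine Fin.cases ((mu_mono β).tl.mul ?_) (fun i => mu_coord i.succ) i
  by_cases hc : c = 0
  · simpa [hc] using mu_coord 0
  · exact mu_unit (analyticAt_const.add (an_coord 0 0)) (by simpa using hc)

/-- the toric step -/
lemma toric (β : Fin n → ℕ) {z : A → V (n + 1)} (hz : Tendsto z U (𝓝 0))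
    (h : ∀ C : ℝ, ∀ᶠ a in U, C * |mono β (tl (z a))| < |z a 0|) :
    ∃ π y, ∃ h : V (n + 1) → ℝ, Lift U z π y ∧ (∀ i, MU fun w => π w i) ∧ AnalyticAt ℝ h 0 ∧
      h 0 = 0 ∧ ∀ᶠ w in 𝓝 0, mono β (tl (π w)) = π w 0 * h w := by
  induction hk : ∑ j, β j using Nat.strong_induction_on generalizing β z with
  | _ k ih =>
  by_cases h0 : β = 0
  · have h1 : ∀ᶠ a in U, |z a 0| < 1 :=
      (tendsto_pi_nhds.1 hz 0).abs.eventually (gt_mem_nhds (by simp))
    obtain ⟨a, h2, h3⟩ := ((h 1).and h1).exists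
    rw [h0, mono_zero] at h2
    simp at h2; linarith
  obtain ⟨i, hi⟩ := Function.ne_iff.1 h0
  replace hi : β i ≠ 0 := hi
  have hs : (Pi.single i 1 : Fin n → ℕ) ≠ 0 := fun e => by simpa using congrFun e i
  rcases ratio U (fun a => z a 0) (fun a => z a i.succ) with ⟨c, σ, hσ, e⟩ | e
  · have L := lift_blow hs hz hσ (c := c) (by simpa only [mono_single, tl_apply] using e)
    by_cases hc : c = 0
    · obtain ⟨π, y, h', L', hm, ha, h0', e'⟩ := ih _ (hk ▸ sum_sub_lt hi) _ L.lim (fun C => by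
        filter_upwards [h C, e] with a h1 h2
        rw [mono_sub hi, h2, hc, zero_add, abs_mul, abs_mul, mul_left_comm] at h1
        exact lt_of_mul_lt_mul_left h1 (abs_nonneg _)) rfl
      refine ⟨_, y, h', L.comp L', fun j => (mu_blow _ c j).comp L'.z0 hm, ha, h0', ?_⟩
      filter_upwards [e'] with w hw
      simp only [blow, tl_cs, cs_zero, mono_single, hc, zero_add]
      rw [mono_sub hi, hw, mul_assoc]
    · have hb : β - Pi.single i 1 ≠ 0 := fun hb => by
        have h1 : ∀ᶠ a in U, |σ a| < 1 := hσ.abs.eventually (gt_mem_nhds (by simp))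
        obtain ⟨a, h2, h3, h4⟩ := ((h (|c| + 1)).and (h1.and e)).exists
        rw [mono_sub hi, hb, mono_zero, mul_one, h4, abs_mul, mul_comm] at h2
        have h5 := lt_of_mul_lt_mul_left h2 (abs_nonneg _)
        have h6 := abs_add_le c (σ a)
        linarith
      have hu : AnalyticAt ℝ (fun w : V (n + 1) => c + w 0) 0 :=
        analyticAt_const.add (an_coord 0 0)
      have u0 : c + (0 : V (n + 1)) 0 ≠ 0 := by simpa using hc
      refine ⟨_, _, fun w => mono (β - Pi.single i 1) (tl w) / (c + w 0), L, mu_blow _ c,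
        (an_tl' (an_mono _ 0)).fun_div hu u0, by simp [mono_at_zero hb], ?_⟩
      filter_upwards [hu.continuousAt.eventually_ne u0] with w hw
      simp only [blow, tl_cs, cs_zero, mono_single]
      rw [mono_sub hi]
      field_simp
  · have hm : ∀ j, MU fun w : V (n + 1) => (if j = i.succ then w 0 else 1) * w j := fun j => by
      refine MU.mul ?_ (mu_coord j)
      split_ifs
      exacts [mu_coord 0, mu_unit analyticAt_const one_ne_zero]
    have e0 : ∀ᶠ a in U, z a 0 ≠ 0 := (e 0).mono fun a ha => by simpa using ha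
    refine ⟨fun w j => (if j = i.succ then w 0 else 1) * w j,
      fun a j => if j = i.succ then z a j / z a 0 else z a j,
      fun w => w 0 ^ (β i - 1) * mono β (tl w),
      ⟨analyticAt_pi_iff.2 fun j => (hm j).an, by ext j; simp, tendsto_pi_nhds.2 fun j => ?_, ?_⟩,
      hm, ((an_coord 0 0).pow _).mul (an_tl' (an_mono β 0)), by simp [mono_at_zero h0],
      .of_forall fun w => ?_⟩
    · split_ifs with hj
      · subst hj
        refine Metric.tendsto_nhds.2 fun ε hε => ?_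
        filter_upwards [e ε⁻¹, e0] with a h1 h2
        rw [Pi.zero_apply, dist_zero_right, Real.norm_eq_abs, abs_div,
          div_lt_iff₀ (abs_pos.2 h2)]
        rwa [inv_mul_lt_iff₀ hε] at h1
      · exact tendsto_pi_nhds.1 hz j
    · filter_upwards [e0] with a ha
      funext j
      by_cases hj : j = i.succ
      · simp only [hj, if_true, if_neg (Fin.succ_ne_zero i).symm]
        field_simp
      · simp [hj]
    · simp only [mono, tl_apply, mul_pow, Finset.prod_mul_distrib, Fin.succ_inj,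
        if_neg (Fin.succ_ne_zero i).symm, one_mul]
      rw [Finset.prod_eq_single i (by simp +contextual) (by simp), if_pos rfl, ← mul_assoc,
        mul_pow_sub_one hi]

/-- power substitution -/
lemma power {N : ℕ} (hN : N ≠ 0) {x : A → V n} (hx : Tendsto x U (𝓝 0)) :
    ∃ (ε : V n) (y : A → V n), (∀ i, ε i ≠ 0) ∧ Lift U x (fun s i => ε i * s i ^ N) y := by
  have h : ∀ i, ∃ ε : ℝ, ε ≠ 0 ∧ ∀ᶠ a in U, ε * |x a i| = x a i := fun i => by
    by_cases h : ∀ᶠ a in U, 0 ≤ x a i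
    · exact ⟨1, one_ne_zero, h.mono fun a ha => by rw [one_mul, abs_of_nonneg ha]⟩
    · refine ⟨-1, by simp, (Ultrafilter.eventually_not.2 h).mono fun a ha => ?_⟩
      rw [abs_of_neg (not_le.1 ha)]; ring
  choose ε h1 h2 using h
  refine ⟨ε, fun a i => |x a i| ^ (N : ℝ)⁻¹, h1,
    analyticAt_pi_iff.2 fun i => analyticAt_const.mul ((an_coord i 0).pow N),
    by ext i; simp [hN], tendsto_pi_nhds.2 fun i => ?_, ?_⟩
  · have := (tendsto_pi_nhds.1 hx i).abs.rpow_const (p := (N : ℝ)⁻¹) (Or.inr (by positivity))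
    rwa [Pi.zero_apply, abs_zero, Real.zero_rpow (inv_ne_zero (Nat.cast_ne_zero.2 hN))] at this
  · filter_upwards [eventually_all.2 h2] with a ha
    funext i
    rw [Real.rpow_inv_natCast_pow (abs_nonneg _) hN, ha i]

/-- expansion in the first variable -/
lemma expand {g : V (n + 1) → ℝ} (hg : AnalyticAt ℝ g 0) (d : ℕ) :
    ∃ (a : ℕ → V n → ℝ) (u : V (n + 1) → ℝ), (∀ j, AnalyticAt ℝ (a j) 0) ∧ AnalyticAt ℝ u 0 ∧
      ∀ᶠ w in 𝓝 0, g w = ∑ j ∈ Finset.range d, a j (tl w) * w 0 ^ j + w 0 ^ d * u w := by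
  induction d with
  | zero => exact ⟨fun _ _ => 0, g, fun _ => analyticAt_const, hg, .of_forall fun w => by simp⟩
  | succ d ih =>
    obtain ⟨a, u, ha, hu, e⟩ := ih
    obtain ⟨h, hh, e'⟩ := div_coord hu 0
    refine ⟨fun j => if j = d then fun x => u (cs 0 x) else a j, h, fun j => ?_, hh, ?_⟩
    · beta_reduce
      split_ifs
      exacts [an_comp hu (an_cs analyticAt_const analyticAt_id) cs_zero_zero, ha j]
    · filter_upwards [e, e'] with w h1 h2
      have h3 : kill 0 w = cs 0 (tl w) := by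
        rw [kill_apply]
        conv_lhs => rw [← cs_tl w]
        exact Fin.update_cons_zero _ _ _
      rw [Finset.sum_range_succ, if_pos rfl, Finset.sum_congr rfl (g := fun j =>
        a j (tl w) * w 0 ^ j) fun j hj => by rw [if_neg (Finset.mem_range.1 hj).ne], h1, ← h3,
        pow_succ]
      linear_combination w 0 ^ d * h2

lemma coef {F u : ℝ → ℝ} {a : ℕ → ℝ} {d : ℕ} (hu : AnalyticAt ℝ u 0)
    (e : ∀ᶠ t in 𝓝 0, F t = ∑ j ∈ Finset.range d, a j * t ^ j + t ^ d * u t) {k : ℕ}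
    (hk : k < d) : iteratedDeriv k F 0 = k ! * a k := by
  have h1 : AnalyticAt ℝ (fun t : ℝ => t ^ d * u t) 0 := (analyticAt_id.pow d).mul hu
  have h2 := (natCast_le_analyticOrderAt_iff_iteratedDeriv_eq_zero h1).1
    ((natCast_le_analyticOrderAt h1).2 ⟨u, hu, .of_forall fun t => by simp⟩) k hk
  rw [Filter.EventuallyEq.iteratedDeriv_eq k e, iteratedDeriv_fun_add (by fun_prop) h1.contDiffAt,
    h2, add_zero, iteratedDeriv_fun_sum fun _ _ => by fun_prop,
    Finset.sum_eq_single k, iteratedDeriv_const_mul_field, iteratedDeriv_pow]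
  · simp [Nat.descFactorial_self, mul_comm]
  · intro j _ hj
    rw [iteratedDeriv_const_mul_field, iteratedDeriv_pow]
    rcases lt_or_gt_of_ne hj with h | h
    · simp [Nat.descFactorial_of_lt h]
    · simp [Nat.sub_ne_zero_of_lt h]
  · simp [hk]

lemma coef_top {F u : ℝ → ℝ} {a : ℕ → ℝ} {d : ℕ} (hu : AnalyticAt ℝ u 0)
    (e : ∀ᶠ t in 𝓝 0, F t = ∑ j ∈ Finset.range d, a j * t ^ j + t ^ d * u t) :
    iteratedDeriv d F 0 = d ! * u 0 := by
  obtain ⟨v, hv, e'⟩ := hu.exists_eq_sum_add_pow_mul 1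
  have := coef (a := fun j => if j = d then u 0 else a j) (d := d + 1) hv (F := F) (by
    filter_upwards [e] with t ht
    rw [Finset.sum_range_succ, if_pos rfl, Finset.sum_congr rfl (g := fun j => a j * t ^ j)
      fun j hj => by rw [if_neg (Finset.mem_range.1 hj).ne], ht, e' t]
    simp; ring) d.lt_succ_self
  rwa [if_pos rfl] at this

/-- the order drops after the blow up -/
lemma poly_ord {b : ℕ → ℝ} {e : ℕ} {u c : ℝ} (hu : u ≠ 0) (hb : b e = 0)
    (h : ∃ j < e + 1, b j ≠ 0) : ∃ k < e + 1, iteratedDeriv k (fun s : ℝ =>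
      ∑ j ∈ Finset.range (e + 1), b j * (c + s) ^ j + (c + s) ^ (e + 1) * u) 0 ≠ 0 := by
  by_contra hc
  push Not at hc
  have h1 := hc e e.lt_succ_self
  rw [iteratedDeriv_comp_const_add e (fun s : ℝ =>
    ∑ j ∈ Finset.range (e + 1), b j * s ^ j + s ^ (e + 1) * u) c] at h1
  simp only [add_zero] at h1
  rw [iteratedDeriv_fun_add (by fun_prop) (by fun_prop),
    iteratedDeriv_fun_sum fun _ _ => by fun_prop, Finset.sum_eq_zero, zero_add,
    iteratedDeriv_mul_const_field, iteratedDeriv_pow] at h1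
  · have h2 : c = 0 := by simpa [hu] using h1
    obtain ⟨j, hj, h3⟩ := h
    have h4 := hc j hj
    rw [coef (a := b) (u := fun _ => u) (d := e + 1) analyticAt_const
      (.of_forall fun t => by simp [h2]) hj] at h4
    exact mul_ne_zero (Nat.cast_ne_zero.2 j.factorial_ne_zero) h3 h4
  · intro j hj
    rw [iteratedDeriv_const_mul_field, iteratedDeriv_pow]
    rcases (Nat.lt_succ_iff.1 (Finset.mem_range.1 hj)).lt_or_eq with h | h
    · simp [Nat.descFactorial_of_lt h]
    · simp [h, hb]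

end Crest.Agent.N250.Mo
end
end

-- ▼ part N250/L/Mono
section

/-!
Row 250, block L (helper31): MONOMIALISATION of a real analytic germ along an ultrafilter point
(one branch of the Bierstone-Milman / Rolin-Speissegger-Wilkie tree of local blow ups).
-/

set_option autoImplicit false
set_option linter.unusedSectionVars false
set_option linter.unusedVariables false

open Set Filter Topology Metric
open scoped ContDiff NNReal Nat

noncomputable section

namespace Crest.Agent.N250.Mo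

variable {n m : ℕ} {A : Type*} {U : Ultrafilter A}

/-- the monomialisation statement in dimension `n` -/
def Mon (U : Ultrafilter A) (n : ℕ) : Prop :=
  ∀ z : A → V n, Tendsto z U (𝓝 0) → ∀ g : V n → ℝ, AnalyticAt ℝ g 0 → NZ g →
    ∃ π y, Lift U z π y ∧ MU fun w => g (π w)

lemma mono_pw (α : Fin n → ℕ) (ε : V n) (N : ℕ) (s : V n) :
    mono α (fun i => ε i * s i ^ N) = mono α ε * mono (N • α) s := by
  simp [mono, mul_pow, Finset.prod_mul_distrib, ← pow_mul]

/-- preparation of the coefficients -/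
lemma prep (hM : Mon U n) {d : ℕ} {a : ℕ → V n → ℝ} (ha : ∀ j, AnalyticAt ℝ (a j) 0)
    (h0 : ∀ j < d, a j 0 = 0) (hJ : ∃ j < d, NZ (a j)) {x : A → V n} (hx : Tendsto x U (𝓝 0)) :
    ∃ π y, ∃ (β : Fin n → ℕ) (b : ℕ → V n → ℝ), Lift U x π y ∧ (∀ i, MU fun s => π s i) ∧ β ≠ 0 ∧
      (∀ j, AnalyticAt ℝ (b j) 0) ∧
      (∀ j < d, ∀ᶠ s in 𝓝 0, a j (π s) = mono ((d - j) • β) s * b j s) ∧
      (∃ j < d, b j 0 ≠ 0) ∧ ∀ j, ¬ NZ (a j) → b j 0 = 0 := by
  classical
  set J := (Finset.range d).filter fun j => NZ (a j) with hJd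
  have mJ : ∀ j, j ∈ J ↔ j < d ∧ NZ (a j) := fun j => by simp [hJd]
  let D : ℕ × ℕ → V n → ℝ := fun p s => a p.1 s ^ (d ! / (d - p.1)) - a p.2 s ^ (d ! / (d - p.2))
  have hD : ∀ p, AnalyticAt ℝ (D p) 0 := fun p => ((ha _).pow _).sub ((ha _).pow _)
  set K := (J ×ˢ J).filter fun p => NZ (D p) with hK
  have a1 : AnalyticAt ℝ (fun s : V n => ∏ i, s i) 0 :=
    Finset.analyticAt_fun_prod _ fun i _ => an_coord i 0
  have a2 : AnalyticAt ℝ (fun s : V n => ∏ j ∈ J, a j s) 0 :=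
    Finset.analyticAt_fun_prod _ fun j _ => ha j
  have a3 : AnalyticAt ℝ (fun s : V n => ∏ p ∈ K, D p s) 0 :=
    Finset.analyticAt_fun_prod _ fun p _ => hD p
  obtain ⟨π, y, L, hG⟩ := hM x hx
    (fun s => (∏ i, s i) * ((∏ j ∈ J, a j s) * ∏ p ∈ K, D p s)) (a1.mul (a2.mul a3))
    (NZ.mul a1 (a2.mul a3) (nz_prod _ (fun i _ => an_coord i 0) fun i _ => nz_coord i)
      (NZ.mul a2 a3 (nz_prod _ (fun j _ => ha j) fun j hj => ((mJ j).1 hj).2)
        (nz_prod _ (fun p _ => hD p) fun p hp => (Finset.mem_filter.1 hp).2)))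
  have c : ∀ {g : V n → ℝ}, AnalyticAt ℝ g 0 → AnalyticAt ℝ (fun w => g (π w)) 0 :=
    fun hg => an_comp hg L.an L.z0
  have m1 := MU.of_mul (c a1) (c (a2.mul a3)) hG
  have m23 := MU.of_mul (c (a2.mul a3)) (c a1) (hG.congr (.of_forall fun w => mul_comm _ _))
  have m2 := MU.of_mul (c a2) (c a3) m23
  have m3 := MU.of_mul (c a3) (c a2) (m23.congr (.of_forall fun w => mul_comm _ _))
  have n1 : ∀ i, MU fun s => π s i := fun i =>
    MU.of_prod (f := fun i w => π w i) (fun i _ => c (an_coord i 0)) m1 (Finset.mem_univ i)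
  have n2 : ∀ j, ∃ (α : Fin n → ℕ) (u : V n → ℝ), AnalyticAt ℝ u 0 ∧ u 0 ≠ 0 ∧
      (j ∈ J → ∀ᶠ w in 𝓝 0, a j (π w) = mono α w * u w) := fun j => by
    by_cases hj : j ∈ J
    · obtain ⟨α, u, h1, h2, h3⟩ :=
        MU.of_prod (f := fun j w => a j (π w)) (fun j _ => c (ha j)) m2 hj
      exact ⟨α, u, h1, h2, fun _ => h3⟩
    · exact ⟨0, fun _ => 1, analyticAt_const, one_ne_zero, fun h => absurd h hj⟩
  choose α u hu u0 e using n2
  let γ : ℕ → Fin n → ℕ := fun j => (d ! / (d - j)) • α j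
  have hc : ∀ j ∈ J, ∀ k ∈ J, γ j ≤ γ k ∨ γ k ≤ γ j := fun j hj k hk => by
    have e1 : ∀ᶠ w in 𝓝 0, mono (γ j) w * u j w ^ (d ! / (d - j)) -
        mono (γ k) w * u k w ^ (d ! / (d - k)) = D (j, k) (π w) := by
      filter_upwards [e j hj, e k hk] with w h1 h2
      simp only [D, γ, h1, h2, mono_smul, mul_pow]
    by_cases h : NZ (D (j, k))
    · exact cmp ((hu j).pow _) ((hu k).pow _) (pow_ne_zero _ (u0 j)) (pow_ne_zero _ (u0 k))
        ((MU.of_prod (f := fun p w => D p (π w)) (fun p _ => c (hD p)) m3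
          (Finset.mem_filter.2 ⟨Finset.mem_product.2 ⟨hj, hk⟩, h⟩)).congr e1)
    · refine Or.inr (le_of_eq ((hu j).pow (d ! / (d - j))) ((hu k).pow (d ! / (d - k)))
        (pow_ne_zero _ (u0 j)) ?_)
      filter_upwards [e1, L.tendsto.eventually (not_not.1 h)] with w h1 h2
      exact sub_eq_zero.1 (h1.trans h2)
  obtain ⟨j0, hj0, hmin⟩ := J.exists_min_image (fun j => ∑ i, γ j i)
    (hJ.imp fun j hj => (mJ j).2 hj)
  have hle : ∀ j ∈ J, γ j0 ≤ γ j := fun j hj => (hc j0 hj0 j hj).elim id fun h i => by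
    by_contra hi
    exact absurd (Finset.sum_lt_sum (fun i _ => h i) ⟨i, Finset.mem_univ _, not_le.1 hi⟩)
      (not_lt.2 (hmin j hj))
  have hγ : ∀ j ∈ J, (d - j) • γ j = d ! • α j := fun j hj => by
    have h1 := ((mJ j).1 hj).1
    rw [smul_smul, Nat.mul_div_cancel' (Nat.dvd_factorial (by omega) (by omega))]
  obtain ⟨ε, y', hε, L'⟩ := power d.factorial_ne_zero L.lim
  have hε' : ∀ α : Fin n → ℕ, mono α ε ≠ 0 := fun α =>
    Finset.prod_ne_zero_iff.2 fun i _ => pow_ne_zero _ (hε i)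
  refine ⟨_, y', γ j0, fun j s => if j ∈ J then mono (α j) ε *
    mono (d ! • α j - (d - j) • γ j0) s * u j fun i => ε i * s i ^ d ! else 0, L.comp L',
    fun i => (n1 i).comp L'.z0 fun k => (mu_unit analyticAt_const (hε k)).mul ((mu_coord k).pow _),
    fun hb => ?_, fun j => ?_, fun j hj => ?_, ⟨j0, ((mJ j0).1 hj0).1, ?_⟩, fun j hj => ?_⟩
  · have h1 := hγ j0 hj0
    rw [hb, smul_zero, eq_comm, smul_eq_zero_iff_right d.factorial_ne_zero] at h1
    have h2 := (e j0 hj0).self_of_nhds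
    rw [L.z0, h0 j0 ((mJ j0).1 hj0).1, h1, mono_zero, one_mul] at h2
    exact u0 j0 h2.symm
  · by_cases hj : j ∈ J
    · simp only [if_pos hj]
      exact (analyticAt_const.mul (an_mono _ 0)).mul (an_comp (hu j) L'.an L'.z0)
    · simp only [if_neg hj]
      exact analyticAt_const
  · by_cases hj' : j ∈ J
    · filter_upwards [L'.tendsto.eventually (e j hj')] with s hs
      have h1 : (d - j) • γ j0 ≤ d ! • α j := hγ j hj' ▸ nsmul_le_nsmul_right (hle j hj') _
      rw [hs, if_pos hj', mono_pw, ← add_tsub_cancel_of_le h1, mono_add, add_tsub_cancel_left]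
      ring
    · filter_upwards [(L.comp L').tendsto.eventually
        (not_not.1 fun h => hj' ((mJ j).2 ⟨hj, h⟩))] with s hs
      rw [hs, if_neg hj', mul_zero]
  · have h1 : (fun i => ε i * (0 : V n) i ^ d !) = 0 := L'.z0
    simp only [if_pos hj0, hγ j0 hj0, tsub_self, mono_zero, h1]
    exact mul_ne_zero (mul_ne_zero (hε' _) one_ne_zero) (u0 j0)
  · exact if_neg fun h => hj ((mJ j).1 h).2

/-- derivatives along the first axis -/
def reg (g : V (n + 1) → ℝ) (k : ℕ) : ℝ := iteratedDeriv k (fun t => g (cs t 0)) 0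

/-- the conclusion of the inner induction -/
def Res (U : Ultrafilter A) (z : A → V (n + 1)) (g : V (n + 1) → ℝ) : Prop :=
  ∃ π y, Lift U z π y ∧ (MU fun w => g (π w)) ∧ ∀ i : Fin n, MU fun w => π w i.succ

lemma core (hM : Mon U n) {e : ℕ}
    (ih : ∀ k < e + 1, ∀ (g : V (n + 1) → ℝ) (z : A → V (n + 1)), AnalyticAt ℝ g 0 →
      Tendsto z U (𝓝 0) → reg g k ≠ 0 → Res U z g)
    {g u : V (n + 1) → ℝ} {a : ℕ → V n → ℝ} (ha : ∀ j, AnalyticAt ℝ (a j) 0)
    (hu : AnalyticAt ℝ u 0) (u0 : u 0 ≠ 0) (h0 : ∀ j < e + 1, a j 0 = 0) (he : ¬ NZ (a e))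
    (hg : ∀ᶠ w in 𝓝 0, g w = ∑ j ∈ Finset.range (e + 1), a j (tl w) * w 0 ^ j +
      w 0 ^ (e + 1) * u w) {z : A → V (n + 1)} (hz : Tendsto z U (𝓝 0)) : Res U z g := by
  by_cases hJ : ∃ j < e + 1, NZ (a j)
  swap
  · refine ⟨_, _, lift_id hz, (((mu_coord 0).pow (e + 1)).mul (mu_unit hu u0)).congr ?_,
      fun i => mu_coord _⟩
    have h1 : ∀ j ∈ Finset.range (e + 1), ∀ᶠ w in 𝓝 (0 : V (n + 1)), a j (tl w) = 0 :=
      fun j hj => tendsto_tl.eventually (not_not.1 fun h => hJ ⟨j, Finset.mem_range.1 hj, h⟩)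
    filter_upwards [hg, (Finset.eventually_all _).2 h1] with w h2 h3
    rw [h2, Finset.sum_eq_zero fun j hj => by rw [h3 j hj, zero_mul], zero_add]
  obtain ⟨π, y, β, b, L, hπ, hβ, hb, e1, b0, b1⟩ := prep hM ha h0 hJ (tendsto_tl.comp hz)
  have L1 := L.tail hz
  have e2 : ∀ᶠ w in 𝓝 (0 : V (n + 1)), g (cs (w 0) (π (tl w))) =
      ∑ j ∈ Finset.range (e + 1), mono β (tl w) ^ (e + 1 - j) * b j (tl w) * w 0 ^ j +
        w 0 ^ (e + 1) * u (cs (w 0) (π (tl w))) := by
    filter_upwards [L1.tendsto.eventually hg, (Finset.eventually_all _).2 fun j hj =>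
      tendsto_tl.eventually (e1 j (Finset.mem_range.1 hj))] with w h1 h2
    rw [h1, tl_cs, cs_zero]
    congr 1
    exact Finset.sum_congr rfl fun j hj => by rw [h2 j hj, mono_smul]
  rcases ratio U (fun a => z a 0) (fun a => mono β (y a)) with ⟨c, σ, hσ, e3⟩ | e3
  · have L2 := lift_blow hβ L1.lim hσ e3
    have hc : AnalyticAt ℝ (fun w : V (n + 1) => c + w 0) 0 := analyticAt_const.add (an_coord 0 0)
    obtain ⟨k, hk, h1⟩ := poly_ord (b := fun j => b j 0) (c := c) u0 (b1 e he) b0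
    obtain ⟨π3, y3, L3, m1, m2⟩ := ih k hk (fun w => ∑ j ∈ Finset.range (e + 1),
      b j (tl w) * (c + w 0) ^ j + (c + w 0) ^ (e + 1) * u (cs (blow β c w 0) (π (tl w)))) _
      ((Finset.analyticAt_fun_sum _ fun j _ => (an_tl' (hb j)).mul (hc.pow j)).add
        ((hc.pow _).mul (an_comp hu (L1.comp L2).an (L1.comp L2).z0))) L2.lim
      (by simpa [reg, blow, mono_at_zero hβ, L.z0] using h1)
    have t0 : tl (π3 0) = 0 := by rw [L3.z0, tl_zero]
    refine ⟨_, y3, (L1.comp L2).comp L3, ((((mu_mono β).comp (ρ := fun w => tl (π3 w)) t0 m2).pow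
      (e + 1)).mul m1).congr ?_,
      fun i => (hπ i).comp t0 m2⟩
    filter_upwards [(L2.comp L3).tendsto.eventually e2] with w hw
    refine hw.trans ?_
    simp only [blow, tl_cs, cs_zero, mul_add _ (∑ j ∈ _, _), Finset.mul_sum, mul_pow]
    congr 1
    · refine Finset.sum_congr rfl fun j hj => ?_
      rw [← pow_sub_mul_pow (mono β (tl (π3 w))) (Finset.mem_range.1 hj).le]
      ring
    · ring
  · obtain ⟨π3, y3, h, L3, m1, hh, h0', e4⟩ := toric β L1.lim e3
    have t0 : tl (π3 0) = 0 := by rw [L3.z0, tl_zero]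
    have ta := an_comp (an_tl 0) L3.an L3.z0
    refine ⟨_, y3, L1.comp L3, (((m1 0).pow (e + 1)).mul (mu_unit (u := fun w =>
      ∑ j ∈ Finset.range (e + 1), h w ^ (e + 1 - j) * b j (tl (π3 w)) +
        u (cs (π3 w 0) (π (tl (π3 w)))))
      ((Finset.analyticAt_fun_sum _ fun j _ => (hh.pow _).mul (an_comp (hb j) ta t0)).add
        (an_comp hu (L1.comp L3).an (L1.comp L3).z0)) ?_)).congr ?_, fun i => (hπ i).comp t0 fun i => m1 i.succ⟩
    · rw [Finset.sum_eq_zero fun j hj => by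
        rw [h0', zero_pow (Nat.sub_ne_zero_of_lt (Finset.mem_range.1 hj)), zero_mul]]
      simpa [L3.z0, L.z0] using u0
    · filter_upwards [L3.tendsto.eventually e2, e4] with w hw h4
      rw [hw, h4, mul_add, Finset.mul_sum]
      congr 1
      refine Finset.sum_congr rfl fun j hj => ?_
      rw [← pow_sub_mul_pow (π3 w 0) (Finset.mem_range.1 hj).le]
      ring

/-- the partial derivative in the first variable -/
def D0 (g : V (n + 1) → ℝ) (w : V (n + 1)) : ℝ := fderiv ℝ g w (cs 1 0)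

lemma an_D0 {g : V (n + 1) → ℝ} {w : V (n + 1)} (hg : AnalyticAt ℝ g w) : AnalyticAt ℝ (D0 g) w :=
  ((ContinuousLinearMap.apply ℝ ℝ (cs 1 (0 : V n))).analyticAt _).comp hg.fderiv

lemma an_D0_iter {g : V (n + 1) → ℝ} {w : V (n + 1)} (hg : AnalyticAt ℝ g w) (k : ℕ) :
    AnalyticAt ℝ (D0^[k] g) w := by
  induction k generalizing g with
  | zero => exact hg
  | succ k ih => exact ih (an_D0 hg)

lemma hasDerivAt_cs (t : ℝ) (x : V n) : HasDerivAt (fun t => cs t x) (cs 1 0) t :=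
  hasDerivAt_pi.2 fun i => Fin.cases (hasDerivAt_id t) (fun i => hasDerivAt_const t (x i)) i

lemma hasDerivAt_D0 {g : V (n + 1) → ℝ} {t : ℝ} {x : V n} (hg : AnalyticAt ℝ g (cs t x)) :
    HasDerivAt (fun t => g (cs t x)) (D0 g (cs t x)) t :=
  hg.differentiableAt.hasFDerivAt.comp_hasDerivAt t (hasDerivAt_cs t x)

lemma iter_D0 {g : V (n + 1) → ℝ} {t : ℝ} {x : V n} (hg : AnalyticAt ℝ g (cs t x)) (k : ℕ) :
    iteratedDeriv k (fun t => g (cs t x)) t = D0^[k] g (cs t x) := by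
  induction k generalizing g with
  | zero => rfl
  | succ k ih =>
    rw [iteratedDeriv_succ', Function.iterate_succ_apply, ← ih (an_D0 hg)]
    refine Filter.EventuallyEq.iteratedDeriv_eq k ?_
    filter_upwards [(hasDerivAt_cs t x).continuousAt.eventually hg.eventually_analyticAt] with s hs
    exact (hasDerivAt_D0 hs).deriv

lemma ift {G : V (n + 1) → ℝ} (hG : AnalyticAt ℝ G 0) (h0 : G 0 = 0) (h1 : D0 G 0 ≠ 0) :
    ∃ ψ : V n → ℝ, AnalyticAt ℝ ψ 0 ∧ ψ 0 = 0 ∧ ∀ᶠ x in 𝓝 0, G (cs (ψ x) x) = 0 := by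
  have h2 : AnalyticAt ℝ (fun p : V n × ℝ => G (cs p.2 p.1)) (0, 0) :=
    hG.comp_of_eq (an_cs analyticAt_snd analyticAt_fst) cs_zero_zero
  have h3 : ContDiffAt ℝ ω (fun p : V n × ℝ => G (cs p.2 p.1)) (0, 0) := h2.contDiffAt
  have h4 : (fderiv ℝ (fun p : V n × ℝ => G (cs p.2 p.1)) (0, 0) ∘L
      ContinuousLinearMap.inr ℝ (V n) ℝ).IsInvertible := by
    refine ⟨ContinuousLinearEquiv.unitsEquivAut ℝ (Units.mk0 _ h1), ?_⟩
    have h5 := h2.differentiableAt.hasFDerivAt.comp_hasDerivAt (f := fun t : ℝ => ((0 : V n), t))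
      0 ((hasDerivAt_const (0 : ℝ) (0 : V n)).prodMk (hasDerivAt_id 0))
    have h6 := hasDerivAt_D0 (t := 0) (x := 0) (g := G) (by rwa [cs_zero_zero])
    ext
    simpa using h6.unique h5
  exact ⟨h3.implicitFunction (by simp) h4, (h3.contDiffAt_implicitFunction (by simp) h4).analyticAt,
    h3.implicitFunction_apply_self (by simp) h4, by
      simpa [h0] using h3.eventually_apply_implicitFunction (by simp) h4⟩

lemma res (hM : Mon U n) (d : ℕ) : ∀ (g : V (n + 1) → ℝ) (z : A → V (n + 1)), AnalyticAt ℝ g 0 →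
    Tendsto z U (𝓝 0) → reg g d ≠ 0 → Res U z g := by
  induction d using Nat.strong_induction_on with
  | _ d ih =>
  intro g z hg hz hd
  by_cases h : ∃ k < d, reg g k ≠ 0
  · obtain ⟨k, hk, h⟩ := h
    exact ih k hk g z hg hz h
  push Not at h
  have hg0 : AnalyticAt ℝ g (cs 0 0) := by rwa [cs_zero_zero]
  rcases d with _ | e
  · exact ⟨_, _, lift_id hz, mu_unit hg (by simpa [reg] using hd), fun i => mu_coord _⟩
  obtain ⟨ψ, hψ, ψ0, e1⟩ := ift (an_D0_iter hg e)
    (by simpa [reg, iter_D0 hg0] using h e e.lt_succ_self)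
    (by simpa [reg, iter_D0 hg0, Function.iterate_succ_apply'] using hd)
  have L : Lift U z (fun w => cs (w 0 + ψ (tl w)) (tl w))
      fun a => cs (z a 0 - ψ (tl (z a))) (tl (z a)) :=
    ⟨an_cs ((an_coord 0 0).add (an_tl' hψ)) (an_tl 0), by simp [ψ0], tendsto_cs (by
      simpa [ψ0] using (tendsto_pi_nhds.1 hz 0).sub
        (hψ.continuousAt.tendsto.comp (tendsto_tl.comp hz))) (tendsto_tl.comp hz),
      .of_forall fun a => by simp⟩
  obtain ⟨a, u, ha, hu, e2⟩ := expand (an_comp hg L.an L.z0) (e + 1)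
  have t0 : Tendsto (fun x : V n => cs 0 x) (𝓝 0) (𝓝 0) := tendsto_cs tendsto_const_nhds tendsto_id
  have e3 : ∀ᶠ x in 𝓝 (0 : V n), AnalyticAt ℝ (fun t => u (cs t x)) 0 ∧ ∀ᶠ t in 𝓝 0,
      g (cs (t + ψ x) x) = ∑ j ∈ Finset.range (e + 1), a j x * t ^ j + t ^ (e + 1) * u (cs t x) := by
    filter_upwards [t0.eventually hu.eventually_analyticAt, t0.eventually e2.eventually_nhds]
      with x h1 h2
    exact ⟨h1.comp_of_eq (an_cs analyticAt_id analyticAt_const) rfl,
      (hasDerivAt_cs 0 x).continuousAt.eventually h2⟩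
  obtain ⟨e4, e5⟩ := e3.self_of_nhds
  simp only [ψ0, add_zero] at e5
  obtain ⟨π, y, L', m1, m2⟩ := core hM ih ha hu (fun h0 => hd (by
      rw [reg, coef_top e4 e5, cs_zero_zero, h0, mul_zero]))
    (fun j hj => (mul_eq_zero.1 ((coef e4 e5 hj).symm.trans (h j hj))).resolve_left
      (Nat.cast_ne_zero.2 j.factorial_ne_zero)) (not_not.2 (by
      have t1 : Tendsto (fun x : V n => cs (ψ x) x) (𝓝 0) (𝓝 0) :=
        tendsto_cs (by simpa only [ContinuousAt, ψ0] using hψ.continuousAt) tendsto_id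
      filter_upwards [e1, e3, t1.eventually hg.eventually_analyticAt] with x h1 h2 h3
      have h4 := coef h2.1 h2.2 e.lt_succ_self
      rw [iteratedDeriv_comp_add_const e (fun t => g (cs t x)) (ψ x)] at h4
      simp only [zero_add] at h4
      rw [iter_D0 h3, h1] at h4
      exact (mul_eq_zero.1 h4.symm).resolve_left (Nat.cast_ne_zero.2 e.factorial_ne_zero)))
    e2 L.lim
  exact ⟨_, y, L.comp L', m1, m2⟩

lemma exists_dir {g : V (n + 1) → ℝ} (hg : AnalyticAt ℝ g 0) (h : NZ g) :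
    ∃ (v : V (n + 1)) (d : ℕ), v 0 ≠ 0 ∧ iteratedDeriv d (fun t : ℝ => g (t • v)) 0 ≠ 0 := by
  obtain ⟨r, hr, H⟩ := Metric.eventually_nhds_iff_ball.1 hg.eventually_analyticAt
  obtain ⟨v, hv, h1⟩ : ∃ v ∈ ball (0 : V (n + 1)) r, g v * v 0 ≠ 0 := by
    by_contra hc
    push Not at hc
    exact NZ.mul hg (an_coord 0 0) h (nz_coord 0) (mem_of_superset (ball_mem_nhds _ hr) hc)
  refine ⟨v, ?_⟩
  by_contra hc
  push Not at hc
  have h2 : AnalyticOnNhd ℝ (fun t : ℝ => g (t • v)) (Icc 0 1) := fun t ht =>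
    (H _ (by
      rw [mem_ball_zero_iff, norm_smul, Real.norm_of_nonneg ht.1]
      exact (mul_le_of_le_one_left (norm_nonneg _) ht.2).trans_lt (mem_ball_zero_iff.1 hv))).comp
      (f := fun t : ℝ => t • v) (analyticAt_id.smul analyticAt_const)
  have h3 : analyticOrderAt (fun t : ℝ => g (t • v)) 0 = ⊤ :=
    ENat.eq_top_iff_forall_ge.2 fun k => (natCast_le_analyticOrderAt_iff_iteratedDeriv_eq_zero
      (h2 0 (by simp))).2 fun i _ => hc i (right_ne_zero_of_mul h1)
  have h4 := h2.eqOn_zero_of_preconnected_of_eventuallyEq_zero isPreconnected_Icc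
    (z₀ := 0) (by simp) (analyticOrderAt_eq_top.1 h3) (x := 1) (by simp)
  exact left_ne_zero_of_mul h1 (by simpa using h4)

/-- MONOMIALISATION -/
theorem mon (U : Ultrafilter A) (n : ℕ) : Mon U n := by
  induction n with
  | zero =>
    intro z hz g hg h
    exact ⟨_, _, lift_id hz, mu_unit hg fun h0 => h (.of_forall fun w => by
      rw [Subsingleton.elim w 0, h0])⟩
  | succ n ih =>
    intro z hz g hg h
    obtain ⟨v, d, v0, hd⟩ := exists_dir hg h
    have t0 : Tendsto (fun a => z a 0 / v 0) U (𝓝 0) := by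
      simpa using (tendsto_pi_nhds.1 hz 0).div_const (v 0)
    have L : Lift U z (fun w => w 0 • v + cs 0 (tl w))
        fun a => cs (z a 0 / v 0) (tl (z a) - (z a 0 / v 0) • tl v) :=
      ⟨((an_coord 0 0).smul analyticAt_const).add (an_cs analyticAt_const (an_tl 0)), by simp,
        tendsto_cs t0 (by simpa using (tendsto_tl.comp hz).sub (t0.smul_const (tl v))),
        .of_forall fun a => funext fun i => Fin.cases (by simp [v0]) (fun i => by simp) i⟩
    obtain ⟨π, y, L', m1, -⟩ := res ih d _ _ (an_comp hg L.an L.z0) L.lim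
      (by simpa [reg] using hd)
    exact ⟨_, y, L.comp L', m1⟩

end Crest.Agent.N250.Mo
end
end

-- ▼ part N250/L/PA2
section

/-!
# Row 250, block (L): pro-analytic germs on `V n` with a coordinate as gauge (helper53)

Division by a coordinate, stripping of the gauge variable, domain property, implicit root, expansion in the first
variable, Tschirnhaus shift.
-/

set_option autoImplicit false
set_option linter.unusedVariables false

open Set Filter Topology Asymptotics Metric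
open scoped Nat

noncomputable section

namespace Crest.Agent.N250.PA

open Crest.Agent.N250.Mo

variable {n m : ℕ}

/-- the coordinate gauge -/
abbrev gc (s : Fin n) : V n → ℝ := fun w => w s

theorem gg (s : Fin n) : Gauge (gc s) := gauge_coord s

/-- an inequality off a coordinate hyperplane extends to the hyperplane -/
theorem le_of_dense {q b : V n → ℝ} {z : V n} (i : Fin n) (hq : ContinuousAt q z)
    (hb : ContinuousAt b z) (h : ∀ᶠ y in 𝓝 z, y i ≠ 0 → q y ≤ b y) : q z ≤ b z := by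
  by_cases hz : z i = 0
  swap
  · exact h.self_of_nhds hz
  have t : Tendsto (fun t : ℝ => z + t • (Pi.single i 1 : V n)) (𝓝[≠] 0) (𝓝 z) := by
    have : Continuous fun t : ℝ => z + t • (Pi.single i 1 : V n) := by fun_prop
    exact (this.tendsto' 0 z (by simp)).mono_left nhdsWithin_le_nhds
  refine le_of_tendsto_of_tendsto (hq.tendsto.comp t) (hb.tendsto.comp t) ?_
  filter_upwards [t.eventually h, self_mem_nhdsWithin] with x h1 h2
  exact h1 (by simpa [hz] using h2)

theorem abs_kill_le (i j : Fin n) (z : V n) : |kill i z j| ≤ |z j| := by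
  rw [kill_apply]
  by_cases h : j = i
  · subst h; simp
  · simp [h]

theorem kill_isBigO (s i : Fin n) : (fun w => gc s (kill i w)) =O[𝓝 0] gc s :=
  IsBigO.of_bound 1 (.of_forall fun w => by simpa using abs_kill_le i s w)

theorem IsPA.kill {s : Fin n} {g : V n → ℝ} (H : IsPA (gc s) g) (i : Fin n) :
    IsPA (gc s) fun w => g (kill i w) :=
  H.comp (gg s) (IsPA.of_analytic ((Mo.kill i).analyticAt 0)) (map_zero _) (kill_isBigO s i)

theorem Null.kill {s : Fin n} {g : V n → ℝ} (H : Null (gc s) g) (i : Fin n) :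
    Null (gc s) fun w => g (kill i w) := H.comp (kill_tendsto i) (kill_isBigO s i)

/-- the Hadamard quotient of an analytic `O(s^(2N))` germ is `O(s^N)` -/
theorem Ord.div {s i : Fin n} {N : ℕ} {k q : V n → ℝ} (hk : AnalyticAt ℝ k 0)
    (hq : AnalyticAt ℝ q 0) (e : ∀ᶠ z in 𝓝 0, k z - k (kill i z) = z i * q z)
    (H : Ord (gc s) (2 * N) k) : Ord (gc s) N q := by
  obtain ⟨C, hC, hb⟩ := IsBigO.exists_pos (Ord.fderiv (gg s) hk H)
  obtain ⟨r, hr, hB⟩ := Metric.eventually_nhds_iff_ball.1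
    (hb.bound.and (e.and (hk.eventually_analyticAt.and hq.eventually_analyticAt)))
  have key : ∀ z ∈ ball (0 : V n) r, z i ≠ 0 → |q z| ≤ C * |z s| ^ N := by
    intro z hz hi
    have cv : Convex ℝ (ball (0 : V n) r ∩ {y | |y s| ≤ |z s|}) := by
      refine (convex_ball _ _).inter ?_
      have : {y : V n | |y s| ≤ |z s|} =
          (LinearMap.proj s : V n →ₗ[ℝ] ℝ) ⁻¹' Icc (-|z s|) |z s| := by
        ext y; simp [abs_le]
      rw [this]
      exact (convex_Icc _ _).linear_preimage _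
    have hk1 : kill i z ∈ ball (0 : V n) r := by
      rw [mem_ball_zero_iff] at hz ⊢
      refine lt_of_le_of_lt ((pi_norm_le_iff_of_nonneg (norm_nonneg _)).2 fun j => ?_) hz
      exact (abs_kill_le i j z).trans (norm_le_pi_norm z j)
    have mv := cv.norm_image_sub_le_of_norm_fderiv_le (𝕜 := ℝ) (f := k) (C := C * |z s| ^ N)
      (fun y hy => (hB y hy.1).2.2.1.differentiableAt)
      (fun y hy => (hB y hy.1).1.trans (by
        rw [Real.norm_eq_abs, abs_pow]
        have : |y s| ≤ |z s| := hy.2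
        exact mul_le_mul_of_nonneg_left (pow_le_pow_left₀ (abs_nonneg _) this N) hC.le))
      (x := kill i z) (y := z) ⟨hk1, abs_kill_le i s z⟩ ⟨hz, (le_rfl : |z s| ≤ |z s|)⟩
    have e1 : z - kill i z = z i • (Pi.single i 1 : V n) := by simp [Mo.kill]
    rw [(hB z hz).2.1, e1, norm_smul, Pi.norm_single, norm_one, mul_one, norm_mul,
      mul_comm (C * |z s| ^ N)] at mv
    exact le_of_mul_le_mul_left mv (norm_pos_iff.2 hi)
  refine IsBigO.of_bound C ?_
  filter_upwards [ball_mem_nhds (0 : V n) hr] with z hz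
  rw [Real.norm_eq_abs, Real.norm_eq_abs, abs_pow]
  refine le_of_dense (q := fun y => |q y|) (b := fun y => C * |y s| ^ N) i
    (hB z hz).2.2.2.continuousAt.abs (Continuous.continuousAt (by fun_prop)) ?_
  filter_upwards [isOpen_ball.mem_nhds hz] with y hy
  exact key y hy

/-- **division by a coordinate** -/
theorem IsPA.div_coord {s : Fin n} {g : V n → ℝ} (H : IsPA (gc s) g) (i : Fin n) :
    ∃ h : V n → ℝ, IsPA (gc s) h ∧ Null (gc s) fun z => g z - (g (Mo.kill i z) + z i * h z) := by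
  obtain ⟨h, hh, hR⟩ := realise (gg s) (fun N q => ∃ k, App (gc s) (2 * N) g k ∧
      ∀ᶠ z in 𝓝 0, k z - k (Mo.kill i z) = z i * q z)
    (fun N => by
      obtain ⟨k, hk⟩ := H (2 * N)
      obtain ⟨q, hq, e⟩ := Mo.div_coord hk.1 i
      exact ⟨q, hq, k, hk, e⟩)
    (by
      rintro N q q' hq hq' ⟨k, hk, e⟩ ⟨k', hk', e'⟩
      refine Ord.div (i := i) (k := fun z => k' z - k z) (hk'.1.sub hk.1) (hq'.sub hq) ?_
        ((hk'.mono (gg s) (by omega)).2.symm.tri hk.2)
      filter_upwards [e, e'] with z h1 h2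
      linear_combination h2 - h1)
  refine ⟨h, hh, fun N => ?_⟩
  obtain ⟨q, ⟨k, hk, e⟩, hq⟩ := hR N
  have h1 := hk.2.mono (gg s) (show N ≤ 2 * N by omega)
  have h2 := h1.comp (kill_tendsto i) (kill_isBigO s i)
  have h3 := hq.2.smul_bdd ((IsPA.coord (om := gc s) i).bdd (gg s))
  refine ((h1.sub h2).sub h3).congr' ?_
  filter_upwards [e] with z hz
  simp only [smul_eq_mul]
  linear_combination -hz

/-- the restriction to the zero set of the gauge is analytic -/
theorem IsPA.an_kill {s : Fin n} {g : V n → ℝ} (H : IsPA (gc s) g) :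
    AnalyticAt ℝ (fun w => g (Mo.kill s w)) 0 :=
  H.analyticAt_comp ((Mo.kill s).analyticAt 0) (map_zero _)
    (.of_forall fun w => by simp [gc, kill_apply])


/-- **stripping the gauge variable** -/
theorem IsPA.strip {s : Fin n} {g : V n → ℝ} (H : IsPA (gc s) g) (hn : ¬ Null (gc s) g) :
    ∃ (k : ℕ) (g' : V n → ℝ), IsPA (gc s) g' ∧ (Null (gc s) fun z => g z - z s ^ k * g' z) ∧
      NZ fun z => g' (Mo.kill s z) := by
  by_contra hc
  push Not at hc
  have key : ∀ k : ℕ, ∃ g' : V n → ℝ, IsPA (gc s) g' ∧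
      Null (gc s) fun z => g z - z s ^ k * g' z := by
    intro k
    induction k with
    | zero => exact ⟨g, H, (Null.refl g).congr fun w => by simp⟩
    | succ k ih =>
      obtain ⟨g', h1, h2⟩ := ih
      obtain ⟨h, h3, h4⟩ := h1.div_coord s
      refine ⟨h, h3, ?_⟩
      have h5 := not_not.1 (hc k g' h1 h2)
      refine (h2.add (h4.mul_left (gg s) ((IsPA.coord s).pow (gg s) k))).congr' ?_
      filter_upwards [h5] with z hz
      rw [hz]; ring
  refine hn fun N => ?_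
  obtain ⟨g', h1, h2⟩ := key N
  refine ((h2 N).add ((Ord.pow_self (om := gc s) N).smul_bdd' (h1.bdd (gg s)))).congr fun w => ?_
  simp [gc]

theorem not_null_of_nz {s : Fin n} {g : V n → ℝ} (H : IsPA (gc s) g)
    (hz : NZ fun z => g (Mo.kill s z)) (k : ℕ) : ¬ Null (gc s) fun z => z s ^ k * g z := by
  intro hn
  obtain ⟨l, hl⟩ := H 1
  obtain ⟨C, hC, hb⟩ := IsBigO.exists_pos (hn (k + 1))
  obtain ⟨C', hC', hb'⟩ := IsBigO.exists_pos hl.2
  have e1 : ∀ᶠ z in 𝓝 (0 : V n), z s ≠ 0 → |l z| ≤ (C + C') * |z s| := by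
    filter_upwards [hb.bound, hb'.bound] with z h1 h2 h0
    simp only [gc, Real.norm_eq_abs, abs_mul, abs_pow, pow_one] at h1 h2
    have h3 : |g z| ≤ C * |z s| := by
      rw [pow_succ, mul_left_comm] at h1
      exact le_of_mul_le_mul_left h1 (by positivity)
    have h4 := abs_sub_abs_le_abs_sub (l z) (g z)
    rw [abs_sub_comm] at h4
    linarith
  refine hz ?_
  filter_upwards [(kill_tendsto s).eventually
    (e1.eventually_nhds.and (hl.1.eventually_analyticAt.and hl.2.eq_zero))] with z hz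
  have h0 : Mo.kill s z s = 0 := by simp [kill_apply]
  have h1 := le_of_dense (q := fun y => |l y|) (b := fun y => (C + C') * |y s|) s
    hz.2.1.continuousAt.abs (Continuous.continuousAt (by fun_prop)) hz.1
  simp only [h0, abs_zero, mul_zero, abs_nonpos_iff] at h1
  rw [← h1]
  exact sub_eq_zero.1 (hz.2.2 h0)

/-- **domain property** -/
theorem not_null_mul {s : Fin n} {f g : V n → ℝ} (hf : IsPA (gc s) f) (hg : IsPA (gc s) g)
    (h1 : ¬ Null (gc s) f) (h2 : ¬ Null (gc s) g) : ¬ Null (gc s) fun z => f z * g z := by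
  obtain ⟨k, f', a1, a2, a3⟩ := hf.strip h1
  obtain ⟨l, g', b1, b2, b3⟩ := hg.strip h2
  intro hn
  refine not_null_of_nz (a1.mul (gg s) b1) (NZ.mul a1.an_kill b1.an_kill a3 b3) (k + l) ?_
  refine (hn.of_sub (Null.mul_congr (gg s) hf (((IsPA.coord s).pow (gg s) l).mul (gg s) b1)
    a2 b2)).congr fun w => by ring

theorem null_or_null {s : Fin n} {f g : V n → ℝ} (hf : IsPA (gc s) f) (hg : IsPA (gc s) g)
    (h : Null (gc s) fun z => f z * g z) : Null (gc s) f ∨ Null (gc s) g := by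
  by_contra hc
  push Not at hc
  exact not_null_mul hf hg hc.1 hc.2 h

theorem not_null_of_ne {s : Fin n} {f : V n → ℝ} (h : f 0 ≠ 0) : ¬ Null (gc s) f :=
  fun e => h ((e 1).apply_zero (gg s))

theorem not_null_coord (s i : Fin n) : ¬ Null (gc s) fun y : V n => y i := by
  by_cases h : i = s
  · subst h
    have := not_null_of_nz (s := i) (IsPA.const (1 : ℝ)) (nz_of_ne one_ne_zero) 1
    simpa using this
  · have := not_null_of_nz (s := s) (IsPA.coord i) (by simpa [kill_apply, h] using nz_coord i) 0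
    simpa using this

theorem not_null_prod {s : Fin n} {ι : Type*} (t : Finset ι) {f : ι → V n → ℝ}
    (hf : ∀ i ∈ t, IsPA (gc s) (f i)) (h : ∀ i ∈ t, ¬ Null (gc s) (f i)) :
    ¬ Null (gc s) fun z => ∏ i ∈ t, f i z := by
  classical
  induction t using Finset.induction_on with
  | empty => exact not_null_of_ne (by simp)
  | insert i t hi ih =>
    simp only [Finset.prod_insert hi]
    exact not_null_mul (hf i (Finset.mem_insert_self _ _))
      (IsPA.prod (gg s) fun j hj => hf j (Finset.mem_insert_of_mem hj))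
      (h i (Finset.mem_insert_self _ _))
      (ih (fun j hj => hf j (Finset.mem_insert_of_mem hj)) fun j hj => h j (Finset.mem_insert_of_mem hj))

theorem not_null_pow {s : Fin n} {f : V n → ℝ} (hf : IsPA (gc s) f) (h : ¬ Null (gc s) f) (k : ℕ) :
    ¬ Null (gc s) fun z => f z ^ k := by
  simpa using not_null_prod (Finset.range k) (f := fun _ => f) (fun _ _ => hf) fun _ _ => h

theorem pa_mono {om : V n → ℝ} (α : Fin n → ℕ) : IsPA om (mono α) := IsPA.of_analytic (an_mono α 0)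

theorem not_null_mono (s : Fin n) (α : Fin n → ℕ) : ¬ Null (gc s) (mono α) :=
  not_null_prod Finset.univ (f := fun i y => y i ^ α i)
    (fun i _ => (IsPA.coord i).pow (gg s) _) fun i _ =>
      not_null_pow (IsPA.coord i) (not_null_coord s i) _

theorem cancel {s : Fin n} {f g : V n → ℝ} (hf : IsPA (gc s) f) (hg : IsPA (gc s) g)
    (α : Fin n → ℕ) (h : Null (gc s) fun y => mono α y * f y - mono α y * g y) :
    Null (gc s) fun y => f y - g y :=
  (null_or_null (pa_mono α) (hf.sub hg) (h.congr fun w => by ring)).resolve_left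
    (not_null_mono s α)

/-! ### The first variable -/

theorem pa_cs {E : Type*} [NormedAddCommGroup E] [NormedSpace ℝ E] {om : E → ℝ} {f : E → ℝ}
    {g : E → V n} (hf : IsPA om f) (hg : IsPA om g) : IsPA om fun y => cs (f y) (g y) :=
  IsPA.pi fun i => Fin.cases hf (fun i => hg.apply i) i

theorem IsPA.tl {s : Fin n} {F : Type*} [NormedAddCommGroup F] [NormedSpace ℝ F] {g : V n → F}
    (hg : IsPA (gc s) g) : IsPA (gc s.succ) fun w => g (tl w) :=
  hg.comp (gg _) (IsPA.of_analytic (an_tl 0)) rfl (isBigO_refl _ _)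

theorem Null.tl {s : Fin n} {F : Type*} [NormedAddCommGroup F] {g : V n → F}
    (hg : Null (gc s) g) : Null (gc s.succ) fun w => g (tl w) :=
  hg.comp tendsto_tl (isBigO_refl _ _)

theorem IsPA.cs_comp {s : Fin n} {g : V (n + 1) → ℝ} (hg : IsPA (gc s.succ) g) {ψ : V n → ℝ}
    (hψ : IsPA (gc s) ψ) (h0 : ψ 0 = 0) : IsPA (gc s) fun x => g (cs (ψ x) x) :=
  hg.comp (gg _) (pa_cs hψ IsPA.id) (by simp [h0]) (isBigO_refl _ _)

/-- the restriction to the first axis is analytic -/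
theorem IsPA.an_axis {s : Fin n} {g : V (n + 1) → ℝ} (hg : IsPA (gc s.succ) g) :
    AnalyticAt ℝ (fun t : ℝ => g (cs t 0)) 0 :=
  hg.analyticAt_comp (an_cs analyticAt_id analyticAt_const) cs_zero_zero (.of_forall fun _ => rfl)

theorem Ord.axis {s : Fin n} {N : ℕ} {g : V (n + 1) → ℝ} (hg : Ord (gc s.succ) (N + 1) g) :
    ∀ᶠ t in 𝓝 (0 : ℝ), g (cs t 0) = 0 := by
  have t : Tendsto (fun t : ℝ => cs t (0 : V n)) (𝓝 0) (𝓝 0) := tendsto_cs tendsto_id tendsto_const_nhds
  filter_upwards [t.eventually hg.eq_zero] with x hx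
  exact hx rfl

theorem reg_congr {s : Fin n} {g g' : V (n + 1) → ℝ}
    (h : Ord (gc s.succ) 1 fun w => g w - g' w) (k : ℕ) : reg g k = reg g' k :=
  Filter.EventuallyEq.iteratedDeriv_eq k ((Ord.axis h).mono fun _ ht => sub_eq_zero.1 ht)

/-- **expansion in the first variable** -/
theorem IsPA.expand {s : Fin n} {g : V (n + 1) → ℝ} (hg : IsPA (gc s.succ) g) (d : ℕ) :
    ∃ (a : ℕ → V n → ℝ) (u : V (n + 1) → ℝ), (∀ j, IsPA (gc s) (a j)) ∧ IsPA (gc s.succ) u ∧
      Null (gc s.succ) fun w =>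
        g w - (∑ j ∈ Finset.range d, a j (Mo.tl w) * w 0 ^ j + w 0 ^ d * u w) := by
  induction d with
  | zero => exact ⟨fun _ _ => 0, g, fun _ => IsPA.const _, hg, (Null.refl g).congr fun w => by simp⟩
  | succ d ih =>
    obtain ⟨a, u, ha, hu, e⟩ := ih
    obtain ⟨h, hh, e'⟩ := hu.div_coord 0
    refine ⟨fun j => if j = d then fun x => u (cs 0 x) else a j, h, fun j => ?_, hh, ?_⟩
    · beta_reduce
      split_ifs
      exacts [hu.cs_comp (IsPA.const 0) rfl, ha j]
    · refine (e.add (e'.mul_left (gg _) ((IsPA.coord 0).pow (gg _) d))).congr fun w => ?_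
      have h3 : Mo.kill 0 w = cs 0 (Mo.tl w) := by
        rw [kill_apply]
        conv_lhs => rw [← cs_tl w]
        exact Fin.update_cons_zero _ _ _
      beta_reduce
      rw [Finset.sum_range_succ, if_pos rfl, Finset.sum_congr (s₁ := Finset.range d) rfl
        (f := fun j => (if j = d then fun x => u (cs 0 x) else a j) (Mo.tl w) * w 0 ^ j)
        (g := fun j => a j (Mo.tl w) * w 0 ^ j)
        fun j hj => by rw [if_neg (Finset.mem_range.1 hj).ne], h3]
      ring

/-- **implicit root** -/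
theorem IsPA.ift {s : Fin n} {G : V (n + 1) → ℝ} (hG : IsPA (gc s.succ) G) (h0 : G 0 = 0)
    (h1 : reg G 1 ≠ 0) :
    ∃ ψ : V n → ℝ, IsPA (gc s) ψ ∧ ψ 0 = 0 ∧ Null (gc s) fun x => G (cs (ψ x) x) := by
  have hD : ∀ {N : ℕ} {k : V (n + 1) → ℝ}, App (gc s.succ) (N + 1) G k → k 0 = 0 ∧ D0 k 0 ≠ 0 := by
    intro N k hk
    refine ⟨(hk.apply_zero (gg _)).symm.trans h0, ?_⟩
    rw [reg_congr (hk.2.mono (gg _) (by omega)), reg,
      iter_D0 (by rw [cs_zero_zero]; exact hk.1)] at h1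
    simpa using h1
  have tc : ∀ {ψ : V n → ℝ}, ContinuousAt ψ 0 → ψ 0 = 0 →
      Tendsto (fun x => cs (ψ x) x) (𝓝 0) (𝓝 0) := fun h h' =>
    tendsto_cs (by simpa only [ContinuousAt, h'] using h) tendsto_id
  obtain ⟨ψ, hψ, hR⟩ := realise (gg s) (fun N ψ => ψ 0 = 0 ∧ ∃ k, App (gc s.succ) (N + 1) G k ∧
      ∀ᶠ x in 𝓝 0, k (cs (ψ x) x) = 0)
    (fun N => by
      obtain ⟨k, hk⟩ := hG (N + 1)
      obtain ⟨ψ, a1, a2, a3⟩ := Mo.ift hk.1 (hD hk).1 (hD hk).2
      exact ⟨ψ, a1, a2, k, hk, a3⟩)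
    (by
      rintro N ψ ψ' a a' ⟨b, k, hk, e⟩ ⟨b', k', hk', e'⟩
      have t := tc a.continuousAt b
      have t' := tc a'.continuousAt b'
      have o1 : Ord (gc s) N fun x => k (cs (ψ' x) x) - k (cs (ψ x) x) := by
        have := (((hk.mono (gg _) (Nat.le_succ N)).2.symm.tri
          (hk'.mono (gg _) (show N ≤ N + 1 + 1 by omega)).2).comp (om' := gc s) t'
          (isBigO_refl _ _))
        refine this.congr' ?_
        filter_upwards [e, e'] with x h1 h2
        rw [h1, h2]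
      refine o1.of_isBigO ?_
      have o2 := (hk.1.hasStrictFDerivAt.isLittleO.comp_tendsto (t'.prodMk_nhds t))
      have hc := (hD hk).2
      have e1 : ∀ x, cs (ψ' x) x - cs (ψ x) x = (ψ' x - ψ x) • cs 1 (0 : V n) := fun x =>
        funext fun i => Fin.cases (by simp) (fun i => by simp) i
      have n1 : ‖cs 1 (0 : V n)‖ ≤ 1 := (pi_norm_le_iff_of_nonneg zero_le_one).2 fun i =>
        Fin.cases (by simp) (fun i => by simp) i
      refine IsBigO.of_bound (2 / |D0 k 0|) ?_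
      filter_upwards [o2.bound (c := |D0 k 0| / 2) (by positivity)] with x hx
      simp only [Function.comp, e1, map_smul, norm_smul, Real.norm_eq_abs, smul_eq_mul] at hx ⊢
      change |_ - (ψ' x - ψ x) * D0 k 0| ≤ _ at hx
      have h3 := abs_sub_abs_le_abs_sub ((ψ' x - ψ x) * D0 k 0) (k (cs (ψ' x) x) - k (cs (ψ x) x))
      rw [abs_sub_comm ((ψ' x - ψ x) * D0 k 0), abs_mul] at h3
      have h4 : 0 < |D0 k 0| := abs_pos.2 hc
      rw [div_mul_eq_mul_div, le_div_iff₀ h4]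
      have h5 : |D0 k 0| / 2 * (|ψ' x - ψ x| * ‖cs 1 (0 : V n)‖) ≤ |D0 k 0| / 2 * |ψ' x - ψ x| := by
        gcongr
        exact mul_le_of_le_one_right (abs_nonneg _) n1
      nlinarith)
  have p0 : ψ 0 = 0 := by
    obtain ⟨q, ⟨b, -⟩, hq⟩ := hR 1
    exact (hq.apply_zero (gg s)).trans b
  refine ⟨ψ, hψ, p0, fun N => ?_⟩
  obtain ⟨q, ⟨b, k, hk, e⟩, hq⟩ := hR N
  have t := tc (hψ.continuousAt (gg s)) p0
  have t' := tc hq.1.continuousAt b
  have o1 := (hk.mono (gg _) (Nat.le_succ N)).2.comp (om' := gc s) t (isBigO_refl _ _)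
  have o2 : Ord (gc s) N fun x => cs (ψ x) x - cs (q x) x :=
    isBigO_pi.2 fun i => Fin.cases (by simpa [Ord] using hq.2)
      (fun i => by simpa using isBigO_zero _ _) i
  refine (o1.add (o2.of_isBigO (analytic_sub_isBigO hk.1 t t'))).congr' ?_
  filter_upwards [e] with x hx
  rw [hx]; ring

/-- the coefficients of an expansion at the origin -/
theorem reg_of_expand {s : Fin n} {g u : V (n + 1) → ℝ} {a : ℕ → V n → ℝ} {d : ℕ}
    (hu : IsPA (gc s.succ) u) (e : Null (gc s.succ) fun w =>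
      g w - (∑ j ∈ Finset.range d, a j (Mo.tl w) * w 0 ^ j + w 0 ^ d * u w)) :
    (∀ j < d, reg g j = j ! * a j 0) ∧ reg g d = d ! * u 0 := by
  have e1 : ∀ᶠ t in 𝓝 (0 : ℝ), g (cs t 0) =
      ∑ j ∈ Finset.range d, a j 0 * t ^ j + t ^ d * u (cs t 0) :=
    (Ord.axis (e 1)).mono fun t ht => by simpa [sub_eq_zero] using ht
  exact ⟨fun j hj => coef hu.an_axis e1 hj, by simpa [reg] using coef_top hu.an_axis e1⟩

/-- **Tschirnhaus shift**: after `t ↦ t + ψ x` the coefficient of `t ^ e` is null -/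
theorem IsPA.tschirn {s : Fin n} {g : V (n + 1) → ℝ} (hg : IsPA (gc s.succ) g) {e : ℕ}
    (h0 : reg g e = 0) (h1 : reg g (e + 1) ≠ 0) :
    ∃ (ψ : V n → ℝ) (a : ℕ → V n → ℝ) (u : V (n + 1) → ℝ), IsPA (gc s) ψ ∧ ψ 0 = 0 ∧
      (∀ j, IsPA (gc s) (a j)) ∧ IsPA (gc s.succ) u ∧ Null (gc s) (a e) ∧
      (∀ j < e + 1, reg g j = j ! * a j 0) ∧ reg g (e + 1) = (e + 1)! * u 0 ∧
      Null (gc s.succ) fun w => g (cs (w 0 + ψ (Mo.tl w)) (Mo.tl w)) -
        (∑ j ∈ Finset.range (e + 1), a j (Mo.tl w) * w 0 ^ j + w 0 ^ (e + 1) * u w) := by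
  have g2 : IsPA (gc s.succ.succ) fun w : V (n + 2) => g (cs (w 0 + w 1) (Mo.tl (Mo.tl w))) :=
    hg.comp (gg _) (IsPA.of_analytic (an_cs ((an_coord 0 0).add (an_coord 1 0))
      (an_comp (an_tl 0) (an_tl 0) rfl))) (by simp) (isBigO_refl _ _)
  obtain ⟨A, U, hA, hU, e2⟩ := g2.expand (e + 1)
  -- the coefficient on the plane `x = 0`
  have ax : ∀ᶠ y in 𝓝 (0 : ℝ), iteratedDeriv e (fun t => g (cs t 0)) y = e ! * A e (cs y 0) := by
    obtain ⟨k, hk⟩ := hU 1
    have t0 : Tendsto (fun y : ℝ => cs 0 (cs y (0 : V n))) (𝓝 0) (𝓝 0) :=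
      tendsto_cs tendsto_const_nhds (tendsto_cs tendsto_id tendsto_const_nhds)
    filter_upwards [t0.eventually hk.1.eventually_analyticAt,
      t0.eventually ((e2 1).eq_zero.and hk.2.eq_zero).eventually_nhds] with y a1 a2
    have a3 := (hasDerivAt_cs 0 (cs y (0 : V n))).continuousAt.eventually a2
    have a4 := coef (F := fun t => g (cs (t + y) 0)) (a := fun j => A j (cs y 0)) (d := e + 1)
      (u := fun t => k (cs t (cs y 0)))
      (a1.comp_of_eq (an_cs analyticAt_id analyticAt_const) rfl) (by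
        filter_upwards [a3] with t ht
        have b1 := sub_eq_zero.1 (ht.1 rfl)
        have b2 := sub_eq_zero.1 (ht.2 rfl)
        rw [← b2]
        exact b1) e.lt_succ_self
    rw [iteratedDeriv_comp_add_const e (fun t => g (cs t 0)) y] at a4
    simpa using a4
  have ne : (e ! : ℝ) ≠ 0 := Nat.cast_ne_zero.2 e.factorial_ne_zero
  obtain ⟨ψ, hψ, p0, hn⟩ := (hA e).ift (by
      have := ax.self_of_nhds
      rw [cs_zero_zero] at this
      exact (mul_eq_zero.1 (this.symm.trans h0)).resolve_left ne) (fun h => h1 (by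
      rw [reg, iteratedDeriv_succ, Filter.EventuallyEq.deriv_eq ax, deriv_const_mul_field]
      rw [reg, iteratedDeriv_one] at h
      rw [h, mul_zero]))
  have P : IsPA (gc s.succ) fun w : V (n + 1) => cs (w 0) (cs (ψ (Mo.tl w)) (Mo.tl w)) :=
    pa_cs (IsPA.coord 0) (pa_cs hψ.tl (IsPA.of_analytic (an_tl 0)))
  have P0 : cs ((0 : V (n + 1)) 0) (cs (ψ (Mo.tl 0)) (Mo.tl (0 : V (n + 1)))) = 0 := by simp [p0]
  have hu := hU.comp (gg _) P P0 (isBigO_refl _ _)
  have e3 := e2.comp (om' := gc s.succ) (P.tendsto (gg _) P0) (isBigO_refl _ _)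
  have e4 := reg_of_expand (a := fun j x => A j (cs (ψ x) x))
    (g := fun w => g (cs (w 0 + ψ (Mo.tl w)) (Mo.tl w))) hu e3
  have e5 : ∀ j, reg (fun w => g (cs (w 0 + ψ (Mo.tl w)) (Mo.tl w))) j = reg g j := fun j => by
    simp [reg, p0]
  simp only [e5] at e4
  exact ⟨ψ, fun j x => A j (cs (ψ x) x), _, hψ, p0, fun j => (hA j).cs_comp hψ p0, hu, hn,
    e4.1, e4.2, e3⟩

end Crest.Agent.N250.PA
end
end

-- ▼ part N250/L/PA3
section

/-!
# Row 250, block (L): monomial times unit modulo `Null`, lifts of an ultrafilter point (helper53, after helper31)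
-/

set_option autoImplicit false
set_option linter.unusedVariables false

open Set Filter Topology Asymptotics Metric
open scoped Nat

noncomputable section

namespace Crest.Agent.N250.PA

open Crest.Agent.N250.Mo (V mono kill cs tl NZ kill_apply kill_tendsto mono_zero mono_add mono_smul
  mono_single mono_eq_zero mono_at_zero mono_sub sum_sub_lt an_mono an_coord an_tl an_cs cs_zero
  cs_succ tl_cs tl_apply tl_zero cs_tl cs_zero_zero tendsto_tl tendsto_cs)

variable {n m : ℕ}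

/-- monomial times unit, modulo `Null` -/
def MU (s : Fin n) (g : V n → ℝ) : Prop :=
  ∃ (α : Fin n → ℕ) (u : V n → ℝ), IsPA (gc s) u ∧ u 0 ≠ 0 ∧
    Null (gc s) fun y => g y - mono α y * u y

variable {s : Fin n}

theorem MU.pa {g : V n → ℝ} (h : MU s g) : IsPA (gc s) g := by
  obtain ⟨α, u, hu, -, e⟩ := h
  exact ((pa_mono α).mul (gg s) hu).congr_null e.symm

theorem MU.nn {g : V n → ℝ} (h : MU s g) : ¬ Null (gc s) g := fun h0 => by
  obtain ⟨α, u, hu, h1, e⟩ := h
  exact not_null_mul (pa_mono α) hu (not_null_mono s α) (not_null_of_ne h1) (h0.of_sub e)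

theorem MU.congr {f g : V n → ℝ} (h : MU s f) (e : Null (gc s) fun y => g y - f y) : MU s g := by
  obtain ⟨α, u, hu, h1, e'⟩ := h
  exact ⟨α, u, hu, h1, e.tri e'⟩

theorem MU.congr' {f g : V n → ℝ} (h : MU s f) (e : ∀ y, g y = f y) : MU s g :=
  h.congr (Null.of_eventuallyEq (.of_forall e))

theorem MU.of_mo {g : V n → ℝ} (h : Mo.MU g) : MU s g := by
  obtain ⟨α, u, hu, h1, e⟩ := h
  exact ⟨α, u, IsPA.of_analytic hu, h1, Null.of_eventuallyEq e⟩

theorem mu_unit {u : V n → ℝ} (hu : IsPA (gc s) u) (h : u 0 ≠ 0) : MU s u :=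
  ⟨0, u, hu, h, (Null.refl u).congr fun y => by rw [mono_zero, one_mul]⟩

theorem mu_mono (α : Fin n → ℕ) : MU s (mono α) := MU.of_mo (Mo.mu_mono α)

theorem mu_coord (i : Fin n) : MU s fun y : V n => y i := MU.of_mo (Mo.mu_coord i)

theorem MU.mul {f g : V n → ℝ} (hf : MU s f) (hg : MU s g) : MU s fun y => f y * g y := by
  have pf := hf.pa
  obtain ⟨α, u, hu, h1, e⟩ := hf
  obtain ⟨β, v, hv, h2, e'⟩ := hg
  refine ⟨α + β, fun y => u y * v y, hu.mul (gg s) hv, mul_ne_zero h1 h2, ?_⟩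
  refine (Null.mul_congr (gg s) pf ((pa_mono β).mul (gg s) hv) e e').congr fun y => ?_
  rw [mono_add]; ring

theorem mu_prod {ι : Type*} (t : Finset ι) {f : ι → V n → ℝ} (h : ∀ i ∈ t, MU s (f i)) :
    MU s fun z => ∏ i ∈ t, f i z := by
  classical
  induction t using Finset.induction_on with
  | empty => exact mu_unit (IsPA.const _) (by simp)
  | insert a t ha ih =>
    simp only [Finset.prod_insert ha]
    exact (h a (Finset.mem_insert_self _ _)).mul (ih fun i hi => h i (Finset.mem_insert_of_mem hi))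

theorem MU.pow {f : V n → ℝ} (hf : MU s f) (k : ℕ) : MU s fun y => f y ^ k := by
  simpa using mu_prod (Finset.range k) fun _ _ => hf

theorem MU.comp {g : V n → ℝ} (hg : MU s g) {s' : Fin m} {ρ : V m → V n} (h0 : ρ 0 = 0)
    (ho : (fun w => gc s (ρ w)) =O[𝓝 0] gc s') (hρ : ∀ i, MU s' fun y => ρ y i) :
    MU s' fun y => g (ρ y) := by
  obtain ⟨α, u, hu, h1, e⟩ := hg
  have ha : IsPA (gc s') ρ := IsPA.pi fun i => (hρ i).pa
  exact ((mu_prod Finset.univ fun i _ => (hρ i).pow (α i)).mul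
    (mu_unit (hu.comp (gg _) ha h0 ho) (by rwa [h0]))).congr (e.comp (ha.tendsto (gg _) h0) ho)

theorem MU.tl {g : V n → ℝ} (hg : MU s g) : MU s.succ fun w => g (tl w) :=
  hg.comp rfl (isBigO_refl _ _) fun i => mu_coord _

/-- factors of a monomial times unit -/
theorem MU.of_mul {f g : V n → ℝ} (hf : IsPA (gc s) f) (hg : IsPA (gc s) g)
    (h : MU s fun y => f y * g y) : MU s f := by
  obtain ⟨α, u, hu, h1, e⟩ := h
  replace e : Null (gc s) fun y => f y * g y - mono α y * u y := e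
  induction hk : ∑ j, α j using Nat.strong_induction_on generalizing α f g with
  | _ k ih =>
  by_cases h0 : α = 0
  · refine mu_unit hf (left_ne_zero_of_mul (b := g 0) ?_)
    rw [sub_eq_zero.1 ((e 1).apply_zero (gg s)), h0, mono_zero, one_mul]; exact h1
  obtain ⟨i, hi⟩ := Function.ne_iff.1 h0
  have hlt := hk ▸ sum_sub_lt hi
  have e0 : Null (gc s) fun y => f (kill i y) * g (kill i y) :=
    (e.kill i).congr fun y => by
      rw [mono_eq_zero hi (by simp [kill_apply]), zero_mul, sub_zero]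
  have hu' := (pa_mono (α - Pi.single i 1)).mul (gg s) hu
  rcases null_or_null (hf.kill i) (hg.kill i) e0 with e1 | e1
  · obtain ⟨h, ha, e2⟩ := hf.div_coord i
    have e3 : Null (gc s) fun y => f y - y i * h y := (e2.add e1).congr fun y => by ring
    refine ((mu_coord i).mul (ih _ hlt ha hg _ (cancel (ha.mul (gg s) hg) hu' (Pi.single i 1) ?_)
      rfl)).congr e3
    refine (e.sub (e3.mul_right (gg s) hg)).congr fun y => ?_
    rw [mono_single, mono_sub hi]; ring
  · obtain ⟨h, ha, e2⟩ := hg.div_coord i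
    have e3 : Null (gc s) fun y => g y - y i * h y := (e2.add e1).congr fun y => by ring
    refine ih _ hlt hf ha _ (cancel (hf.mul (gg s) ha) hu' (Pi.single i 1) ?_) rfl
    refine (e.sub (e3.mul_left (gg s) hf)).congr fun y => ?_
    rw [mono_single, mono_sub hi]; ring

theorem MU.of_prod {ι : Type*} {t : Finset ι} {f : ι → V n → ℝ}
    (hf : ∀ i ∈ t, IsPA (gc s) (f i)) (h : MU s fun y => ∏ i ∈ t, f i y) {i : ι} (hi : i ∈ t) :
    MU s (f i) := by
  classical
  refine MU.of_mul (g := fun y => ∏ j ∈ t.erase i, f j y) (hf i hi)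
    (IsPA.prod (gg s) fun j hj => hf j (Finset.mem_of_mem_erase hj)) ?_
  exact h.congr' fun y => Finset.mul_prod_erase t (fun j => f j y) hi

theorem mono_kill {α : Fin n → ℕ} {i : Fin n} (h : α i = 0) (y : V n) :
    mono α (kill i y) = mono α y := by
  refine Finset.prod_congr rfl fun j _ => ?_
  by_cases hj : j = i
  · subst hj; simp [h]
  · simp [kill_apply, hj]

/-- a monomial times a unit is divisible only by smaller monomials -/
theorem le_of_eq {α β : Fin n → ℕ} {u v : V n → ℝ} (hu : IsPA (gc s) u) (hv : IsPA (gc s) v)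
    (h0 : u 0 ≠ 0) (h : Null (gc s) fun y => mono α y * u y - mono β y * v y) : β ≤ α := fun i => by
  by_contra hi
  have hi' : α i < β i := not_le.1 hi
  set γ : Fin n → ℕ := Pi.single i (α i)
  have e1 : α = γ + (α - γ) := (add_tsub_cancel_of_le fun j => by
    by_cases hj : j = i
    · subst hj; simp [γ]
    · simp [γ, hj]).symm
  have e2 : β = γ + (β - γ) := (add_tsub_cancel_of_le fun j => by
    by_cases hj : j = i
    · subst hj; simp [γ, hi'.le]
    · simp [γ, hj]).symm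
  have e3 := cancel ((pa_mono (α - γ)).mul (gg s) hu) ((pa_mono (β - γ)).mul (gg s) hv) γ
    (h.congr fun y => by
      rw [← mul_assoc, ← mul_assoc, ← mono_add, ← mono_add, ← e1, ← e2])
  refine not_null_mul (pa_mono (α - γ)) (hu.kill i) (not_null_mono s _)
    (not_null_of_ne (by rwa [map_zero])) ((e3.kill i).congr fun y => ?_)
  rw [mono_eq_zero (α := β - γ) (i := i) (by simp [γ]; omega) (by simp [kill_apply]), zero_mul,
    sub_zero, mono_kill (by simp [γ])]

/-- if the difference of two monomials times units is again one, the exponents are comparable -/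
theorem cmp {α β : Fin n → ℕ} {u v : V n → ℝ} (hu : IsPA (gc s) u) (hv : IsPA (gc s) v)
    (u0 : u 0 ≠ 0) (v0 : v 0 ≠ 0) (h : MU s fun y => mono α y * u y - mono β y * v y) :
    α ≤ β ∨ β ≤ α := by
  obtain ⟨γ, w, hw, w0, e⟩ := h
  set δ := α ⊓ β
  have e1 : α = δ + (α - δ) := (add_tsub_cancel_of_le inf_le_left).symm
  have e2 : β = δ + (β - δ) := (add_tsub_cancel_of_le inf_le_right).symm
  have hd := ((pa_mono (α - δ)).mul (gg s) hu).sub ((pa_mono (β - δ)).mul (gg s) hv)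
  have h1 : δ ≤ γ := le_of_eq hw hd w0 (e.symm.congr fun y => by
    rw [mul_sub, ← mul_assoc, ← mul_assoc, ← mono_add, ← mono_add, ← e1, ← e2])
  have e3 : γ = δ + (γ - δ) := (add_tsub_cancel_of_le h1).symm
  have e4 := cancel hd ((pa_mono (γ - δ)).mul (gg s) hw) δ (e.congr fun y => by
    rw [mul_sub, ← mul_assoc, ← mul_assoc, ← mul_assoc, ← mono_add, ← mono_add, ← mono_add,
      ← e1, ← e2, ← e3])
  by_contra hc
  obtain ⟨⟨i, hi⟩, ⟨j, hj⟩⟩ : (∃ i, β i < α i) ∧ ∃ j, α j < β j := by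
    simpa [Pi.le_def, not_or] using hc
  have a0 : (α - δ) i ≠ 0 := by simp [δ]; omega
  have b0 : (β - δ) j ≠ 0 := by simp [δ]; omega
  have g0 : γ - δ ≠ 0 := fun h0 => by
    have := (e4 1).apply_zero (gg s)
    beta_reduce at this
    rw [mono_eq_zero a0 rfl, mono_eq_zero b0 rfl, h0, mono_zero] at this
    exact w0 (by linarith)
  obtain ⟨k, hk⟩ := Function.ne_iff.1 g0
  have t : ∀ {α' β' : Fin n → ℕ} {u' v' w' : V n → ℝ} {j : Fin n}, IsPA (gc s) u' →
      u' 0 ≠ 0 → α' k = 0 → α' j = 0 → β' j ≠ 0 →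
      (Null (gc s) fun y => mono α' y * u' y - (mono β' y * v' y + mono (γ - δ) y * w' y)) →
      False := by
    intro α' β' u' v' w' j hu u0 ak aj bj e
    refine not_null_mul (pa_mono α') ((hu.kill k).kill j) (not_null_mono s _)
      (not_null_of_ne (by simpa using u0)) (((e.kill k).kill j).congr fun y => ?_)
    rw [mono_eq_zero bj (by simp [kill_apply, Function.update_apply]),
      mono_eq_zero hk (by simp [kill_apply]), zero_mul, zero_mul, add_zero, sub_zero,
      mono_kill ak, mono_kill aj]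
  by_cases ak : (α - δ) k = 0
  · exact t (v' := v) (w' := w) hu u0 ak (by simp [δ]; omega) b0 (e4.congr fun y => by ring)
  · exact t (v' := u) (w' := fun y => -w y) hv v0 (α' := β - δ) (by simp [δ] at ak ⊢; omega)
      (by simp [δ]; omega) a0 (e4.neg.congr fun y => by ring)

/-! ### Points and lifts -/

variable {A : Type*} {U : Ultrafilter A} {ρ : A → ℝ}

/-- an infinitesimal point whose gauge coordinate is at most a positive power of `ρ` -/
structure Pt (U : Ultrafilter A) (ρ : A → ℝ) (s : Fin n) (z : A → V n) : Prop where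
  lim : Tendsto z U (𝓝 0)
  sm : ∃ M : ℕ, ∀ᶠ a in U, |z a s| ^ M ≤ ρ a

/-- the point `z` (gauge `s`) lifts through `π` to the point `y` (gauge `s'`) -/
structure Lift (U : Ultrafilter A) (ρ : A → ℝ) (s : Fin n) (z : A → V n) (s' : Fin n)
    (π : V n → V n) (y : A → V n) : Prop where
  pa : IsPA (gc s') π
  z0 : π 0 = 0
  ho : (fun w => gc s (π w)) =O[𝓝 0] gc s'
  pt : Pt U ρ s' y
  eq : ∀ᶠ a in U, π (y a) = z a

section

variable {s' s'' : Fin n} {z y y' : A → V n} {π π' : V n → V n}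

theorem Lift.tendsto (h : Lift U ρ s z s' π y) : Tendsto π (𝓝 0) (𝓝 0) := h.pa.tendsto (gg _) h.z0

theorem Lift.pull (h : Lift U ρ s z s' π y) {F : Type*} [NormedAddCommGroup F] [NormedSpace ℝ F]
    {g : V n → F} (hg : IsPA (gc s) g) : IsPA (gc s') fun w => g (π w) :=
  hg.comp (gg _) h.pa h.z0 h.ho

theorem Lift.null (h : Lift U ρ s z s' π y) {F : Type*} [NormedAddCommGroup F]
    {g : V n → F} (hg : Null (gc s) g) : Null (gc s') fun w => g (π w) :=
  hg.comp h.tendsto h.ho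

theorem Lift.comp (h : Lift U ρ s z s' π y) (h' : Lift U ρ s' y s'' π' y') :
    Lift U ρ s z s'' (fun w => π (π' w)) y' :=
  ⟨h'.pull h.pa, by rw [h'.z0, h.z0], (h.ho.comp_tendsto h'.tendsto).trans h'.ho, h'.pt, by
    filter_upwards [h.eq, h'.eq] with a e e'
    rw [e', e]⟩

theorem lift_id (hz : Pt U ρ s z) : Lift U ρ s z s (fun w => w) z :=
  ⟨IsPA.id, rfl, isBigO_refl _ _, hz, .of_forall fun _ => rfl⟩

/-- an analytic lift that fixes a gauge coordinate -/
theorem Lift.of_mo_fix (L : Mo.Lift U z π y) (hz : Pt U ρ s z) (e : ∀ w, π w s = w s') :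
    Lift U ρ s z s' π y :=
  ⟨IsPA.of_analytic L.an, L.z0, (isBigO_refl _ _).congr_left fun w => (e w).symm, ⟨L.lim, by
    obtain ⟨M, hM⟩ := hz.sm
    exact ⟨M, by filter_upwards [hM, L.eq] with a h1 h2; rwa [← h2, e] at h1⟩⟩, L.eq⟩

/-- **gauge selection**: an analytic lift whose gauge component is monomial times unit -/
theorem Lift.of_mo (L : Mo.Lift U z π y) (hz : Pt U ρ s z) (hm : Mo.MU fun w => π w s) :
    ∃ s', Lift U ρ s z s' π y := by
  classical
  obtain ⟨α, u, hu, u0, e⟩ := hm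
  replace e : ∀ᶠ w in 𝓝 0, π w s = mono α w * u w := e
  have hα : α ≠ 0 := fun h => u0 (by simpa [h, mono_zero, L.z0] using e.self_of_nhds.symm)
  obtain ⟨i0, hi0⟩ := Function.ne_iff.1 hα
  have hex : ∀ a, ∃ i, α i ≠ 0 ∧ ∀ j, α j ≠ 0 → |y a i| ≤ |y a j| := fun a => by
    obtain ⟨i, h1, h2⟩ := (Finset.univ.filter fun i => α i ≠ 0).exists_min_image
      (fun i => |y a i|) ⟨i0, by simpa using hi0⟩
    exact ⟨i, by simpa using h1, fun j hj => h2 j (by simpa using hj)⟩
  choose I h1 h2 using hex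
  obtain ⟨i, hi⟩ := (U.map I).eq_pure_of_finite
  have hI : ∀ᶠ a in U, I a = i := show {i} ∈ U.map I by rw [hi]; simp
  obtain ⟨a0, ha0⟩ := hI.exists
  have hαi : α i ≠ 0 := ha0 ▸ h1 a0
  refine ⟨i, IsPA.of_analytic L.an, L.z0, ?_, ⟨L.lim, ?_⟩, L.eq⟩
  · have b := (isBigO_refl (fun w : V n => w i) (𝓝 0)).mul
      (((an_mono (α - Pi.single i 1) 0).mul hu).continuousAt.tendsto.isBigO_one ℝ)
    refine b.congr' ?_ (.of_forall fun w => mul_one _)
    filter_upwards [e] with w hw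
    rw [gc, hw, mono_sub hαi, mul_assoc]; rfl
  · obtain ⟨M, hM⟩ := hz.sm
    refine ⟨(∑ j, α j + 1) * M, ?_⟩
    have t1 : Tendsto (fun a => |u (y a)| - |y a i|) U (𝓝 (|u 0| - |(0 : V n) i|)) :=
      (hu.continuousAt.tendsto.comp L.lim).abs.sub (tendsto_pi_nhds.1 L.lim i).abs
    filter_upwards [hM, L.eq, hI, L.lim.eventually e,
      t1.eventually (lt_mem_nhds (show 0 < _ by simpa using u0))] with a b1 b2 b3 b4 b5
    rw [pow_mul]
    refine le_trans (pow_le_pow_left₀ (by positivity) ?_ M) b1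
    rw [← b2, b4, abs_mul, pow_succ]
    refine mul_le_mul ?_ (by linarith) (abs_nonneg _) (abs_nonneg _)
    rw [mono, Finset.abs_prod, ← Finset.prod_pow_eq_pow_sum]
    refine Finset.prod_le_prod (fun _ _ => by positivity) fun j _ => ?_
    rw [abs_pow]
    by_cases hj : α j = 0
    · simp [hj]
    · exact pow_le_pow_left₀ (abs_nonneg _) (b3 ▸ h2 a j hj) _

end

theorem Pt.tl {z : A → V (n + 1)} (hz : Pt U ρ s.succ z) : Pt U ρ s fun a => tl (z a) :=
  ⟨tendsto_tl.comp hz.lim, hz.sm⟩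

theorem Lift.tail {z : A → V (n + 1)} (hz : Tendsto z U (𝓝 0)) {s' : Fin n} {π : V n → V n}
    {y : A → V n} (h : Lift U ρ s (fun a => tl (z a)) s' π y) :
    Lift U ρ s.succ z s'.succ (fun w => cs (w 0) (π (tl w))) fun a => cs (z a 0) (y a) :=
  ⟨pa_cs (IsPA.coord 0) h.pa.tl, by simp [h.z0], h.ho.comp_tendsto tendsto_tl,
    ⟨tendsto_cs (tendsto_pi_nhds.1 hz 0) h.pt.lim, h.pt.sm⟩, by
      filter_upwards [h.eq] with a e
      simp [e]⟩

/-- a null germ is negligible at the point -/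
theorem Null.negl {F : Type*} [NormedAddCommGroup F] {z : A → V n} (hz : Pt U ρ s z)
    {g : V n → F} (hg : Null (gc s) g) (N : ℕ) :
    ∃ C : ℝ, 0 < C ∧ ∀ᶠ a in U, ‖g (z a)‖ ≤ C * ρ a ^ N := by
  obtain ⟨M, hM⟩ := hz.sm
  obtain ⟨C, hC, hb⟩ := IsBigO.exists_pos (hg (M * N))
  refine ⟨C, hC, ?_⟩
  filter_upwards [hM, hz.lim.eventually hb.bound] with a h1 h2
  refine h2.trans (mul_le_mul_of_nonneg_left ?_ hC.le)
  rw [Real.norm_eq_abs, abs_pow, pow_mul]
  exact pow_le_pow_left₀ (by positivity) h1 N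

end Crest.Agent.N250.PA
end
end

-- ▼ part N250/L/PA4
section

/-!
# Row 250, block (L): MONOMIALISATION of pro-analytic germs along an ultrafilter point (helper53, after helper31)
-/

set_option autoImplicit false
set_option linter.unusedVariables false

open Set Filter Topology Asymptotics Metric
open scoped Nat

noncomputable section

namespace Crest.Agent.N250.PA

open Crest.Agent.N250.Mo (V mono kill cs tl NZ kill_apply kill_tendsto mono_zero mono_add mono_smul
  mono_single mono_eq_zero mono_at_zero mono_sub sum_sub_lt an_mono an_coord an_tl an_cs cs_zero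
  cs_succ tl_cs tl_apply tl_zero cs_tl cs_zero_zero tendsto_tl tendsto_cs reg blow mono_pw)

variable {n m : ℕ} {A : Type*} {U : Ultrafilter A} {ρ : A → ℝ}

/-- the monomialisation statement in dimension `n` -/
def Mon (U : Ultrafilter A) (ρ : A → ℝ) (n : ℕ) : Prop :=
  ∀ (s : Fin n) (z : A → V n), Pt U ρ s z → ∀ g : V n → ℝ, IsPA (gc s) g → ¬ Null (gc s) g →
    ∃ s' π y, Lift U ρ s z s' π y ∧ MU s' fun w => g (π w)

/-- preparation of the coefficients -/
theorem prep (hM : Mon U ρ n) {s : Fin n} {d : ℕ} {a : ℕ → V n → ℝ} (ha : ∀ j, IsPA (gc s) (a j))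
    (h0 : ∀ j < d, a j 0 = 0) (hJ : ∃ j < d, ¬ Null (gc s) (a j)) {x : A → V n}
    (hx : Pt U ρ s x) :
    ∃ s' π y, ∃ (β : Fin n → ℕ) (b : ℕ → V n → ℝ), Lift U ρ s x s' π y ∧
      (∀ i, MU s' fun w => π w i) ∧ β ≠ 0 ∧ (∀ j, IsPA (gc s') (b j)) ∧
      (∀ j < d, Null (gc s') fun w => a j (π w) - mono ((d - j) • β) w * b j w) ∧
      (∃ j < d, b j 0 ≠ 0) ∧ ∀ j, Null (gc s) (a j) → b j 0 = 0 := by
  classical
  set J := (Finset.range d).filter fun j => ¬ Null (gc s) (a j) with hJd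
  have mJ : ∀ j, j ∈ J ↔ j < d ∧ ¬ Null (gc s) (a j) := fun j => by simp [hJd]
  let D : ℕ × ℕ → V n → ℝ := fun p w => a p.1 w ^ (d ! / (d - p.1)) - a p.2 w ^ (d ! / (d - p.2))
  have hD : ∀ p, IsPA (gc s) (D p) := fun p => ((ha _).pow (gg s) _).sub ((ha _).pow (gg s) _)
  set K := (J ×ˢ J).filter fun p => ¬ Null (gc s) (D p) with hK
  have a1 : IsPA (gc s) fun w : V n => ∏ i, w i := IsPA.prod (gg s) fun i _ => IsPA.coord i
  have a2 : IsPA (gc s) fun w : V n => ∏ j ∈ J, a j w := IsPA.prod (gg s) fun j _ => ha j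
  have a3 : IsPA (gc s) fun w : V n => ∏ p ∈ K, D p w := IsPA.prod (gg s) fun p _ => hD p
  obtain ⟨s1, π, y, L, hG⟩ := hM s x hx
    (fun w => (∏ i, w i) * ((∏ j ∈ J, a j w) * ∏ p ∈ K, D p w)) (a1.mul (gg s) (a2.mul (gg s) a3))
    (not_null_mul a1 (a2.mul (gg s) a3)
      (not_null_prod _ (fun i _ => IsPA.coord i) fun i _ => not_null_coord s i)
      (not_null_mul a2 a3 (not_null_prod _ (fun j _ => ha j) fun j hj => ((mJ j).1 hj).2)
        (not_null_prod _ (fun p _ => hD p) fun p hp => (Finset.mem_filter.1 hp).2)))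
  have m1 := MU.of_mul (L.pull a1) (L.pull (a2.mul (gg s) a3)) hG
  have m23 := MU.of_mul (L.pull (a2.mul (gg s) a3)) (L.pull a1) (hG.congr' fun w => mul_comm _ _)
  have m2 := MU.of_mul (L.pull a2) (L.pull a3) m23
  have m3 := MU.of_mul (L.pull a3) (L.pull a2) (m23.congr' fun w => mul_comm _ _)
  have n1 : ∀ i, MU s1 fun w => π w i := fun i =>
    MU.of_prod (f := fun i w => π w i) (fun i _ => L.pa.apply i) m1 (Finset.mem_univ i)
  have n2 : ∀ j, ∃ (α : Fin n → ℕ) (u : V n → ℝ), IsPA (gc s1) u ∧ u 0 ≠ 0 ∧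
      (j ∈ J → Null (gc s1) fun w => a j (π w) - mono α w * u w) := fun j => by
    by_cases hj : j ∈ J
    · obtain ⟨α, u, h1, h2, h3⟩ :=
        MU.of_prod (f := fun j w => a j (π w)) (fun j _ => L.pull (ha j)) m2 hj
      exact ⟨α, u, h1, h2, fun _ => h3⟩
    · exact ⟨0, fun _ => 1, IsPA.const _, one_ne_zero, fun h => absurd h hj⟩
  choose α u hu u0 e using n2
  let γ : ℕ → Fin n → ℕ := fun j => (d ! / (d - j)) • α j
  have hc : ∀ j ∈ J, ∀ k ∈ J, γ j ≤ γ k ∨ γ k ≤ γ j := fun j hj k hk => by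
    have pw : ∀ j ∈ J, Null (gc s1) fun w => a j (π w) ^ (d ! / (d - j)) -
        (mono (α j) w * u j w) ^ (d ! / (d - j)) := fun j hj =>
      Null.analytic_congr (gg _) (L.pull (ha j)) (e j hj)
        (show AnalyticAt ℝ (fun x : ℝ => x ^ (d ! / (d - j))) _ from analyticAt_id.pow _)
    have e1 : Null (gc s1) fun w => (mono (γ j) w * u j w ^ (d ! / (d - j)) -
        mono (γ k) w * u k w ^ (d ! / (d - k))) - D (j, k) (π w) :=
      ((pw k hk).sub (pw j hj)).congr fun w => by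
        simp only [D, γ, mono_smul, mul_pow]; ring
    by_cases h : Null (gc s) (D (j, k))
    · exact Or.inr (le_of_eq ((hu j).pow (gg _) (d ! / (d - j))) ((hu k).pow (gg _) (d ! / (d - k)))
        (pow_ne_zero _ (u0 j)) ((e1.add (L.null h)).congr fun w => by ring))
    · exact cmp ((hu j).pow (gg _) _) ((hu k).pow (gg _) _) (pow_ne_zero _ (u0 j))
        (pow_ne_zero _ (u0 k))
        ((MU.of_prod (f := fun p w => D p (π w)) (fun p _ => L.pull (hD p)) m3
          (Finset.mem_filter.2 ⟨Finset.mem_product.2 ⟨hj, hk⟩, h⟩)).congr e1)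
  obtain ⟨j0, hj0, hmin⟩ := J.exists_min_image (fun j => ∑ i, γ j i)
    (hJ.imp fun j hj => (mJ j).2 hj)
  have hle : ∀ j ∈ J, γ j0 ≤ γ j := fun j hj => (hc j0 hj0 j hj).elim id fun h i => by
    by_contra hi
    exact absurd (Finset.sum_lt_sum (fun i _ => h i) ⟨i, Finset.mem_univ _, not_le.1 hi⟩)
      (not_lt.2 (hmin j hj))
  have hγ : ∀ j ∈ J, (d - j) • γ j = d ! • α j := fun j hj => by
    have h1 := ((mJ j).1 hj).1
    rw [smul_smul, Nat.mul_div_cancel' (Nat.dvd_factorial (by omega) (by omega))]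
  obtain ⟨ε, y', hε, L0⟩ := Mo.power d.factorial_ne_zero L.pt.lim
  have mp : ∀ k, Mo.MU fun w : V n => ε k * w k ^ d ! := fun k =>
    (Mo.mu_unit analyticAt_const (hε k)).mul ((Mo.mu_coord k).pow _)
  obtain ⟨s2, L'⟩ := Lift.of_mo L0 L.pt (mp s1)
  have hε' : ∀ α : Fin n → ℕ, mono α ε ≠ 0 := fun α =>
    Finset.prod_ne_zero_iff.2 fun i _ => pow_ne_zero _ (hε i)
  refine ⟨s2, _, y', γ j0, fun j w => if j ∈ J then mono (α j) ε *
    mono (d ! • α j - (d - j) • γ j0) w * u j fun i => ε i * w i ^ d ! else 0, L.comp L',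
    fun i => (n1 i).comp L'.z0 L'.ho fun k => MU.of_mo (mp k),
    fun hb => ?_, fun j => ?_, fun j hj => ?_, ⟨j0, ((mJ j0).1 hj0).1, ?_⟩, fun j hj => ?_⟩
  · have h1 := hγ j0 hj0
    rw [hb, smul_zero, eq_comm, smul_eq_zero_iff_right d.factorial_ne_zero] at h1
    have h2 := sub_eq_zero.1 ((e j0 hj0 1).apply_zero (gg _))
    rw [L.z0, h0 j0 ((mJ j0).1 hj0).1, h1, mono_zero, one_mul] at h2
    exact u0 j0 h2.symm
  · by_cases hj : j ∈ J
    · simp only [if_pos hj]
      exact ((IsPA.const _).mul (gg _) (pa_mono _)).mul (gg _) (L'.pull (hu j))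
    · simp only [if_neg hj]
      exact IsPA.const _
  · by_cases hj' : j ∈ J
    · refine (L'.null (e j hj')).congr fun w => ?_
      have h1 : (d - j) • γ j0 ≤ d ! • α j := hγ j hj' ▸ nsmul_le_nsmul_right (hle j hj') _
      beta_reduce
      rw [if_pos hj', mono_pw, ← add_tsub_cancel_of_le h1, mono_add, add_tsub_cancel_left]
      ring
    · refine ((L.comp L').null (not_not.1 fun h => hj' ((mJ j).2 ⟨hj, h⟩))).congr fun w => ?_
      beta_reduce
      rw [if_neg hj', mul_zero, sub_zero]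
  · have h1 : (fun i => ε i * (0 : V n) i ^ d !) = 0 := L'.z0
    simp only [if_pos hj0, hγ j0 hj0, tsub_self, mono_zero, h1]
    exact mul_ne_zero (mul_ne_zero (hε' _) one_ne_zero) (u0 j0)
  · exact if_neg fun h => ((mJ j).1 h).2 hj

/-- the conclusion of the inner induction -/
def Res (U : Ultrafilter A) (ρ : A → ℝ) (s : Fin n) (z : A → V (n + 1)) (g : V (n + 1) → ℝ) : Prop :=
  ∃ s' π y, Lift U ρ s.succ z s' π y ∧ (MU s' fun w => g (π w)) ∧
    ∀ i : Fin n, MU s' fun w => π w i.succ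

theorem core (hM : Mon U ρ n) {e : ℕ}
    (ih : ∀ k < e + 1, ∀ (s : Fin n) (g : V (n + 1) → ℝ) (z : A → V (n + 1)),
      IsPA (gc s.succ) g → Pt U ρ s.succ z → reg g k ≠ 0 → Res U ρ s z g)
    {s : Fin n} {g u : V (n + 1) → ℝ} {a : ℕ → V n → ℝ} (ha : ∀ j, IsPA (gc s) (a j))
    (hu : IsPA (gc s.succ) u) (u0 : u 0 ≠ 0) (h0 : ∀ j < e + 1, a j 0 = 0)
    (he : Null (gc s) (a e))
    (hg : Null (gc s.succ) fun w => g w - (∑ j ∈ Finset.range (e + 1), a j (tl w) * w 0 ^ j +
      w 0 ^ (e + 1) * u w)) {z : A → V (n + 1)} (hz : Pt U ρ s.succ z) : Res U ρ s z g := by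
  by_cases hJ : ∃ j < e + 1, ¬ Null (gc s) (a j)
  swap
  · refine ⟨_, _, _, lift_id hz, (((mu_coord 0).pow (e + 1)).mul (mu_unit hu u0)).congr ?_,
      fun i => mu_coord _⟩
    have h1 : Null (gc s.succ) fun w => ∑ j ∈ Finset.range (e + 1), a j (tl w) * w 0 ^ j :=
      Null.sum fun j hj => (Null.tl (not_not.1 fun h => hJ ⟨j, Finset.mem_range.1 hj, h⟩)).mul_right
        (gg _) ((IsPA.coord 0).pow (gg _) j)
    exact (hg.add h1).congr fun w => by ring
  obtain ⟨s1, π, y, β, b, L, hπ, hβ, hb, e1, b0, b1⟩ := prep hM ha h0 hJ hz.tl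
  have L1 := L.tail hz.lim
  have e2 : Null (gc s1.succ) fun w => g (cs (w 0) (π (tl w))) -
      (∑ j ∈ Finset.range (e + 1), mono β (tl w) ^ (e + 1 - j) * b j (tl w) * w 0 ^ j +
        w 0 ^ (e + 1) * u (cs (w 0) (π (tl w)))) := by
    refine ((L1.null hg).add (Null.sum (s := Finset.range (e + 1)) fun j hj =>
      (e1 j (Finset.mem_range.1 hj)).tl.mul_right (gg _) ((IsPA.coord 0).pow (gg _) j))).congr
      fun w => ?_
    simp only [tl_cs, cs_zero, mono_smul, sub_mul, Finset.sum_sub_distrib]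
    ring
  rcases Mo.ratio U (fun a => z a 0) (fun a => mono β (y a)) with ⟨c, σ, hσ, e3⟩ | e3
  · have L2 := Lift.of_mo_fix (s' := s1.succ) (Mo.lift_blow hβ L1.pt.lim hσ e3) L1.pt fun w => rfl
    have hc : IsPA (gc s1.succ) fun w : V (n + 1) => c + w 0 := (IsPA.const c).add (IsPA.coord 0)
    obtain ⟨k, hk, h1⟩ := Mo.poly_ord (b := fun j => b j 0) (c := c) u0 (b1 e he) b0
    obtain ⟨s3, π3, y3, L3, m1, m2⟩ := ih k hk s1 (fun w => ∑ j ∈ Finset.range (e + 1),
      b j (tl w) * (c + w 0) ^ j + (c + w 0) ^ (e + 1) * u (cs (blow β c w 0) (π (tl w)))) _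
      ((IsPA.sum fun j _ => (hb j).tl.mul (gg _) (hc.pow (gg _) j)).add
        ((hc.pow (gg _) _).mul (gg _) ((L1.comp L2).pull hu))) L2.pt
      (by simpa [reg, blow, mono_at_zero hβ, L.z0] using h1)
    have t0 : tl (π3 0) = 0 := by rw [L3.z0, tl_zero]
    refine ⟨s3, _, y3, (L1.comp L2).comp L3,
      ((((mu_mono (s := s1) β).comp (ρ := fun w => tl (π3 w)) t0 L3.ho m2).pow
      (e + 1)).mul m1).congr ?_, fun i => (hπ i).comp t0 L3.ho m2⟩
    refine ((L2.comp L3).null e2).congr fun w => ?_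
    congr 1
    simp only [blow, tl_cs, cs_zero, mul_add _ (∑ j ∈ _, _), Finset.mul_sum, mul_pow]
    congr 1
    · refine Finset.sum_congr rfl fun j hj => ?_
      rw [← pow_sub_mul_pow (mono β (tl (π3 w))) (Finset.mem_range.1 hj).le]
      ring
    · ring
  · obtain ⟨π3, y3, h, L0, m0, hh, h0', e4⟩ := Mo.toric β L1.pt.lim e3
    obtain ⟨s3, L3⟩ := Lift.of_mo L0 L1.pt (m0 s1.succ)
    have m1 : ∀ i, MU s3 fun w => π3 w i := fun i => MU.of_mo (m0 i)
    have t0 : tl (π3 0) = 0 := by rw [L3.z0, tl_zero]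
    refine ⟨s3, _, y3, L1.comp L3, (((m1 0).pow (e + 1)).mul (mu_unit (u := fun w =>
      ∑ j ∈ Finset.range (e + 1), h w ^ (e + 1 - j) * b j (tl (π3 w)) +
        u (cs (π3 w 0) (π (tl (π3 w)))))
      ((IsPA.sum fun j _ => ((IsPA.of_analytic hh).pow (gg _) _).mul (gg _) (L3.pull (hb j).tl)).add
        ((L1.comp L3).pull hu)) ?_)).congr ?_,
      fun i => (hπ i).comp t0 L3.ho fun i => m1 i.succ⟩
    · rw [Finset.sum_eq_zero fun j hj => by
        rw [h0', zero_pow (Nat.sub_ne_zero_of_lt (Finset.mem_range.1 hj)), zero_mul]]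
      simpa [L3.z0, L.z0] using u0
    · refine (L3.null e2).congr' ?_
      filter_upwards [e4] with w h4
      rw [h4, mul_add, Finset.mul_sum]
      congr 2
      refine Finset.sum_congr rfl fun j hj => ?_
      rw [← pow_sub_mul_pow (π3 w 0) (Finset.mem_range.1 hj).le]
      ring

theorem res (hM : Mon U ρ n) (d : ℕ) : ∀ (s : Fin n) (g : V (n + 1) → ℝ) (z : A → V (n + 1)),
    IsPA (gc s.succ) g → Pt U ρ s.succ z → reg g d ≠ 0 → Res U ρ s z g := by
  induction d using Nat.strong_induction_on with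
  | _ d ih =>
  intro s g z hg hz hd
  by_cases h : ∃ k < d, reg g k ≠ 0
  · obtain ⟨k, hk, h⟩ := h
    exact ih k hk s g z hg hz h
  push Not at h
  rcases d with _ | e
  · exact ⟨_, _, _, lift_id hz, mu_unit hg (by simpa [reg] using hd), fun i => mu_coord _⟩
  obtain ⟨ψ, a, u, hψ, ψ0, ha, hu, he, c1, c2, e2⟩ := hg.tschirn (h e e.lt_succ_self) hd
  have L : Lift U ρ s.succ z s.succ (fun w => cs (w 0 + ψ (tl w)) (tl w))
      fun a => cs (z a 0 - ψ (tl (z a))) (tl (z a)) :=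
    ⟨pa_cs ((IsPA.coord 0).add hψ.tl) (IsPA.of_analytic (an_tl 0)), by simp [ψ0], isBigO_refl _ _,
      ⟨tendsto_cs (by
        simpa using (tendsto_pi_nhds.1 hz.lim 0).sub
          ((hψ.tendsto (gg _) ψ0).comp (tendsto_tl.comp hz.lim))) (tendsto_tl.comp hz.lim), hz.sm⟩,
      .of_forall fun a => by simp⟩
  obtain ⟨s', π, y, L', m1, m2⟩ := core hM ih ha hu (fun h0 => hd (by rw [c2, h0, mul_zero]))
    (fun j hj => (mul_eq_zero.1 ((c1 j hj).symm.trans (h j hj))).resolve_left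
      (Nat.cast_ne_zero.2 j.factorial_ne_zero)) he e2 L.pt
  exact ⟨s', _, y, L.comp L', m1, m2⟩

theorem mon_succ (hM : Mon U ρ n) (s : Fin n) (z : A → V (n + 1)) (hz : Pt U ρ s.succ z)
    (g : V (n + 1) → ℝ) (hg : IsPA (gc s.succ) g) (h : ¬ Null (gc s.succ) g) :
    ∃ s' π y, Lift U ρ s.succ z s' π y ∧ MU s' fun w => g (π w) := by
  obtain ⟨k, g', hg', e, hn⟩ := hg.strip h
  obtain ⟨v0, d, hv0, hd⟩ := Mo.exists_dir hg'.an_kill hn
  set v := kill s.succ v0 with hv
  have v0' : v 0 ≠ 0 := by simpa [hv, kill_apply, (Fin.succ_ne_zero s).symm] using hv0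
  have vs : v s.succ = 0 := by simp [hv, kill_apply]
  have t0 : Tendsto (fun a => z a 0 / v 0) U (𝓝 0) := by
    simpa using (tendsto_pi_nhds.1 hz.lim 0).div_const (v 0)
  have L0 : Mo.Lift U z (fun w => w 0 • v + cs 0 (tl w))
      fun a => cs (z a 0 / v 0) (tl (z a) - (z a 0 / v 0) • tl v) :=
    ⟨((an_coord 0 0).smul analyticAt_const).add (an_cs analyticAt_const (an_tl 0)), by simp,
      tendsto_cs t0 (by simpa using (tendsto_tl.comp hz.lim).sub (t0.smul_const (tl v))),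
      .of_forall fun a => funext fun i => Fin.cases (by simp [v0']) (fun i => by simp) i⟩
  have L := Lift.of_mo_fix (s' := s.succ) L0 hz fun w => by simp [vs]
  obtain ⟨s', π, y, L', m1, m2⟩ := res hM d s _ _ (L.pull hg') L.pt
    (by simpa [reg, hv] using hd)
  refine ⟨s', _, y, L.comp L', (((m2 s).pow k).mul m1).congr ?_⟩
  refine ((L.comp L').null e).congr fun w => ?_
  simp [vs]

/-- MONOMIALISATION -/
theorem mon (U : Ultrafilter A) (ρ : A → ℝ) (n : ℕ) : Mon U ρ n := by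
  induction n with
  | zero => exact fun s => s.elim0
  | succ n ih =>
    intro s z hz g hg h
    by_cases hs : s = 0
    swap
    · obtain ⟨s, rfl⟩ := Fin.exists_succ_eq.2 hs
      exact mon_succ ih s z hz g hg h
    subst hs
    rcases n with _ | n
    · obtain ⟨k, g', hg', e, hn⟩ := hg.strip h
      refine ⟨_, _, _, lift_id hz, (((mu_coord 0).pow k).mul (mu_unit hg' fun h0 => hn ?_)).congr e⟩
      refine .of_forall fun w => ?_
      have : kill 0 w = 0 := funext fun i => by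
        rw [Fin.fin_one_eq_zero i]
        simp [kill_apply]
      show g' (kill 0 w) = 0
      rw [this, h0]
    · let σ : Fin (n + 2) → Fin (n + 2) := Equiv.swap 0 (Fin.succ 0)
      have L0 : Mo.Lift U z (fun w i => w (σ i)) fun a i => z a (σ i) :=
        ⟨analyticAt_pi_iff.2 fun i => an_coord _ _, rfl,
          tendsto_pi_nhds.2 fun i => tendsto_pi_nhds.1 hz.lim _,
          .of_forall fun a => funext fun i => by simp [σ]⟩
      have L := Lift.of_mo_fix (s' := Fin.succ 0) L0 hz fun w => by simp [σ]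
      have h' : ¬ Null (gc (Fin.succ 0 : Fin (n + 2))) fun w => g fun i => w (σ i) := fun hn => h (by
        have := hn.comp (om' := gc 0) (π := fun w i => w (σ i)) L0.tendsto
          ((isBigO_refl _ _).congr_left fun w => by simp [σ, gc])
        exact this.congr fun w => by simp [σ])
      obtain ⟨s', π, y, L', m1⟩ := mon_succ ih 0 _ L.pt _ (L.pull hg) h'
      exact ⟨s', _, y, L.comp L', m1⟩

/-- **simultaneous monomialisation** of a finite family of pro-analytic germs along a point -/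
theorem mon_fam {ι : Type*} [Finite ι] {s : Fin n} {g : ι → V n → ℝ}
    (hg : ∀ j, IsPA (gc s) (g j)) {z : A → V n} (hz : Pt U ρ s z) :
    ∃ s' π y, Lift U ρ s z s' π y ∧ ∀ j, ¬ Null (gc s) (g j) → MU s' fun w => g j (π w) := by
  classical
  have := Fintype.ofFinite ι
  obtain ⟨s', π, y, L, h⟩ := mon U ρ n s z hz
    (fun w => ∏ j ∈ Finset.univ.filter fun j => ¬ Null (gc s) (g j), g j w)
    (IsPA.prod (gg s) fun j _ => hg j)
    (not_null_prod _ (fun j _ => hg j) fun j hj => (Finset.mem_filter.1 hj).2)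
  exact ⟨s', π, y, L, fun j hj => MU.of_prod (f := fun j w => g j (π w))
    (fun j _ => L.pull (hg j)) h (Finset.mem_filter.2 ⟨Finset.mem_univ _, hj⟩)⟩

end Crest.Agent.N250.PA
end
end

-- ▼ part N250/L/Loj
section

/-!
Row 250, block L (helper31): consequences of the monomialisation: the Lojasiewicz GRADIENT
inequality (`loj_grad`), the Lojasiewicz inequality or an analytic curve (`loj_or_curve`), curve
selection for semianalytic sets (`curve_sel`).
-/

set_option autoImplicit false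
set_option linter.unusedSectionVars false
set_option linter.unusedVariables false

open Set Filter Topology Metric
open scoped ContDiff NNReal Nat

noncomputable section

namespace Crest.Agent.N250.Mo

variable {n m : ℕ} {A : Type*} {U : Ultrafilter A}

/-- simultaneous monomialisation -/
theorem mon_fam {ι : Type*} [Finite ι] {g : ι → V n → ℝ} (hg : ∀ j, AnalyticAt ℝ (g j) 0)
    {z : A → V n} (hz : Tendsto z U (𝓝 0)) :
    ∃ π y, Lift U z π y ∧ ∀ j, NZ (g j) → MU fun w => g j (π w) := by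
  classical
  have := Fintype.ofFinite ι
  obtain ⟨π, y, L, h⟩ := mon U n z hz (fun w => ∏ j ∈ Finset.univ.filter fun j => NZ (g j), g j w)
    (Finset.analyticAt_fun_prod _ fun j _ => hg j)
    (nz_prod _ (fun j _ => hg j) fun j hj => (Finset.mem_filter.1 hj).2)
  exact ⟨π, y, L, fun j hj => MU.of_prod (f := fun j w => g j (π w))
    (fun j _ => an_comp (hg j) L.an L.z0) h (Finset.mem_filter.2 ⟨Finset.mem_univ _, hj⟩)⟩

lemma exists_seq {P : ℕ → V n → Prop} (h : ∀ k, ∃ᶠ y in 𝓝 0, P k y) :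
    ∃ z : ℕ → V n, Tendsto z atTop (𝓝 0) ∧ ∀ k, P k (z k) := by
  choose z h1 h2 using fun k : ℕ => ((h k).and_eventually
    (ball_mem_nhds (0 : V n) (Nat.one_div_pos_of_nat (n := k)))).exists
  exact ⟨z, squeeze_zero_norm (fun k => (mem_ball_zero_iff.1 (h2 k)).le)
    tendsto_one_div_add_atTop_nhds_zero_nat, h1⟩

lemma ev_bound {E F : Type*} [TopologicalSpace E] [SeminormedAddCommGroup F] {f : E → F} {x : E}
    (h : ContinuousAt f x) : ∃ K : ℝ, 0 < K ∧ ∀ᶠ w in 𝓝 x, ‖f w‖ ≤ K :=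
  ⟨‖f x‖ + 1, by positivity, (h.norm.eventually (gt_mem_nhds (lt_add_one _))).mono fun _ => le_of_lt⟩

lemma hasDerivAt_mono (α : Fin n → ℕ) (w : V n) (i : Fin n) :
    HasDerivAt (fun s : ℝ => mono α (w + s • Pi.single i (w i))) (α i * mono α w) 0 := by
  have e : (fun s : ℝ => mono α (w + s • Pi.single i (w i))) =
      fun s => (1 + s) ^ α i * mono α w := funext fun s => by
    have : ∀ j, (w + s • Pi.single i (w i) : V n) j = (if j = i then 1 + s else 1) * w j :=
      fun j => by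
        by_cases h : j = i
        · subst h; simp; ring
        · simp [h]
    simp only [mono, this, mul_pow, Finset.prod_mul_distrib]
    rw [Finset.prod_eq_single i (by simp +contextual) (by simp), if_pos rfl]
  rw [e]
  simpa using (((hasDerivAt_id (0 : ℝ)).const_add 1).pow (α i)).mul_const (mono α w)

lemma MU.loj {h : V n → ℝ} (hm : MU h) (h0 : h 0 = 0) : ∃ (N : ℕ) (C : ℝ), N ≠ 0 ∧
    ∀ᶠ w in 𝓝 0, h w ≠ 0 → |h w| ^ (1 - (N : ℝ)⁻¹) ≤ C * ‖fderiv ℝ h w‖ := by
  classical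
  obtain ⟨α, u, hu, u0, e⟩ := hm
  have hα : α ≠ 0 := fun hα => u0 (by simpa [hα, mono_zero, h0] using e.self_of_nhds.symm)
  obtain ⟨i0, hi0⟩ := Function.ne_iff.1 hα
  have hN : ∑ j, α j ≠ 0 := fun hN => hi0 (Finset.sum_eq_zero_iff.1 hN i0 (Finset.mem_univ _))
  obtain ⟨K, hK, e1⟩ := ev_bound hu.fderiv.continuousAt
  obtain ⟨K', hK', e2⟩ := ev_bound (hu.continuousAt.inv₀ u0)
  refine ⟨_, 2 * K' ^ ((∑ j, α j : ℕ) : ℝ)⁻¹, hN, ?_⟩
  filter_upwards [e.eventually_nhds, e1, e2, hu.eventually_analyticAt,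
    hu.continuousAt.eventually_ne u0, ball_mem_nhds (0 : V n) (show 0 < (2 * K * K')⁻¹ by positivity)]
    with w a1 a2 a3 a4 a5 a6 hw
  obtain ⟨i, hi, hmin⟩ := (Finset.univ.filter fun j => α j ≠ 0).exists_min_image
    (fun j => |w j|) ⟨i0, by simpa using hi0⟩
  replace hi : α i ≠ 0 := (Finset.mem_filter.1 hi).2
  have b0 := a1.self_of_nhds
  have up : 0 < |u w| := abs_pos.2 a5
  rw [Pi.inv_apply, Real.norm_eq_abs, abs_inv, inv_le_iff_one_le_mul₀ up] at a3
  have c0 : HasDerivAt (fun s : ℝ => w + s • Pi.single i (w i)) (Pi.single i (w i) : V n) 0 := by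
    simpa using ((hasDerivAt_id (0 : ℝ)).smul_const (Pi.single i (w i) : V n)).const_add w
  have dh : DifferentiableAt ℝ h w :=
    ((an_mono α w).mul a4).differentiableAt.congr_of_eventuallyEq a1
  have d1 := dh.hasFDerivAt.comp_hasDerivAt_of_eq 0 c0 (by simp)
  have d2 := ((hasDerivAt_mono α w i).mul
    (a4.differentiableAt.hasFDerivAt.comp_hasDerivAt_of_eq 0 c0 (by simp))).congr_of_eventuallyEq
    (f₁ := h ∘ fun s : ℝ => w + s • (Pi.single i (w i) : V n))
    ((c0.continuousAt.tendsto.mono_right (by simp)).eventually a1)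
  have d3 := d1.unique d2
  simp only [Function.comp_apply, zero_smul, add_zero] at d3
  have n1 : ‖(Pi.single i (w i) : V n)‖ = |w i| := by rw [Pi.norm_single, Real.norm_eq_abs]
  have n2 : |w i| * (2 * K * K') ≤ 1 := by
    rw [← le_div_iff₀ (by positivity), one_div]
    exact (norm_le_pi_norm w i).trans (mem_ball_zero_iff.1 a6).le
  have n3 : |fderiv ℝ u w (Pi.single i (w i))| ≤ |u w| / 2 := by
    have := (fderiv ℝ u w).le_of_opNorm_le a2 (Pi.single i (w i))
    rw [n1, Real.norm_eq_abs] at this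
    have h1 : K * |w i| * 1 ≤ K * |w i| * (K' * |u w|) := by gcongr
    nlinarith
  have n4 : |h w| / 2 ≤ ‖fderiv ℝ h w‖ * |w i| := by
    have h1 := (fderiv ℝ h w).le_opNorm (Pi.single i (w i))
    rw [n1, d3, Real.norm_eq_abs, show (α i : ℝ) * mono α w * u w + mono α w *
      fderiv ℝ u w (Pi.single i (w i)) = mono α w * (α i * u w + fderiv ℝ u w (Pi.single i (w i)))
      by ring, abs_mul] at h1
    refine le_trans ?_ h1
    rw [b0, abs_mul, mul_div_assoc]
    refine mul_le_mul_of_nonneg_left ?_ (abs_nonneg _)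
    have h2 := abs_sub_abs_le_abs_add ((α i : ℝ) * u w) (fderiv ℝ u w (Pi.single i (w i)))
    have h3 : (1 : ℝ) ≤ α i := by exact_mod_cast Nat.one_le_iff_ne_zero.2 hi
    rw [abs_mul, Nat.abs_cast] at h2
    nlinarith
  have n5 : |w i| ^ (∑ j, α j) ≤ K' * |h w| := by
    have h1 : |w i| ^ (∑ j, α j) ≤ |mono α w| := by
      rw [mono, Finset.abs_prod, ← Finset.prod_pow_eq_pow_sum]
      refine Finset.prod_le_prod (fun _ _ => by positivity) fun j _ => ?_
      rw [abs_pow]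
      by_cases hj : α j = 0
      · simp [hj]
      · exact pow_le_pow_left₀ (abs_nonneg _) (hmin j (by simpa using hj)) _
    rw [b0, abs_mul, mul_left_comm]
    exact h1.trans (le_mul_of_one_le_right (abs_nonneg _) a3)
  have n6 : |w i| ≤ K' ^ ((∑ j, α j : ℕ) : ℝ)⁻¹ * |h w| ^ ((∑ j, α j : ℕ) : ℝ)⁻¹ := by
    rw [← Real.mul_rpow hK'.le (abs_nonneg _), Real.le_rpow_inv_iff_of_pos (abs_nonneg _)
      (by positivity) (by positivity), Real.rpow_natCast]
    exact n5
  have hp := abs_pos.2 hw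
  rw [Real.rpow_sub hp, Real.rpow_one, div_le_iff₀ (Real.rpow_pos_of_pos hp _)]
  have := mul_le_mul_of_nonneg_left n6 (norm_nonneg (fderiv ℝ h w))
  nlinarith

theorem loj_grad0 {f : V n → ℝ} (hf : AnalyticAt ℝ f 0) (h0 : f 0 = 0) :
    ∃ θ C : ℝ, 1 / 2 ≤ θ ∧ θ < 1 ∧ 0 < C ∧ ∀ᶠ y in 𝓝 0, |f y| ^ θ ≤ C * ‖fderiv ℝ f y‖ := by
  by_contra hc
  have t1 : ∀ k : ℕ, (1 : ℝ) / 2 ≤ 1 - ((k : ℝ) + 2)⁻¹ := fun k => by
    have : ((k : ℝ) + 2)⁻¹ ≤ 2⁻¹ := inv_anti₀ two_pos (by simp)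
    linarith
  obtain ⟨z, hz, h1⟩ := exists_seq (P := fun k y => ((k : ℝ) + 1) * ‖fderiv ℝ f y‖ <
      |f y| ^ (1 - ((k : ℝ) + 2)⁻¹)) fun k => by
    by_contra h
    exact hc ⟨_, (k : ℝ) + 1, t1 k, sub_lt_self _ (by positivity), by positivity,
      (not_frequently.1 h).mono fun y hy => not_lt.1 hy⟩
  have h2 : ∀ k, f (z k) ≠ 0 := fun k hk => by
    have := h1 k
    rw [hk, abs_zero, Real.zero_rpow (by linarith [t1 k])] at this
    exact absurd this (not_lt.2 (by positivity))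
  have hU : (hyperfilter ℕ : Filter ℕ) ≤ atTop := Nat.hyperfilter_le_atTop
  obtain ⟨π, y, L, hm⟩ := mon (hyperfilter ℕ) n z (hz.mono_left hU) f hf fun h =>
    let ⟨k, hk⟩ := (hz.eventually h).exists
    h2 k hk
  obtain ⟨N, C, hN, e⟩ := hm.loj (by rw [L.z0, h0])
  obtain ⟨K, hK, e1⟩ := ev_bound L.an.fderiv.continuousAt
  have e2 : ∀ᶠ w in 𝓝 (0 : V n), |f w| < 1 :=
    hf.continuousAt.abs.eventually (gt_mem_nhds (by simp [h0]))
  have e3 : ∀ᶠ k : ℕ in atTop, max (N : ℝ) (|C| * K) ≤ k :=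
    tendsto_natCast_atTop_atTop.eventually_ge_atTop _
  obtain ⟨k, ⟨a1, a2, a3⟩, a4, a5, a6, a7⟩ := ((L.lim.eventually (e.and (e1.and
    L.an.eventually_analyticAt))).and (L.eq.and (((hz.eventually e2).filter_mono hU).and
    (((hz.eventually hf.eventually_analyticAt).filter_mono hU).and (e3.filter_mono hU))))).exists
  have b1 := a1 (by rw [a4]; exact h2 k)
  have b2 : ‖fderiv ℝ (fun w => f (π w)) (y k)‖ ≤ ‖fderiv ℝ f (z k)‖ * K := by
    rw [fderiv_fun_comp _ (by rw [a4]; exact a6.differentiableAt) a3.differentiableAt, a4]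
    exact (ContinuousLinearMap.opNorm_comp_le _ _).trans (by gcongr)
  have b3 : |f (z k)| ^ (1 - ((k : ℝ) + 2)⁻¹) ≤ |f (z k)| ^ (1 - (N : ℝ)⁻¹) :=
    Real.rpow_le_rpow_of_exponent_ge (abs_pos.2 (h2 k)) a5.le (by
      have : ((k : ℝ) + 2)⁻¹ ≤ (N : ℝ)⁻¹ :=
        inv_anti₀ (by positivity) (by linarith [le_max_left (N : ℝ) (|C| * K)])
      linarith)
  rw [a4] at b1
  have b4 : C * ‖fderiv ℝ (fun w => f (π w)) (y k)‖ ≤ |C| * (‖fderiv ℝ f (z k)‖ * K) := by
    gcongr; exact le_abs_self C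
  have b5 := mul_le_mul_of_nonneg_right ((le_max_right _ _).trans a7) (norm_nonneg (fderiv ℝ f (z k)))
  have b6 := norm_nonneg (fderiv ℝ f (z k))
  linarith [h1 k]

lemma an_diag (ε : V n) : AnalyticAt ℝ (fun t : ℝ => t • ε) 0 := analyticAt_id.smul analyticAt_const

lemma tendsto_diag (ε : V n) : Tendsto (fun t : ℝ => t • ε) (𝓝 0) (𝓝 0) := by
  simpa only [ContinuousAt, zero_smul] using (an_diag ε).continuousAt





section general

variable {E : Type*} [NormedAddCommGroup E] [NormedSpace ℝ E] [FiniteDimensional ℝ E]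

lemma exists_chart (x : E) : ∃ (n : ℕ) (e : V n ≃L[ℝ] E), AnalyticAt ℝ (fun w => x + e w) 0 ∧
    Tendsto (fun y => e.symm (y - x)) (𝓝 x) (𝓝 0) := by
  let e := (Module.finBasis ℝ E).equivFunL.symm
  refine ⟨_, e, analyticAt_const.add (e.analyticAt 0), ?_⟩
  exact (by fun_prop : Continuous fun y => e.symm (y - x)).tendsto' _ _ (by simp)

/-- the LOJASIEWICZ GRADIENT INEQUALITY -/
theorem loj_grad {f : E → ℝ} {x : E} (hf : AnalyticAt ℝ f x) :
    ∃ θ C : ℝ, 1 / 2 ≤ θ ∧ θ < 1 ∧ 0 < C ∧ ∀ᶠ y in 𝓝 x, |f y - f x| ^ θ ≤ C * ‖fderiv ℝ f y‖ := by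
  obtain ⟨n, e, h1, h2⟩ := exists_chart x
  obtain ⟨θ, C, t1, t2, hC, h⟩ := loj_grad0 (f := fun w => f (x + e w) - f x)
    ((hf.comp_of_eq h1 (by simp)).sub analyticAt_const) (by simp)
  refine ⟨θ, C * (‖(e : V n →L[ℝ] E)‖ + 1), t1, t2, by positivity, ?_⟩
  filter_upwards [h2.eventually h, hf.eventually_analyticAt] with y h3 h4
  have h5 : HasFDerivAt (fun w => f (x + e w) - f x) (fderiv ℝ f y ∘L (e : V n →L[ℝ] E))
      (e.symm (y - x)) :=
    (HasFDerivAt.comp (f := fun w => x + e w) _ (by simpa using h4.differentiableAt.hasFDerivAt)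
      (e.hasFDerivAt.const_add x)).sub_const _
  rw [h5.fderiv] at h3
  simp only [ContinuousLinearEquiv.apply_symm_apply, add_sub_cancel] at h3
  refine h3.trans ?_
  rw [mul_assoc, mul_comm _ ‖fderiv ℝ f y‖]
  exact mul_le_mul_of_nonneg_left ((ContinuousLinearMap.opNorm_comp_le _ _).trans
    (by gcongr; exact le_add_of_nonneg_right zero_le_one)) hC.le



end general

end Crest.Agent.N250.Mo
end
end

-- ▼ part N250/L/FC
section

/-!
Row 250, block FC (helper31): formal curve selection `B2.FCStmt` from the monomialisation of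
pro-analytic germs.
-/

set_option autoImplicit false
set_option linter.unusedSectionVars false
set_option linter.unusedVariables false

open Set Filter Topology Asymptotics Metric

noncomputable section

namespace Crest.Agent.N250.FC

open Crest.Agent.N250.PA Crest.Agent.N250.B2
open Crest.Agent.N250.Mo (V mono cs tl mono_smul mono_eq_zero an_mono an_coord)

lemma g1 : Gauge fun t : ℝ => t := gauge_clm (ContinuousLinearMap.id ℝ ℝ)

section one

variable {F : Type} [NormedAddCommGroup F] [NormedSpace ℝ F]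

lemma pa_dslope {h : ℝ → F} (H : IsPA (fun t => t) h) : IsPA (fun t => t) (dslope h 0) := fun N => by
  obtain ⟨k, hk⟩ := H (N + 2)
  have h0 := hk.apply_zero g1
  obtain ⟨p, hp⟩ := hk.1
  refine ⟨dslope k 0, hp.has_fpower_series_dslope_fslope.analyticAt, ?_⟩
  rw [PA.Ord, ← nhdsNE_sup_pure, isBigO_sup, isBigO_pure]
  refine ⟨?_, fun _ => ?_⟩
  · have h1 := (isBigO_refl (fun t : ℝ => t⁻¹) (𝓝[≠] 0)).smul
      (IsBigO.mono (hk.2.mono g1 (show N + 1 ≤ N + 2 by omega)) nhdsWithin_le_nhds)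
    refine h1.congr' ?_ ?_ <;> filter_upwards [self_mem_nhdsWithin] with t ht
    · rw [dslope_of_ne _ ht, dslope_of_ne _ ht, slope_def_module, slope_def_module, sub_zero, h0,
        ← smul_sub]
      congr 1; abel
    · have : t ≠ 0 := ht
      rw [smul_eq_mul, pow_succ', inv_mul_cancel_left₀ this]
  · have h1 : HasDerivAt (fun t => h t - k t) 0 0 := by
      rw [hasDerivAt_iff_isLittleO_nhds_zero]
      simpa [h0] using IsBigO.trans_isLittleO hk.2 (isLittleO_pow_id (show 1 < N + 2 by omega))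
    have h2 := h1.add hk.1.differentiableAt.hasDerivAt
    rw [dslope_same, dslope_same, sub_eq_zero]
    simpa using (h2.congr_of_eventuallyEq (f₁ := h) (.of_forall fun t => by simp)).deriv

/-- the asymptotic expansion of a pro-analytic curve -/
lemma expansion {h : ℝ → F} (H : IsPA (fun t => t) h) :
    ∃ P : ℕ → F, P 0 = h 0 ∧ ∀ N, (fun t => h t - tr P N t) =O[𝓝 0] fun t => t ^ N := by
  have h1 : ∀ N, IsPA (fun t => t) ((fun f => dslope f 0)^[N] h) := fun N => by
    induction N with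
    | zero => exact H
    | succ N ih => rw [Function.iterate_succ_apply']; exact pa_dslope ih
  refine ⟨fun m => (fun f => dslope f 0)^[m] h 0, rfl, fun N => ?_⟩
  have h2 : ∀ t, h t - tr (fun m => (fun f => dslope f 0)^[m] h 0) N t =
      t ^ N • (fun f => dslope f 0)^[N] h t := fun t => by
    induction N with
    | zero => simp [tr]
    | succ N ih =>
      have := sub_smul_dslope ((fun f => dslope f 0)^[N] h) 0 t
      rw [sub_zero] at this
      rw [tr, Finset.sum_range_succ, ← sub_sub, Function.iterate_succ_apply', pow_succ, mul_smul,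
        this, smul_sub]
      exact congrArg (· - _) ih
  simp only [h2]
  exact Ord.smul_bdd' (Ord.pow_self N) ((h1 N).bdd g1)

lemma pa_isBigO {h : ℝ → F} (H : IsPA (fun t => t) h) (h0 : h 0 = 0) : h =O[𝓝 0] fun t => t := by
  obtain ⟨P, h1, h2⟩ := expansion H
  simpa [tr, h1, h0] using h2 1

end one

lemma mono_pow_le {n : ℕ} {α β : Fin n → ℕ} (hs : ∀ i, α i ≠ 0 → β i ≠ 0) {y : V n} (hy : ‖y‖ ≤ 1) :
    |mono β y| ^ (∑ j, α j) ≤ |mono α y| := by
  rw [← abs_pow, ← mono_smul, mono, mono, Finset.abs_prod, Finset.abs_prod]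
  refine Finset.prod_le_prod (fun _ _ => abs_nonneg _) fun j _ => ?_
  rw [abs_pow, abs_pow]
  refine pow_le_pow_of_le_one (abs_nonneg _) ((norm_le_pi_norm y j).trans hy) ?_
  by_cases hj : α j = 0
  · simp [hj]
  · exact (Finset.single_le_sum (fun _ _ => Nat.zero_le _) (Finset.mem_univ j)).trans
      (Nat.le_mul_of_pos_right _ (Nat.pos_of_ne_zero (hs j hj)))

lemma isBigO_mul_unit {A : Type*} {l : Filter A} {f u : A → ℝ} {c : ℝ} (hu : Tendsto u l (𝓝 c))
    (hc : c ≠ 0) : f =O[l] fun a => f a * u a := by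
  refine ((isBigO_refl (fun a => f a * u a) l).mul ((hu.inv₀ hc).isBigO_one ℝ)).congr' ?_
    (.of_forall fun a => mul_one _)
  filter_upwards [hu.eventually_ne hc] with a ha
  rw [mul_inv_cancel_right₀ ha]

/-- CURVE SELECTION for pro-analytic germs: the point has gauge coordinate `ρ` and the `g j` are
negligible at it -/
theorem curve {A τ : Type*} [Finite τ] {U : Ultrafilter A} {n : ℕ} {s : Fin n} {g : τ → V n → ℝ}
    (hg : ∀ j, IsPA (gc s) (g j)) {z : A → V n} (hz : Tendsto z U (𝓝 0))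
    (h0 : ∀ᶠ a in U, 0 < z a s) (hs : ∀ j N, (fun a => g j (z a)) =O[U] fun a => z a s ^ N) :
    ∃ γ : ℝ → V n, IsPA (fun t => t) γ ∧ γ 0 = 0 ∧ (∀ j, Null (fun t => t) fun t => g j (γ t)) ∧
      ¬ Null (fun t => t) fun t => γ t s := by
  classical
  have hp : Pt U (fun a => z a s) s z := ⟨hz, 1, h0.mono fun a ha => by simp [abs_of_pos ha]⟩
  obtain ⟨s', π, y, L, hm⟩ := mon_fam (g := fun o : Option τ => o.elim (fun w => w s) g)
    (fun o => by cases o; exacts [IsPA.coord s, hg _]) hp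
  obtain ⟨γ, v, hv, v0, e⟩ := hm none (not_null_coord s s)
  replace e : Null (gc s') fun w => π w s - mono γ w * v w := e
  set ε : V n := fun j => if γ j = 0 then 0 else 1 with hε
  have l0 : Tendsto (fun t : ℝ => t • ε) (𝓝 0) (𝓝 0) := Mo.tendsto_diag ε
  have lo : (fun t : ℝ => gc s' (t • ε)) =O[𝓝 0] fun t => t :=
    (isBigO_refl (fun t : ℝ => t) _).const_mul_left (ε s') |>.congr_left fun t => by
      simp [mul_comm]
  have ng : ∀ {h : V n → ℝ}, Null (gc s') h → ∀ N, (fun a => h (y a)) =O[U] fun a => z a s ^ N :=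
    fun hh N => by
      obtain ⟨C, -, hC⟩ := hh.negl L.pt N
      exact IsBigO.of_bound C (hC.and h0 |>.mono fun a ha => by
        rw [Real.norm_eq_abs (_ ^ N), abs_of_pos (pow_pos ha.2 N)]; exact ha.1)
  have lt : ∀ N, (fun a => z a s ^ (N + 1)) =o[U] fun a => z a s ^ N := fun N =>
    (isLittleO_pow_pow N.lt_succ_self).comp_tendsto (tendsto_pi_nhds.1 hz s)
  refine ⟨fun t => π (t • ε), L.pa.comp g1 (IsPA.of_analytic (Mo.an_diag ε)) (zero_smul _ _) lo,
    by simp [L.z0], fun j => ?_, fun hn => ?_⟩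
  · by_cases h : Null (gc s) (g j)
    · exact (L.null h).comp l0 lo
    obtain ⟨β, u, hu, u0, e'⟩ := hm (some j) h
    replace e' : Null (gc s') fun w => g j (π w) - mono β w * u w := e'
    by_cases hb : ∃ i, β i ≠ 0 ∧ γ i = 0
    · obtain ⟨i, h1, h2⟩ := hb
      exact (e'.comp l0 lo).congr fun t => by
        rw [mono_eq_zero h1 (by simp [hε, h2]), zero_mul, sub_zero]
    exfalso
    push Not at hb
    have a1 : (fun a => z a s) =O[U] fun a => mono γ (y a) := by
      have b1 := ((ng e 2).trans_isLittleO (lt 1)).congr' (f₂ := fun a => z a s -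
        mono γ (y a) * v (y a)) (g₂ := fun a => z a s) (L.eq.mono fun a ha => by simp [ha])
        (.of_forall fun a => pow_one _)
      refine b1.right_isBigO_sub.trans ?_
      simpa using (isBigO_refl (fun a => mono γ (y a)) U).mul
        ((hv.bdd (gg s')).comp_tendsto L.pt.lim)
    have a2 : (fun a => mono γ (y a) ^ ∑ i, β i) =O[U] fun a => mono β (y a) :=
      IsBigO.of_bound' ((L.pt.lim.eventually (closedBall_mem_nhds 0 one_pos)).mono fun a ha => by
        rw [Real.norm_eq_abs, Real.norm_eq_abs, abs_pow]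
        exact mono_pow_le hb (mem_closedBall_zero_iff.1 ha))
    have a3 := isBigO_mul_unit (f := fun a => mono β (y a))
      ((hu.continuousAt (gg s')).tendsto.comp L.pt.lim) u0
    have a4 : (fun a => mono β (y a) * u (y a)) =O[U] fun a => z a s ^ (∑ i, β i + 1) :=
      ((hs j _).sub (ng e' _)).congr' (L.eq.mono fun a ha => by simp [ha]) EventuallyEq.rfl
    exact isLittleO_irrefl' (h0.mono fun a ha => norm_ne_zero_iff.2 (pow_pos ha _).ne').frequently
      (((((a1.pow _).trans a2).trans a3).trans a4).trans_isLittleO (lt _))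
  · have a1 : ∀ t : ℝ, mono γ (t • ε) = t ^ ∑ i, γ i := fun t => by
      rw [mono, ← Finset.prod_pow_eq_pow_sum]
      refine Finset.prod_congr rfl fun i _ => ?_
      by_cases hi : γ i = 0 <;> simp [hε, hi]
    have a2 := isBigO_mul_unit (f := fun t : ℝ => t ^ ∑ i, γ i)
      ((hv.continuousAt (gg s')).tendsto.comp l0) v0
    have a3 := (hn.of_sub (e.comp l0 lo)) (∑ i, γ i + 1)
    simp only [a1] at a3
    have a4 : ∀ᶠ t : ℝ in 𝓝[≠] 0, ‖t ^ ∑ i, γ i‖ ≠ 0 :=
      eventually_nhdsWithin_of_forall fun t ht => norm_ne_zero_iff.2 (pow_ne_zero _ ht)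
    exact isLittleO_irrefl' a4.frequently (((a2.trans a3).trans_isLittleO
      (isLittleO_pow_pow (Nat.lt_succ_self _))).mono nhdsWithin_le_nhds)

lemma exists_seq {E : Type*} [NormedAddCommGroup E] {P : ℕ → E → Prop} (h : ∀ k, ∃ᶠ y in 𝓝 0, P k y) :
    ∃ z : ℕ → E, Tendsto z atTop (𝓝 0) ∧ ∀ k, P k (z k) := by
  choose z h1 h2 using fun k : ℕ => ((h k).and_eventually
    (ball_mem_nhds (0 : E) (Nat.one_div_pos_of_nat (n := k)))).exists
  exact ⟨z, squeeze_zero_norm (fun k => (mem_ball_zero_iff.1 (h2 k)).le)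
    tendsto_one_div_add_atTop_nhds_zero_nat, h1⟩

/-- **formal curve selection** -/
theorem fcStmt : FCStmt := by
  intro ι κ τ _ _ _ g ha hs
  classical
  refine or_iff_not_imp_left.2 fun hc => ?_
  let aL : (ι ⊕ κ → ℝ) →L[ℝ] κ → ℝ :=
    ContinuousLinearMap.pi fun j => ContinuousLinearMap.proj (Sum.inr j)
  have go : Gauge fun x : ι ⊕ κ → ℝ => ‖aa x‖ := gauge_norm_clm aL
  obtain ⟨G, hG⟩ := realise_seq go g hs
  have pG : IsPA (fun x => ‖aa x‖) G := fun N => ⟨g N, ha N, hG N⟩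
  -- the point
  obtain ⟨z, hz, h1⟩ := exists_seq (P := fun k (x : ι ⊕ κ → ℝ) =>
      ‖g (k + 2) x‖ < ‖aa x‖ ^ (k + 1) ∧ ‖G x - g (k + 2) x‖ ≤ ‖aa x‖ ^ (k + 1)) fun k => by
    refine Frequently.and_eventually ?_ ?_
    · by_contra h
      exact hc ⟨k + 1, 1, (not_frequently.1 h).mono fun x hx => by simpa using hx⟩
    · simpa using (IsBigO.trans_isLittleO (hG (k + 2)) ((isLittleO_pow_pow
        (Nat.lt_succ_self (k + 1))).comp_tendsto go.tendsto)).eventuallyLE
  have hU : (hyperfilter ℕ : Filter ℕ) ≤ atTop := Nat.hyperfilter_le_atTop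
  have p0 : ∀ k, 0 < ‖aa (z k)‖ := fun k => (norm_nonneg _).lt_of_ne' fun h => by
    have := (h1 k).1
    rw [h, zero_pow k.succ_ne_zero] at this
    exact absurd this (not_lt.2 (norm_nonneg _))
  have t0 : Tendsto (fun k => ‖aa (z k)‖) atTop (𝓝 0) := go.tendsto.comp hz
  obtain ⟨c, hc1, hc2⟩ := (isCompact_sphere (0 : κ → ℝ) 1).ultrafilter_le_nhds
    ((hyperfilter ℕ).map fun k => ‖aa (z k)‖⁻¹ • aa (z k)) (le_principal_iff.2 (by
      rw [Ultrafilter.coe_map, mem_map]
      exact univ_mem' fun k => by simp [norm_smul, (p0 k).ne']))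
  obtain ⟨j0, hj0⟩ : ∃ j, c j ≠ 0 := Function.ne_iff.1 fun h : c = 0 => by simp [h] at hc1
  -- the first chart
  let e := Fintype.equivFin (ι ⊕ κ)
  let π : V (Fintype.card (ι ⊕ κ) + 1) → ι ⊕ κ → ℝ := fun w =>
    Sum.elim (fun i => w (e (.inl i)).succ) fun j => w 0 * (c j + w (e (.inr j)).succ)
  have an : AnalyticAt ℝ π 0 := analyticAt_pi_iff.2 fun i => by
    rcases i with i | j
    exacts [an_coord _ 0, (an_coord _ 0).mul (analyticAt_const.add (an_coord _ 0))]
  have π0 : π 0 = 0 := funext fun i => by rcases i with i | j <;> simp [π]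
  have po : (fun w => ‖aa (π w)‖) =O[𝓝 0] gc 0 := IsBigO.norm_left (isBigO_pi.2 fun j =>
    ((isBigO_refl (gc 0) (𝓝 0)).mul
      ((analyticAt_const.add (an_coord (e (.inr j)).succ 0)).continuousAt.tendsto.isBigO_one ℝ
        (c := c j + 0))).congr_right fun _ => mul_one _)
  let w : ℕ → V (Fintype.card (ι ⊕ κ) + 1) := fun k => cs ‖aa (z k)‖ fun i =>
    Sum.elim (fun i => z k (.inl i)) (‖aa (z k)‖⁻¹ • aa (z k) - c) (e.symm i)
  have πw : ∀ k, π (w k) = z k := fun k => funext fun i => by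
    rcases i with i | j
    · simp [π, w]
    · simp [π, w, (p0 k).ne', aa]
  have tw : Tendsto w (hyperfilter ℕ) (𝓝 0) :=
    Mo.tendsto_cs (t0.mono_left hU) (tendsto_pi_nhds.2 fun i => by
      rcases e.symm i with i | j
      · exact tendsto_pi_nhds.1 (hz.mono_left hU) _
      · exact tendsto_pi_nhds.1 (tendsto_sub_nhds_zero_iff.2 hc2) j)
  have pπ : IsPA (gc 0) fun w => G (π w) := pG.comp (gg 0) (IsPA.of_analytic an) π0 po
  obtain ⟨γ, b1, b2, b3, b4⟩ := curve (s := 0) (g := fun j w => G (π w) j) (fun j => pπ.apply j) tw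
    (.of_forall p0) fun j N => IsBigO.of_bound 2 (by
      filter_upwards [hU (eventually_ge_atTop N), hU (t0.eventually (gt_mem_nhds one_pos))]
        with k k1 k2
      have k3 : ‖aa (z k)‖ ^ (k + 1) ≤ ‖aa (z k)‖ ^ N :=
        pow_le_pow_of_le_one (norm_nonneg _) (le_of_lt k2) (Nat.le_succ_of_le k1)
      have k4 := norm_le_norm_add_norm_sub' (G (z k)) (g (k + 2) (z k))
      rw [πw, norm_pow]
      refine (norm_le_pi_norm _ j).trans ?_
      have := h1 k
      simp only [w, Mo.cs_zero, norm_norm]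
      linarith [this.1, this.2])
  have c1 : IsPA (fun t => t) fun t => π (γ t) := b1.analytic_comp g1 (b2 ▸ an)
  have c0 : π (γ 0) = 0 := by rw [b2, π0]
  have ct := c1.tendsto g1 c0
  obtain ⟨P, d1, d2⟩ := expansion c1
  refine ⟨P, d1.trans c0, ?_, fun N => ?_⟩
  · by_contra h
    push Not at h
    refine b4 fun N => IsBigO.trans (isBigO_mul_unit (c := c j0)
      (u := fun t => c j0 + γ t (e (.inr j0)).succ) ?_ hj0) ?_
    · simpa using (tendsto_pi_nhds.1 (b1.tendsto g1 b2) _).const_add (c j0)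
    · simpa [π, tr, h] using isBigO_pi.1 (d2 N) (.inr j0)
  · have f1 : Tendsto (tr P N : ℝ → _) (𝓝 0) (𝓝 0) := by
      rcases N with _ | N
      · exact tendsto_const_nhds
      · simpa using ct.sub ((d2 _).trans_tendsto (by
          simpa using (tendsto_id (x := 𝓝 (0 : ℝ))).pow (N + 1)))
    have f2 := (analytic_sub_isBigO (ha N) ct f1).trans (d2 N)
    have f3 : Ord (fun t => t) N fun t => G (π (γ t)) - g N (π (γ t)) := (hG N).comp ct
      ((aL.isBigO_comp _ _).norm_left.trans (pa_isBigO c1 c0))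
    have f4 : (fun t => G (π (γ t))) =O[𝓝 0] fun t => t ^ N := isBigO_pi.2 fun j => b3 j N
    exact ((f4.sub f3).sub f2).congr_left fun t => by abel

end Crest.Agent.N250.FC
end
end

-- ▼ part N250/B2/Gl

/-!
# Row 250, block (B2)+(L): `gl2_of : NC2Stmt → GL2Stmt` (helper34)
-/

set_option autoImplicit false
set_option linter.unusedSectionVars false

open Set Metric Filter Topology Asymptotics Function

noncomputable section

namespace Crest.Agent.N250.B2

variable {ι κ Γ : Type} [Fintype ι] [Fintype κ] [DecidableEq κ]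

section dich

variable {Q : Cells Γ} {F : (κ → Γ) → (ι ⊕ κ → ℂ) → ℂ} {r c r1 : ℝ} {k : ℕ → (ι ⊕ κ → ℂ) → ℂ}

/-- the dichotomy for the truncations -/
theorem Tr.dich (h : Tr Q F r c k r1) :
    (∃ (N : ℕ) (C : ℝ), ∀ᶠ x : ι ⊕ κ → ℝ in 𝓝 0,
      ‖aa x‖ ^ N ≤ C * ‖fderiv ℂ (k (N + 2)) (ofR x)‖) ∨ ∃ P, Crit k P := by
  classical
  have hp := h.r1_pos
  have han : ∀ N, AnalyticAt ℂ (k N) 0 := fun N => an_zero hp (h.hol N)
  have hsm : ∀ᶠ x : ι ⊕ κ → ℝ in 𝓝 0, ‖x‖ < r1 / 2 := by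
    filter_upwards [ball_mem_nhds (0 : ι ⊕ κ → ℝ) (half_pos hp)] with x hx
    exact mem_ball_zero_iff.1 hx
  refine (FC.fcStmt ι κ (ι ⊕ κ) (fun N => gr (k (N + 1))) (fun N => an_gr (han _))
    fun N => ?_).imp ?_ ?_
  · obtain ⟨C, hC⟩ := h.step (N + 1)
    refine IsBigO.of_bound (2 * |C| * 3 ^ (N + 1)) ?_
    filter_upwards [hsm] with x hx
    have hx' : ‖ofR x‖ < r1 / 2 := by rwa [norm_ofR]
    have hm : ball (0 : ι ⊕ κ → ℂ) r1 ∈ 𝓝 (ofR x) :=
      isOpen_ball.mem_nhds (mem_ball_zero_iff.2 (by linarith))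
    have h1 := fd_step ((h.hol (N + 2)).sub (h.hol (N + 1))) hC hx'
    have h2 : gr (k (N + 1 + 1)) x - gr (k (N + 1)) x = gr (k (N + 2) - k (N + 1)) x := by
      funext i
      simp only [gr, Pi.sub_apply]
      rw [fderiv_sub ((h.hol _).differentiableAt hm) ((h.hol _).differentiableAt hm)]
      simp
    rw [h2, Real.norm_of_nonneg (by positivity), ← norm_aa_ofR]
    exact (norm_gr_le _ _).trans h1
  · rintro ⟨N, C, hC⟩
    refine ⟨N, |C|, hC.mono fun x hx => hx.trans ?_⟩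
    exact (mul_le_mul_of_nonneg_right (le_abs_self C) (norm_nonneg _)).trans
      (mul_le_mul_of_nonneg_left (norm_gr_le _ _) (abs_nonneg C))
  · rintro ⟨P, h0, hne, hP⟩
    refine ⟨P, h0, hne, fun N => ?_⟩
    have e0 : tr (fun m => ofR (P m)) N (0 : ℂ) = 0 := tr_zero (by rw [h0, ofR_zero]) N
    have hi : ∀ i, (fun t : ℂ => fderiv ℂ (k (N + 1)) (tr (fun m => ofR (P m)) N t) (Pi.single i 1))
        =O[𝓝 0] fun t => t ^ N := fun i => by
      refine isBigO_of_real ((an_fd (han _) i).comp_of_eq (an_tr _ N 0) e0) ?_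
      have t0 : Tendsto (fun t : ℝ => tr P N t) (𝓝 0) (𝓝 0) :=
        (by unfold tr; fun_prop : Continuous fun t : ℝ => tr P N t).tendsto' _ _ (tr_zero h0 N)
      refine IsBigO.trans (IsBigO.of_bound 1 ?_) (hP N)
      filter_upwards [t0.eventually hsm] with t ht
      have him := im_fderiv (h.hol (N + 1)) (h.real (N + 1)) (x := tr P N t) (by linarith)
        (Pi.single i 1)
      rw [ofR_single] at him
      rw [one_mul, comp_apply, ofR_tr, ← Complex.abs_re_eq_norm.2 him]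
      exact norm_le_pi_norm (gr (k (N + 1)) (tr P N t)) i
    have hs := IsBigO.sum (s := Finset.univ) fun i _ => (hi i).norm_left
    refine IsBigO.trans (IsBigO.of_bound 1 (Eventually.of_forall fun t => ?_)) hs
    rw [one_mul, Finset.sum_apply]
    exact (norm_le_sum _).trans (le_abs_self _)

end dich

variable {f : ℝ → (ι ⊕ κ → ℂ) → ℂ} {m : κ → ℝ → (ι ⊕ κ → ℂ) → ℂ} {φ : ℂ → ℂ} {M : ℝ → ℝ}
  {ω : ℂ} {d : κ → ℝ} {r δ B0 C g r1 : ℝ} {k : ℕ → (ι ⊕ κ → ℂ) → ℂ}

/-- the truncations approximate `f B` on the polydisc -/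
theorem Rx.app (h : Rx f m φ M ω d r δ B0 C g) {hB : 0 < B0}
    (hT : Tr (cells B0 hB) (fam f B0) r (1 / 2) k r1) (N : ℕ) :
    ∃ K, 0 ≤ K ∧ ∀ B, 2 * B0 < B → ∀ z : ι ⊕ κ → ℂ, ‖z‖ < r1 → ‖aa z‖ < 2 / (B + B0 / 4) →
      z ∈ DomB r δ d B ∧ ‖f B z - k N z‖ ≤ K * (‖aa z‖ ^ N + Real.exp (-B / 4)) := by
  obtain ⟨K, hK⟩ := hT.app N
  refine ⟨|K| * (1 + Fintype.card κ), by positivity, fun B hBB z hz ha => ?_⟩
  set ρ := 2 / (B + B0 / 4) with hρ
  have hρ0 : 0 < ρ := div_pos two_pos (by linarith)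
  have hρ1 : ρ < 1 / B0 := by rw [hρ, div_lt_div_iff₀ (by linarith) hB]; linarith
  have hl : lev B0 ρ = B := by
    have : B + B0 / 4 ≠ 0 := by linarith
    rw [lev, hρ]; field_simp; ring
  have hy : ∀ i, ‖z (Sum.inl i)‖ < r := fun i => ((norm_le_pi_norm z _).trans_lt hz).trans_le hT.r1_le
  have hj : ∀ j, ‖z (Sum.inr j)‖ < ρ := fun j => (norm_le_pi_norm (aa z) j).trans_lt ha
  have hzB : z ∈ DomB r δ d B := h.mem_dom (by linarith) hy hj
  have hU : (cells B0 hB).Adm (fun _ : κ => ρ) := fun _ => ⟨hρ0, hρ1⟩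
  have hzU : z ∈ (cells B0 hB).Dom r (fun _ : κ => ρ) := ⟨hy, fun j => mem_ball_zero_iff.2 (hj j)⟩
  have h1 := hK _ hU z hzU hz
  have e1 : fam f B0 (fun _ : κ => ρ) z = f B z := by
    cases isEmpty_or_nonempty κ with
    | inr hk => rw [fam_const hρ0.le, hl]
    | inl hk =>
      have h2 := h.mem_fam hB hU hzU
      have h3 := h.lt_lev (rad_mem hB hU).1 (rad_mem hB hU).2
      rw [fam_eq]
      rcases le_total B (lev B0 (rad B0 fun _ : κ => ρ)) with h4 | h4
      · have := h.cmp (by linarith) h4 h2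
        simpa [sub_eq_zero] using this
      · have := h.cmp h3 h4 hzB
        symm
        simpa [sub_eq_zero] using this
  have e2 : (cells B0 hB).er (1 / 2) (fun _ : κ => ρ) ≤ Fintype.card κ * Real.exp (-B / 4) := by
    have h2 := exp_lev (B0 := B0) ρ
    rw [hl] at h2
    have h3 : 1 ≤ Real.exp (B0 / 16) := Real.one_le_exp (by positivity)
    have h4 := Real.exp_pos (-(1 / 2) / ρ)
    have h5 : Real.exp (-(1 / 2) / ρ) ≤ Real.exp (-B / 4) := by nlinarith
    simp only [Cells.er, cells, Finset.sum_const, Finset.card_univ, nsmul_eq_mul]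
    gcongr
  have e3 : 0 ≤ (cells B0 hB).er (1 / 2) (fun _ : κ => ρ) :=
    Finset.sum_nonneg fun _ _ => (Real.exp_pos _).le
  refine ⟨hzB, ?_⟩
  rw [e1] at h1
  have p1 : 0 ≤ ‖aa z‖ ^ N := by positivity
  have p2 := (Real.exp_pos (-B / 4)).le
  have p3 : (0 : ℝ) ≤ Fintype.card κ := by positivity
  calc _ ≤ |K| * (‖aa z‖ ^ N + (cells B0 hB).er (1 / 2) fun _ : κ => ρ) :=
        h1.trans (mul_le_mul_of_nonneg_right (le_abs_self K) (by positivity))
    _ ≤ |K| * ((1 + Fintype.card κ) * (‖aa z‖ ^ N + Real.exp (-B / 4))) := by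
        gcongr
        nlinarith [mul_nonneg p3 p1]
    _ = _ := by ring

theorem exp_small {B : ℝ} (hB : 256 ≤ B) : Real.exp (-B / 8) ≤ 1 / (2 * B) := by
  have h1 := Real.pow_div_factorial_le_exp (B / 8) (by positivity) 2
  rw [neg_div, Real.exp_neg, ← one_div, one_div_le_one_div (Real.exp_pos _) (by positivity)]
  refine le_trans ?_ h1
  norm_num [Nat.factorial]
  nlinarith

/-- the same for the gradients -/
theorem Rx.app_fd (h : Rx f m φ M ω d r δ B0 C g) {hB : 0 < B0}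
    (hT : Tr (cells B0 hB) (fam f B0) r (1 / 2) k r1) (n : ℕ) :
    ∃ K, 0 ≤ K ∧ ∀ B, max (max (2 * B0) 256) (1 / r1) < B → ∀ z : ι ⊕ κ → ℂ, ‖z‖ < r1 / 2 →
      ‖aa z‖ ≤ 1 / B → ‖fderiv ℂ (f B) z - fderiv ℂ (k (n + 2)) z‖ ≤
        K * (‖aa z‖ ^ (n + 1) + Real.exp (-B / 8)) := by
  obtain ⟨K, hK0, hK⟩ := h.app hT (n + 2)
  refine ⟨2 * K * (3 ^ (n + 2) + 1), by positivity, fun B hBB z hz ha => ?_⟩
  simp only [max_lt_iff] at hBB
  obtain ⟨⟨b1, b2⟩, b3⟩ := hBB
  have hp := hT.r1_pos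
  have hB0 : 0 < B := by linarith
  set e := Real.exp (-B / 8) with he
  have e0 : 0 < e := Real.exp_pos _
  have e1 : e ≤ 1 / (2 * B) := exp_small b2.le
  have e2 : Real.exp (-B / 4) = e * e := by rw [he, ← Real.exp_add]; congr 1; ring
  have i1 : 1 / (2 * B) = 1 / B / 2 := by field_simp
  have i2 : 1 / B < r1 := by rw [div_lt_iff₀ hB0]; rw [div_lt_iff₀ hp] at b3; linarith
  have i3 : 1 / B ≤ 1 := by rw [div_le_one hB0]; linarith
  have i4 : 1 / B + 1 / B / 2 ≤ 2 / (B + B0 / 4) := by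
    rw [show 1 / B + 1 / B / 2 = 3 / (2 * B) by field_simp; ring,
      div_le_div_iff₀ (by linarith) (by linarith)]
    linarith
  set τ := max (‖aa z‖ / 2) e with hτ
  have τ0 : 0 < τ := e0.trans_le (le_max_right _ _)
  have τ1 : τ ≤ 1 / B / 2 := max_le (by linarith) (by linarith)
  have τ2 : ‖aa z‖ ≤ 2 * τ := by linarith [le_max_left (‖aa z‖ / 2) e]
  have hw : ∀ w ∈ ball z τ, ‖w‖ < r1 ∧ ‖aa w‖ < 2 / (B + B0 / 4) := fun w hw => by
    have h1 : ‖aa (w - z)‖ ≤ ‖w - z‖ := norm_aa_le _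
    have h2 : aa w = aa z + aa (w - z) := by funext j; simp [aa]
    rw [mem_ball, dist_eq_norm] at hw
    refine ⟨by linarith [norm_le_norm_sub_add w z], ?_⟩
    rw [h2]
    linarith [norm_add_le (aa z) (aa (w - z))]
  have d1 : DifferentiableOn ℂ (f B) (ball z τ) :=
    (h.hol B (by linarith)).mono fun w h1 => (hK B b1 w (hw w h1).1 (hw w h1).2).1
  have d2 : DifferentiableOn ℂ (k (n + 2)) (ball z τ) :=
    (hT.hol _).mono fun w h1 => mem_ball_zero_iff.2 (hw w h1).1
  have h1 := fd_bound (n := n + 1) τ0 hK0 τ2 (d1.sub d2)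
    fun w h1 => (hK B b1 w (hw w h1).1 (hw w h1).2).2
  rw [fderiv_sub (d1.differentiableAt (ball_mem_nhds z τ0))
    (d2.differentiableAt (ball_mem_nhds z τ0))] at h1
  refine h1.trans ?_
  have p1 : 0 ≤ ‖aa z‖ ^ (n + 1) := by positivity
  have h2 : τ ^ (n + 1) ≤ ‖aa z‖ ^ (n + 1) + e := by
    rcases le_total (‖aa z‖ / 2) e with h3 | h3
    · rw [hτ, max_eq_right h3]
      have : e ^ (n + 1) ≤ e := pow_le_of_le_one e0.le (by linarith) (by omega)
      linarith
    · rw [hτ, max_eq_left h3]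
      have : (‖aa z‖ / 2) ^ (n + 1) ≤ ‖aa z‖ ^ (n + 1) :=
        pow_le_pow_left₀ (by positivity) (by linarith [norm_nonneg (aa z)]) _
      linarith
  have h3 : Real.exp (-B / 4) / τ ≤ e := by
    rw [e2, div_le_iff₀ τ0]
    exact mul_le_mul_of_nonneg_left (le_max_right _ _) e0.le
  calc 2 * K * (3 ^ (n + 1 + 1) * τ ^ (n + 1) + Real.exp (-B / 4) / τ)
      ≤ 2 * K * (3 ^ (n + 1 + 1) * (‖aa z‖ ^ (n + 1) + e) + (‖aa z‖ ^ (n + 1) + e)) := by
        gcongr
        linarith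
    _ = _ := by ring

theorem arith1 {A K1 D e a p n : ℝ} (A0 : 0 ≤ A) (k1 : 0 ≤ K1) (D0 : 0 ≤ D) (e0 : 0 ≤ e) (a0 : 0 ≤ a)
    (p0 : 0 ≤ p) (a2 : a * (2 * A * K1 + 1) ≤ 1) (t1 : p ≤ A * n) (n1 : n ≤ D + K1 * (p * a + e)) :
    p ≤ (2 * A * (1 + K1) + 1) * (D + e) := by
  have t0 := t1.trans (mul_le_mul_of_nonneg_left n1 A0)
  have t2 : p * (a * (2 * A * K1 + 1)) ≤ p * 1 := mul_le_mul_of_nonneg_left a2 p0
  have t3 : 0 ≤ p * a := by positivity
  have t4 : 0 ≤ A * K1 * D := by positivity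
  have t5 : 0 ≤ A * e := by positivity
  nlinarith

theorem arith2 {K2 D e p p' C1 : ℝ} (k2 : 0 ≤ K2) (D0 : 0 ≤ D) (e0 : 0 ≤ e) (t1 : p' ≤ p)
    (r1 : p ≤ C1 * (D + e)) : D + K2 * (p' + e) ≤ (1 + K2 * (C1 + 1)) * (D + e) := by
  have t2 : K2 * (p' + e) ≤ K2 * (C1 * (D + e) + (D + e)) :=
    mul_le_mul_of_nonneg_left (by linarith) k2
  nlinarith

theorem Rx.concl (h : Rx f m φ M ω d r δ B0 C g) {hB : 0 < B0}
    (hT : Tr (cells B0 hB) (fam f B0) r (1 / 2) k r1) {N : ℕ} {C0 : ℝ}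
    (hN : ∀ᶠ x : ι ⊕ κ → ℝ in 𝓝 0, ‖aa x‖ ^ N ≤ C0 * ‖fderiv ℂ (k (N + 2)) (ofR x)‖) :
    Concl2 f := by
  have hp := hT.r1_pos
  obtain ⟨K1, k1, hK1⟩ := h.app_fd hT N
  obtain ⟨K2, k2, hK2⟩ := h.app_fd hT (2 * N)
  obtain ⟨K3, k3, hK3⟩ := h.app hT (2 * N + 2)
  obtain ⟨θ, L, θ1, θ2, hL, hθ⟩ := Mo.loj_grad (an_kr (an_zero hp (hT.hol (2 * N + 2))))
  obtain ⟨s, s0, hs⟩ := Metric.eventually_nhds_iff.1 (hN.and hθ)
  have θ0 : 0 < θ := by linarith
  set A := |C0| with hA
  have A0 : 0 ≤ A := abs_nonneg _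
  set C1 := 2 * A * (1 + K1) + 1 with hC1
  have c1 : 1 ≤ C1 := by have : 0 ≤ 2 * A * (1 + K1) := by positivity
                         linarith
  set C2 := L * (1 + K2 * (C1 + 1)) with hC2
  have c2 : 0 < C2 := by positivity
  have μ1 : 1 < θ⁻¹ := (one_lt_inv₀ θ0).2 θ2
  have μ2 : θ⁻¹ ≤ 2 := by rw [inv_le_comm₀ θ0 two_pos]; linarith
  have μ0 : 0 ≤ θ⁻¹ := by linarith
  have q1 : 0 ≤ C1 ^ θ⁻¹ := by positivity
  have q2 : 0 ≤ C2 ^ θ⁻¹ := by positivity
  have q3 : K3 ≤ K3 * (C1 ^ θ⁻¹ + 1) := le_mul_of_one_le_right k3 (by linarith)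
  refine ⟨N, θ⁻¹, C1 + K3 * (C1 ^ θ⁻¹ + 1) + C2 ^ θ⁻¹, min (min s (r1 / 2)) (1 / (2 * A * K1 + 1)),
    max (max (2 * B0) 256) (1 / r1), k (2 * N + 2) 0, μ1, μ2, by positivity, by positivity,
    fun B hBB => ?_⟩
  have hBB' := hBB
  simp only [max_lt_iff] at hBB'
  obtain ⟨⟨b1, b2⟩, -⟩ := hBB'
  have hB0 : 0 < B := by linarith
  have i4 : 1 / B < 2 / (B + B0 / 4) := by
    rw [div_lt_div_iff₀ hB0 (by linarith)]
    linarith
  refine ⟨?_, fun x hx ha => ?_⟩
  · have a0 : aa (0 : ι ⊕ κ → ℂ) = 0 := rfl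
    have := (hK3 B b1 0 (by simpa using hp) (by rw [a0, norm_zero]; positivity)).2
    rw [a0, norm_zero, zero_pow (by omega), zero_add] at this
    exact this.trans (mul_le_mul_of_nonneg_right (by linarith) (Real.exp_pos _).le)
  simp only [lt_min_iff] at hx
  obtain ⟨⟨x1, x2⟩, x3⟩ := hx
  obtain ⟨h1, h2⟩ := hs (y := x) (by rwa [dist_zero_right])
  have z1 : ‖ofR x‖ < r1 / 2 := by rwa [norm_ofR]
  have z2 : ‖aa (ofR x)‖ ≤ 1 / B := by rwa [norm_aa_ofR]
  have g1 := hK1 B hBB _ z1 z2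
  have g2 := hK2 B hBB _ z1 z2
  have g3 := (hK3 B b1 _ (by linarith) (z2.trans_lt i4)).2
  rw [norm_aa_ofR] at g1 g2 g3
  set D := ‖fderiv ℂ (f B) (ofR x)‖ with hD
  set e := Real.exp (-B / 8) with he
  set a := ‖aa x‖ with haa
  have D0 : 0 ≤ D := norm_nonneg _
  have e0 : 0 < e := Real.exp_pos _
  have e1 : e ≤ 1 := Real.exp_le_one_iff.2 (by linarith)
  have e2 : Real.exp (-B / 4) = e ^ 2 := by rw [he, ← Real.exp_nat_mul]; congr 1; push_cast; ring
  have a0 : 0 ≤ a := norm_nonneg _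
  have a1 : a ≤ 1 := ha.trans (by rw [div_le_one hB0]; linarith)
  have a2 : a * (2 * A * K1 + 1) ≤ 1 := by
    have := ((norm_aa_le x).trans x3.le)
    rwa [le_div_iff₀ (by positivity)] at this
  have p0 : 0 ≤ a ^ N := by positivity
  have p1 : a ^ N ≤ 1 := pow_le_one₀ a0 a1
  have n1 : ‖fderiv ℂ (k (N + 2)) (ofR x)‖ ≤ D + K1 * (a ^ (N + 1) + e) := by
    linarith [norm_le_norm_add_norm_sub' (fderiv ℂ (k (N + 2)) (ofR x)) (fderiv ℂ (f B) (ofR x)),
      norm_sub_rev (fderiv ℂ (k (N + 2)) (ofR x)) (fderiv ℂ (f B) (ofR x))]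
  have n2 : ‖fderiv ℂ (k (2 * N + 2)) (ofR x)‖ ≤ D + K2 * (a ^ (2 * N + 1) + e) := by
    linarith [norm_le_norm_add_norm_sub' (fderiv ℂ (k (2 * N + 2)) (ofR x)) (fderiv ℂ (f B) (ofR x)),
      norm_sub_rev (fderiv ℂ (k (2 * N + 2)) (ofR x)) (fderiv ℂ (f B) (ofR x))]
  have r1' : a ^ N ≤ C1 * (D + e) :=
    arith1 A0 k1 D0 e0.le a0 p0 a2
      (h1.trans (mul_le_mul_of_nonneg_right (le_abs_self C0) (norm_nonneg _)))
      (by rwa [pow_succ] at n1)
  have w0 : 0 < D + e := by linarith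
  have w1 : 0 ≤ (D + e) ^ θ⁻¹ := by positivity
  refine ⟨r1'.trans (mul_le_mul_of_nonneg_right (by linarith) w0.le), ?_⟩
  have dk : DifferentiableAt ℂ (k (2 * N + 2)) (ofR x) :=
    (hT.hol _).differentiableAt (isOpen_ball.mem_nhds (mem_ball_zero_iff.2 (by linarith)))
  have l1 : |kr (k (2 * N + 2)) x - kr (k (2 * N + 2)) 0| ^ θ ≤ C2 * (D + e) := by
    refine h2.trans ((mul_le_mul_of_nonneg_left ((norm_fderiv_kr dk).trans n2) hL.le).trans ?_)
    have t1 : a ^ (2 * N + 1) ≤ a ^ N := pow_le_pow_of_le_one a0 a1 (by omega)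
    rw [hC2, mul_assoc]
    exact mul_le_mul_of_nonneg_left (arith2 k2 D0 e0.le t1 r1') hL.le
  have l2 : ‖k (2 * N + 2) (ofR x) - k (2 * N + 2) 0‖ ≤ C2 ^ θ⁻¹ * (D + e) ^ θ⁻¹ := by
    have t1 := hT.real (2 * N + 2) x (by linarith)
    have t2 := hT.real (2 * N + 2) 0 (by simpa using hp)
    have t3 : (k (2 * N + 2) (ofR x) - k (2 * N + 2) (ofR 0)).im = 0 := by simp [t1, t2]
    rw [← ofR_zero, ← Complex.abs_re_eq_norm.2 t3, ← Real.mul_rpow c2.le w0.le, Complex.sub_re,
      Real.le_rpow_inv_iff_of_pos (abs_nonneg _) (by positivity) θ0]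
    exact l1
  have l3 : a ^ (2 * N + 2) ≤ C1 ^ θ⁻¹ * (D + e) ^ θ⁻¹ := by
    rw [← Real.mul_rpow (by linarith) w0.le]
    calc a ^ (2 * N + 2) ≤ (a ^ N) ^ 2 := by
          rw [← pow_mul]; exact pow_le_pow_of_le_one a0 a1 (by omega)
      _ = (a ^ N) ^ (2 : ℝ) := by rw [Real.rpow_two]
      _ ≤ (a ^ N) ^ θ⁻¹ := Real.rpow_le_rpow_of_exponent_ge' p0 p1 μ0 μ2
      _ ≤ _ := Real.rpow_le_rpow p0 r1' μ0
  have l4 : Real.exp (-B / 4) ≤ (D + e) ^ θ⁻¹ := by
    calc _ = e ^ (2 : ℝ) := by rw [e2, Real.rpow_two]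
      _ ≤ e ^ θ⁻¹ := Real.rpow_le_rpow_of_exponent_ge e0 e1 μ2
      _ ≤ _ := Real.rpow_le_rpow e0.le (by linarith) μ0
  have l5 : K3 * (a ^ (2 * N + 2) + Real.exp (-B / 4)) ≤
      K3 * (C1 ^ θ⁻¹ * (D + e) ^ θ⁻¹ + (D + e) ^ θ⁻¹) := by gcongr
  have l6 := norm_sub_le_norm_sub_add_norm_sub (f B (ofR x)) (k (2 * N + 2) (ofR x))
    (k (2 * N + 2) 0)
  have l7 := mul_nonneg (by linarith : 0 ≤ C1) w1
  linarith

omit [DecidableEq κ] in
theorem gl2_of (hN : NC2Stmt) : GL2Stmt := by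
  classical
  intro ι κ _ _ f m φ M ω d r δ B0 C g h
  have hW := h.wk h.B0_pos
  obtain ⟨k, r1, hT⟩ := EX.exStmt ι κ ℝ _ _ _ _ _ hW
  rcases hT.dich with ⟨N, C0, h1⟩ | ⟨P, hP⟩
  · exact h.concl hT h1
  · exact (hN ι κ f m φ M ω d r δ B0 C g _ h.B0_pos k r1 P h hW hT hP).elim

end Crest.Agent.N250.B2
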