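import Mathlib
import Crest.Agent.N250.B2.Defs

-- ▼ part N250/W/Max
section

/-!
# Row 250, sector toolbox (helper92): maximum principle for approximately holomorphic functions

Log coordinate `w`: `s = e^w`, `t = e^{-w/q}`; sectors are half strips.
-/

set_option autoImplicit false
open Set Metric Filter Topology

noncomputable section

namespace Crest.Agent.N250.W

variable {E : Type*} [NormedAddCommGroup E] [NormedSpace ℂ E]

/-- half strip -/
def HS (R a b : ℝ) : Set ℂ := {w | R < w.re ∧ a < w.im ∧ w.im < b}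

/-- `H` is holomorphic up to the error `e` on every disc of radius `≤ η` inside `U` -/
def Apx (U : Set ℂ) (η : ℝ) (H : ℂ → E) (e : ℂ → ℝ) : Prop :=
  ∀ w₀ r, 0 < r → r ≤ η → closedBall w₀ r ⊆ U →
    ∃ g : ℂ → E, DiffContOnCl ℂ g (ball w₀ r) ∧ ∀ w ∈ closedBall w₀ r, ‖g w - H w‖ ≤ e w




theorem Apx.mono {U U' : Set ℂ} {η η' : ℝ} {H : ℂ → E} {e e' : ℂ → ℝ} (h : Apx U η H e)
    (hU : U' ⊆ U) (hη : η' ≤ η) (he : ∀ w ∈ U', e w ≤ e' w) : Apx U' η' H e' := by
  intro w₀ r hr hrη hs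
  obtain ⟨g, hg, hge⟩ := h w₀ r hr (hrη.trans hη) (hs.trans hU)
  exact ⟨g, hg, fun w hw => (hge w hw).trans (he w (hs hw))⟩


/-- Pieces: if every small disc inside `U` lies in one of the open pieces `S i`, on which `h i` is
holomorphic and `e`-close to `H`, then `H` is approximately holomorphic. -/
theorem apx_of_pieces {ι : Type*} {U : Set ℂ} {η : ℝ} {H : ℂ → E} {e : ℂ → ℝ} (S : ι → Set ℂ)
    (h : ι → ℂ → E) (hd : ∀ i, DifferentiableOn ℂ (h i) (S i))
    (he : ∀ i, ∀ w ∈ S i, w ∈ U → ‖h i w - H w‖ ≤ e w)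
    (hc : ∀ w₀ r, 0 < r → r ≤ η → closedBall w₀ r ⊆ U → ∃ i, closedBall w₀ r ⊆ S i) :
    Apx U η H e := by
  intro w₀ r hr hrη hs
  obtain ⟨i, hi⟩ := hc w₀ r hr hrη hs
  refine ⟨h i, DifferentiableOn.diffContOnCl ((hd i).mono ?_), fun w hw => he i w (hi hw) (hs hw)⟩
  rwa [closure_ball w₀ hr.ne']

theorem abs_re_sub_le {w w₀ : ℂ} {r : ℝ} (h : w ∈ closedBall w₀ r) : |w.re - w₀.re| ≤ r := by
  rw [mem_closedBall, dist_eq_norm] at h
  simpa using (Complex.abs_re_le_norm (w - w₀)).trans h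

theorem abs_im_sub_le {w w₀ : ℂ} {r : ℝ} (h : w ∈ closedBall w₀ r) : |w.im - w₀.im| ≤ r := by
  rw [mem_closedBall, dist_eq_norm] at h
  simpa using (Complex.abs_im_le_norm (w - w₀)).trans h

theorem sq_add_sq_of_sphere {w w₀ : ℂ} {r : ℝ} (h : w ∈ sphere w₀ r) :
    (w.re - w₀.re) ^ 2 + (w.im - w₀.im) ^ 2 = r ^ 2 := by
  rw [mem_sphere, dist_eq_norm] at h
  rw [← h, Complex.sq_norm, Complex.normSq_apply]
  simp only [Complex.sub_re, Complex.sub_im]
  ring

/-- the supremum argument -/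
theorem am {X : Type*} {U : Set X} {V : X → ℝ} {B κ : ℝ} (hκ0 : 0 ≤ κ) (hκ : κ < 1)
    (hb : ∃ M, ∀ w ∈ U, V w ≤ M)
    (h : ∀ M, (∀ w ∈ U, V w ≤ M) → ∀ w ∈ U, V w ≤ B ∨ ∃ k, k ≤ κ ∧ V w ≤ k * M + (1 - k) * B) :
    ∀ w ∈ U, V w ≤ B := by
  intro w hw
  obtain ⟨M₀, hM₀⟩ := hb
  have hbd : BddAbove (V '' U) := ⟨M₀, by rintro _ ⟨x, hx, rfl⟩; exact hM₀ x hx⟩
  have hne : (V '' U).Nonempty := ⟨_, w, hw, rfl⟩
  have hM : ∀ x ∈ U, V x ≤ sSup (V '' U) := fun x hx => le_csSup hbd ⟨x, hx, rfl⟩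
  refine (hM w hw).trans ?_
  by_contra hlt
  push Not at hlt
  have : sSup (V '' U) ≤ κ * sSup (V '' U) + (1 - κ) * B := by
    refine csSup_le hne ?_
    rintro _ ⟨x, hx, rfl⟩
    rcases h _ hM x hx with h1 | ⟨k, hk, h1⟩
    · nlinarith
    · nlinarith
  nlinarith

/-- maximum modulus on a disc with a holomorphic weight -/
theorem disc {g : ℂ → E} {l : ℂ → ℂ} {w₀ : ℂ} {r A : ℝ} (hr : 0 < r)
    (hg : DiffContOnCl ℂ g (ball w₀ r)) (hl : Differentiable ℂ l)
    (hA : ∀ w ∈ sphere w₀ r, ‖g w‖ * Real.exp (l w).re ≤ A) :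
    ‖g w₀‖ * Real.exp (l w₀).re ≤ A := by
  have hn : ∀ w, ‖Complex.exp (l w) • g w‖ = ‖g w‖ * Real.exp (l w).re := fun w => by
    rw [norm_smul, Complex.norm_exp, mul_comm]
  rw [← hn]
  refine Complex.norm_le_of_forall_mem_frontier_norm_le (f := fun w => Complex.exp (l w) • g w)
    (U := ball w₀ r) isBounded_ball (hl.cexp.diffContOnCl.smul hg) (fun w hw => ?_)
    (subset_closure (mem_ball_self hr))
  rw [frontier_ball w₀ hr.ne'] at hw
  rw [hn]
  exact hA w hw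

/-- one step: the value at the centre of a disc on which `H` is approximately holomorphic.
`φ` is the weight, `l` a holomorphic function with `re l ≤ φ - γ` on the circle. -/
theorem step {g H : ℂ → E} {l : ℂ → ℂ} {φ e : ℂ → ℝ} {w₀ : ℂ} {r M ε γ : ℝ} (hr : 0 < r)
    (hγ : 0 ≤ γ) (hg : DiffContOnCl ℂ g (ball w₀ r)) (hl : Differentiable ℂ l)
    (hge : ∀ w ∈ closedBall w₀ r, ‖g w - H w‖ ≤ e w)
    (h0 : (l w₀).re = φ w₀) (h1 : ∀ w ∈ sphere w₀ r, (l w).re ≤ φ w - γ)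
    (hM : ∀ w ∈ closedBall w₀ r, ‖H w‖ * Real.exp (φ w) ≤ M)
    (hε : ∀ w ∈ closedBall w₀ r, e w * Real.exp (φ w) ≤ ε) :
    ‖H w₀‖ * Real.exp (φ w₀) ≤ Real.exp (-γ) * M + 2 * ε := by
  have hc : w₀ ∈ closedBall w₀ r := mem_closedBall_self hr.le
  have hε0 : 0 ≤ ε :=
    (mul_nonneg ((norm_nonneg _).trans (hge w₀ hc)) (Real.exp_pos _).le).trans (hε w₀ hc)
  have hk : Real.exp (-γ) ≤ 1 := Real.exp_le_one_iff.2 (by linarith)
  have h2 : ‖g w₀‖ * Real.exp (l w₀).re ≤ Real.exp (-γ) * (M + ε) := by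
    refine disc hr hg hl fun w hw => ?_
    have hw' := sphere_subset_closedBall hw
    have h3 : ‖g w‖ ≤ ‖H w‖ + e w := by
      have := norm_add_le (H w) (g w - H w)
      rw [add_sub_cancel] at this
      linarith [hge w hw']
    have h4 : Real.exp (l w).re ≤ Real.exp (-γ) * Real.exp (φ w) := by
      rw [← Real.exp_add]
      exact Real.exp_le_exp.2 (by linarith [h1 w hw])
    calc ‖g w‖ * Real.exp (l w).re ≤ (‖H w‖ + e w) * (Real.exp (-γ) * Real.exp (φ w)) :=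
          mul_le_mul h3 h4 (Real.exp_pos _).le ((norm_nonneg _).trans h3)
      _ = Real.exp (-γ) * (‖H w‖ * Real.exp (φ w) + e w * Real.exp (φ w)) := by ring
      _ ≤ _ := mul_le_mul_of_nonneg_left (add_le_add (hM w hw') (hε w hw')) (Real.exp_pos _).le
  rw [h0] at h2
  have h5 : ‖H w₀‖ ≤ ‖g w₀‖ + e w₀ := by
    have := norm_sub_le (g w₀) (g w₀ - H w₀)
    rw [sub_sub_cancel] at this
    linarith [hge w₀ hc]
  have h6 := mul_le_mul_of_nonneg_right h5 (Real.exp_pos (φ w₀)).le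
  have h7 := hε w₀ hc
  nlinarith

end Crest.Agent.N250.W

end
end

-- ▼ part N250/W/Flat
section

/-!
# Row 250, sector toolbox (helper92): flat + exponentially small jumps ⇒ exponentially small
-/

set_option autoImplicit false
open Set Metric Filter Topology Real

noncomputable section

namespace Crest.Agent.N250.W

variable {E : Type*} [NormedAddCommGroup E] [NormedSpace ℂ E]

theorem exp_neg_ge {u : ℝ} (hu : u ≤ 2) : 1 - u + u ^ 2 / 4 ≤ exp (-u) := by
  have h1 : 1 - u / 2 ≤ exp (-(u / 2)) := by linarith [add_one_le_exp (-(u / 2))]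
  have h2 : exp (-u) = exp (-(u / 2)) ^ 2 := by rw [← exp_nat_mul]; ring_nf
  rw [h2]
  nlinarith [pow_le_pow_left₀ (by linarith : 0 ≤ 1 - u / 2) h1 2]

/-- core: on the half plane `R < re w` a function with `‖H‖ e^{N x} → 0` is bounded by the boundary
layer and the errors -/
theorem flat_core {H : ℂ → E} {e : ℂ → ℝ} {R η N B ε C : ℝ} (hη : 0 < η) (hη1 : η ≤ 1)
    (hB0 : 0 ≤ B) (hε0 : 0 ≤ ε)
    (hA : Apx {w | R < w.re} η H e)
    (hε : ∀ w : ℂ, R < w.re → e w * exp ((N + 1) * w.re) ≤ ε)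
    (hB : ∀ w : ℂ, R < w.re → w.re ≤ R + η → ‖H w‖ * exp (N * w.re) ≤ B)
    (hC : ∀ w : ℂ, R < w.re → ‖H w‖ * exp ((N + 1) * w.re) ≤ C) :
    ∀ w : ℂ, R < w.re → ‖H w‖ * exp (N * w.re) ≤
      exp (exp (-R)) * (B + 2 * (exp 1 * (exp (-R) + 8 / η ^ 2)) * ε) := by
  set K := exp (exp (-R)) with hK
  set D := exp 1 * (exp (-R) + 8 / η ^ 2) with hD
  have hK0 : 0 < K := exp_pos _
  have hD0 : 0 < D := by positivity
  set φ : ℂ → ℝ := fun w => N * w.re + exp (-w.re) with hφ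
  have hφ1 : ∀ w : ℂ, R < w.re → exp (φ w) ≤ exp (N * w.re) * K := fun w hw => by
    rw [hK, ← exp_add]
    exact exp_le_exp.2 (by simp only [hφ]; linarith [exp_le_exp.2 (neg_le_neg hw.le)])
  have hx : ∀ w : ℂ, exp (N * w.re) = exp ((N + 1) * w.re) * exp (-w.re) := fun w => by
    rw [← exp_add]; ring_nf
  have hV : ∀ w : ℂ, R < w.re → ‖H w‖ * exp (φ w) ≤ C * K * exp (-w.re) := fun w hw => by
    have h1 := mul_le_mul_of_nonneg_left (hφ1 w hw) (norm_nonneg (H w))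
    have h2 := mul_le_mul_of_nonneg_right (hC w hw) (mul_pos hK0 (exp_pos (-w.re))).le
    rw [hx] at h1
    nlinarith
  have key : ∀ τ : ℝ, 0 < τ → ∀ w ∈ {w : ℂ | R < w.re},
      ‖H w‖ * exp (φ w) ≤ K * (B + 2 * D * ε) + τ := by
    intro τ hτ
    obtain ⟨X, hX⟩ : ∃ X : ℝ, ∀ x, X ≤ x → C * K * exp (-x) ≤ τ := by
      have ht : Tendsto (fun x : ℝ => C * K * exp (-x)) atTop (𝓝 (C * K * 0)) :=
        tendsto_exp_neg_atTop_nhds_zero.const_mul _
      rw [mul_zero] at ht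
      exact eventually_atTop.1 (ht.eventually (ge_mem_nhds hτ))
    have hBn : 0 ≤ K * (B + 2 * D * ε) := by positivity
    refine am (V := fun w => ‖H w‖ * exp (φ w)) (κ := exp (-(exp (-X) * η ^ 2 / 8)))
      (exp_pos _).le (exp_lt_one_iff.2 (by have := exp_pos (-X); nlinarith [mul_pos this (pow_pos hη 2)]))
      ⟨|C| * K * exp (-R), fun w hw => (hV w hw).trans ?_⟩ ?_
    · exact mul_le_mul (mul_le_mul_of_nonneg_right (le_abs_self _) hK0.le)
        (exp_le_exp.2 (neg_le_neg (le_of_lt hw))) (exp_pos _).le (by positivity)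
    intro M hM w₀ hw₀
    by_cases h1 : w₀.re ≤ R + η
    · left
      have h2 := mul_le_mul_of_nonneg_left (hφ1 w₀ hw₀) (norm_nonneg (H w₀))
      have h3 := mul_le_mul_of_nonneg_right (hB w₀ hw₀ h1) hK0.le
      have h4 : 0 ≤ K * (2 * D * ε) := by positivity
      nlinarith
    by_cases h2 : X ≤ w₀.re
    · left
      linarith [hV w₀ hw₀, hX _ h2]
    right
    push Not at h1 h2
    set p := exp (-w₀.re) with hp
    have hp0 : 0 < p := exp_pos _
    set γ := p * η ^ 2 / 8 with hγ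
    have hγ0 : 0 < γ := by positivity
    refine ⟨exp (-γ), exp_le_exp.2 (neg_le_neg ?_), ?_⟩
    · have : exp (-X) ≤ p := exp_le_exp.2 (by linarith)
      have := mul_le_mul_of_nonneg_right this (sq_nonneg η)
      linarith
    have hs : closedBall w₀ η ⊆ {w : ℂ | R < w.re} := fun w hw => by
      have a1 := abs_le.1 (abs_re_sub_le hw)
      show R < w.re
      linarith [a1.1]
    obtain ⟨g, hg, hge⟩ := hA w₀ η hη le_rfl hs
    set l : ℂ → ℂ := fun w => (N : ℂ) * w + (p : ℂ) * (1 - (w - w₀) + (w - w₀) ^ 2 / 8) with hl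
    have hlre : ∀ w, (l w).re = N * w.re + p * (1 - (w.re - w₀.re) +
        ((w.re - w₀.re) ^ 2 - (w.im - w₀.im) ^ 2) / 8) := by
      intro w
      simp only [hl, Complex.add_re, Complex.sub_re, Complex.sub_im, Complex.ofReal_re,
        Complex.ofReal_im, Complex.div_ofNat_re, pow_two, Complex.mul_re, Complex.one_re, zero_mul,
        sub_zero]
    have h3 := step (H := H) (l := l) (φ := φ) (M := M) (ε := K * ε * (exp 1 * p)) (γ := γ) hη hγ0.le
      hg (by rw [hl]; fun_prop) hge (by rw [hlre]; simp [hφ, hp])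
      (fun w hw => by
        have a1 := abs_le.1 (abs_re_sub_le (sphere_subset_closedBall hw))
        have a2 := sq_add_sq_of_sphere hw
        have a3 := exp_neg_ge (u := w.re - w₀.re) (by linarith [a1.2])
        have a4 : exp (-w.re) = p * exp (-(w.re - w₀.re)) := by rw [hp, ← exp_add]; ring_nf
        rw [hlre]
        simp only [hφ]
        rw [a4, hγ, ← a2]
        nlinarith [mul_le_mul_of_nonneg_left a3 hp0.le])
      (fun w hw => hM w (hs hw))
      (fun w hw => by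
        have a1 := abs_le.1 (abs_re_sub_le hw)
        have a2 : exp (-w.re) ≤ exp 1 * p := by
          rw [hp, ← exp_add]
          exact exp_le_exp.2 (by linarith [a1.1])
        have a3 : 0 ≤ e w := (norm_nonneg _).trans (hge w hw)
        have a4 := mul_le_mul_of_nonneg_left (hφ1 w (hs hw)) a3
        rw [hx] at a4
        have a5 : e w * exp ((N + 1) * w.re) * exp (-w.re) ≤ ε * (exp 1 * p) :=
          mul_le_mul (hε w (hs hw)) a2 (exp_pos _).le hε0
        nlinarith [mul_le_mul_of_nonneg_left a5 hK0.le])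
    have h4 : γ / (1 + γ) ≤ 1 - exp (-γ) := by
      have a1 : exp (-γ) * (1 + γ) ≤ 1 := by
        have a2 := mul_le_mul_of_nonneg_left (add_one_le_exp γ) (exp_pos (-γ)).le
        rw [← exp_add, neg_add_cancel, exp_zero] at a2
        linarith
      rw [div_le_iff₀ (by positivity)]
      nlinarith
    have h5 : exp 1 * p ≤ γ / (1 + γ) * D := by
      have a1 : p ≤ exp (-R) := exp_le_exp.2 (neg_le_neg (le_of_lt hw₀))
      rw [div_mul_eq_mul_div, le_div_iff₀ (by positivity), hD]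
      have a3 : γ * (8 / η ^ 2) = p := by rw [hγ]; field_simp
      have a4 : p * (1 + γ) ≤ γ * (exp (-R) + 8 / η ^ 2) := by
        rw [mul_add γ, a3]
        nlinarith [mul_le_mul_of_nonneg_left a1 hγ0.le]
      nlinarith [mul_le_mul_of_nonneg_left a4 (exp_pos 1).le]
    have h6 : exp 1 * p ≤ (1 - exp (-γ)) * D :=
      h5.trans (mul_le_mul_of_nonneg_right h4 hD0.le)
    have h7 := mul_le_mul_of_nonneg_left h6 (mul_nonneg hK0.le hε0)
    have h8 : 0 ≤ 1 - exp (-γ) := (div_pos hγ0 (by positivity)).le.trans h4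
    have h9 : 0 ≤ (1 - exp (-γ)) * (K * B + τ) := by positivity
    nlinarith
  intro w hw
  have h1 : ‖H w‖ * exp (φ w) ≤ K * (B + 2 * D * ε) :=
    le_of_forall_pos_le_add fun τ hτ => key τ hτ w hw
  refine le_trans (mul_le_mul_of_nonneg_left (exp_le_exp.2 ?_) (norm_nonneg _)) h1
  simp only [hφ]
  linarith [exp_pos (-w.re)]

theorem lin_sub_exp_le {c x y : ℝ} (hc : 0 ≤ c) :
    c * exp x * y - c * exp y ≤ c * exp x * x - c * exp x := by
  have h1 : exp y = exp x * exp (y - x) := by rw [← exp_add]; ring_nf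
  have h2 := mul_le_mul_of_nonneg_left (add_one_le_exp (y - x)) (mul_nonneg hc (exp_pos x).le)
  rw [h1]
  nlinarith

/-- **Flat + errors of rate `c` ⇒ rate `c`** (up to the factor `e^{re w}`). -/
theorem flat_exp {H : ℂ → E} {R η c C : ℝ} (hη : 0 < η) (hc : 0 < c)
    (hA : Apx {w | R < w.re} η H fun w => C * exp (-c * exp w.re))
    (hF : ∀ N : ℕ, ∃ C', ∀ w : ℂ, R < w.re → ‖H w‖ ≤ C' * exp (-N * w.re)) :
    ∃ C', 0 ≤ C' ∧ ∀ w : ℂ, R < w.re → ‖H w‖ ≤ C' * exp w.re * exp (-c * exp w.re) := by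
  set η' := min η 1 with hη'
  have hη0 : 0 < η' := lt_min hη one_pos
  have hη1 : η' ≤ 1 := min_le_right _ _
  have hA' : Apx {w | R < w.re} η' H fun w => |C| * exp (-c * exp w.re) :=
    hA.mono subset_rfl (min_le_left _ _) fun w _ =>
      mul_le_mul_of_nonneg_right (le_abs_self _) (exp_pos _).le
  obtain ⟨C₀, hC₀⟩ := hF 0
  simp only [Nat.cast_zero, neg_zero, zero_mul, exp_zero, mul_one] at hC₀
  set K := exp (exp (-R)) with hK
  set D := exp 1 * (exp (-R) + 8 / η' ^ 2) with hD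
  set X := max (R + 2) (-Real.log c) with hX
  refine ⟨|C₀| * exp (-R) * exp (c * exp X) + K * (|C₀| * exp 1 * exp (-R) + 2 * D * |C|),
    by positivity, fun w hw => ?_⟩
  have hR : 1 ≤ exp (-R) * exp w.re := by
    rw [← exp_add]
    exact one_le_exp (by linarith)
  by_cases hx : w.re ≤ X
  · have h1 : 1 ≤ exp (c * exp X) * exp (-c * exp w.re) := by
      rw [← exp_add]
      exact one_le_exp (by nlinarith [mul_le_mul_of_nonneg_left (exp_le_exp.2 hx) hc.le])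
    have h2 : |C₀| * 1 * 1 ≤ |C₀| * (exp (-R) * exp w.re) *
        (exp (c * exp X) * exp (-c * exp w.re)) := by gcongr
    have h3 : 0 ≤ K * (|C₀| * exp 1 * exp (-R) + 2 * D * |C|) * exp w.re * exp (-c * exp w.re) := by
      positivity
    nlinarith [hC₀ w hw, le_abs_self C₀]
  push Not at hx
  have hx1 : R + 2 < w.re := (le_max_left _ _).trans_lt hx
  have hx2 : 1 ≤ c * exp w.re := by
    have h1 : exp (-Real.log c) ≤ exp w.re := exp_le_exp.2 ((le_max_right _ _).trans hx.le)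
    rw [exp_neg, exp_log hc] at h1
    have := mul_le_mul_of_nonneg_left h1 hc.le
    rwa [mul_inv_cancel₀ hc.ne'] at this
  set N := c * exp w.re - 1 with hN
  have hN0 : 0 ≤ N := by linarith
  obtain ⟨C₁, hC₁⟩ := hF ⌈N + 1⌉₊
  have h1 := flat_core (H := H) (R := R) (N := N) (B := |C₀| * exp (N * (R + 1)))
    (ε := |C| * exp (c * exp w.re * w.re - c * exp w.re))
    (C := |C₁| * exp ((N + 1 - ⌈N + 1⌉₊) * R)) hη0 hη1 (by positivity) (by positivity) hA'
    (fun z _ => by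
      rw [mul_assoc, ← exp_add]
      refine mul_le_mul_of_nonneg_left (exp_le_exp.2 ?_) (abs_nonneg _)
      have := lin_sub_exp_le (x := w.re) (y := z.re) hc.le
      rw [hN]
      linarith)
    (fun z hz hz' => mul_le_mul ((hC₀ z hz).trans (le_abs_self _))
      (exp_le_exp.2 (mul_le_mul_of_nonneg_left (by linarith) hN0)) (exp_pos _).le (abs_nonneg _))
    (fun z hz => by
      refine (mul_le_mul_of_nonneg_right ((hC₁ z hz).trans (mul_le_mul_of_nonneg_right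
        (le_abs_self _) (exp_pos _).le)) (exp_pos _).le).trans ?_
      rw [mul_assoc, ← exp_add]
      refine mul_le_mul_of_nonneg_left (exp_le_exp.2 ?_) (abs_nonneg _)
      have := Nat.le_ceil (N + 1)
      nlinarith) w hw
  have h2 : ‖H w‖ = ‖H w‖ * exp (N * w.re) * exp (-(N * w.re)) := by
    rw [mul_assoc, ← exp_add]
    simp
  have h3 : exp (N * (R + 1)) * exp (-(N * w.re)) ≤
      exp 1 * (exp (-R) * exp w.re) * exp (-c * exp w.re) := by
    have a1 : exp (N * (R + 1)) * exp (-(N * w.re)) ≤ exp 1 * exp (-c * exp w.re) := by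
      rw [← exp_add, ← exp_add]
      refine exp_le_exp.2 ?_
      have := mul_le_mul_of_nonneg_left (by linarith : R + 1 - w.re ≤ -1) hN0
      nlinarith
    have a2 : exp 1 * 1 * exp (-c * exp w.re) ≤
        exp 1 * (exp (-R) * exp w.re) * exp (-c * exp w.re) := by gcongr
    linarith
  have h4 : exp (c * exp w.re * w.re - c * exp w.re) * exp (-(N * w.re)) =
      exp w.re * exp (-c * exp w.re) := by
    rw [← exp_add, ← exp_add, hN]
    ring_nf
  have hK0 : 0 < K := exp_pos _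
  have hD0 : 0 < D := by positivity
  rw [h2]
  refine (mul_le_mul_of_nonneg_right h1 (exp_pos _).le).trans ?_
  have h5 : K * (|C₀| * exp (N * (R + 1)) + 2 * D *
      (|C| * exp (c * exp w.re * w.re - c * exp w.re))) * exp (-(N * w.re)) =
      K * |C₀| * (exp (N * (R + 1)) * exp (-(N * w.re))) + K * (2 * D * |C|) *
        (exp (c * exp w.re * w.re - c * exp w.re) * exp (-(N * w.re))) := by ring
  rw [h5, h4]
  have h6 := mul_le_mul_of_nonneg_left h3 (mul_nonneg hK0.le (abs_nonneg C₀))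
  have h7 : 0 ≤ |C₀| * exp (-R) * exp (c * exp X) * exp w.re * exp (-c * exp w.re) := by positivity
  nlinarith

end Crest.Agent.N250.W

end
end

-- ▼ part N250/W/Wat
section

/-!
# Row 250, sector toolbox (helper92): Watson's lemma and the relative Watson lemma
-/

set_option autoImplicit false
open Set Metric Filter Topology Real

noncomputable section

namespace Crest.Agent.N250.W

variable {E : Type*} [NormedAddCommGroup E] [NormedSpace ℂ E]

theorem exp_sub_bdd {Λ d κ : ℝ} (hΛ : 0 ≤ Λ) (hd : 0 < d) (hκ : 1 < κ) :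
    ∃ M, ∀ x : ℝ, Λ * exp x - d * exp (κ * x) ≤ M := by
  refine ⟨Λ * exp (Λ / (d * (κ - 1))), fun x => ?_⟩
  have hk : 0 < d * (κ - 1) := mul_pos hd (by linarith)
  rcases le_total x (Λ / (d * (κ - 1))) with h | h
  · have h1 := mul_le_mul_of_nonneg_left (exp_le_exp.2 h) hΛ
    have h2 := mul_pos hd (exp_pos (κ * x))
    linarith
  · have h1 : exp (κ * x) = exp x * exp ((κ - 1) * x) := by rw [← exp_add]; ring_nf
    have h2 : (κ - 1) * x ≤ exp ((κ - 1) * x) := by linarith [add_one_le_exp ((κ - 1) * x)]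
    have h3 : Λ ≤ d * ((κ - 1) * x) := by
      rw [div_le_iff₀ hk] at h
      linarith
    have h4 : Λ ≤ d * exp ((κ - 1) * x) := h3.trans (mul_le_mul_of_nonneg_left h2 hd.le)
    have h5 := mul_le_mul_of_nonneg_left h4 (exp_pos x).le
    have h6 := mul_nonneg hΛ (exp_pos (Λ / (d * (κ - 1)))).le
    rw [h1]
    nlinarith

/-- the quantitative core -/
theorem core {H : ℂ → E} {R θ β η c C Λ ε : ℝ} (hη : 0 < η) (hβ : 0 < β) (hβ2 : β < π / 2)
    (hΛ : 0 ≤ Λ) (hbl : Λ * (β + η) ≤ c) (hC0 : 0 ≤ C) (hε : 0 ≤ ε)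
    (hC : ∀ w ∈ HS R (θ - π / 2 + β) (θ + π / 2 - β), ‖H w‖ ≤ C * exp (-c * exp w.re))
    (hA : Apx (HS R (θ - π / 2 + β) (θ + π / 2 - β)) η H fun w => ε * exp (-Λ * exp w.re)) :
    ∀ w ∈ HS R (θ - π / 2 + β) (θ + π / 2 - β),
      ‖H w‖ * exp (Λ * exp w.re * cos (w.im - θ)) ≤
        exp (π ^ 2) * (C * exp (Λ * exp (R + η)) + 2 * ε / (1 - exp (-(η ^ 2 / 2)))) := by
  set U := HS R (θ - π / 2 + β) (θ + π / 2 - β) with hU
  set B := exp (π ^ 2) * (C * exp (Λ * exp (R + η)) + 2 * ε / (1 - exp (-(η ^ 2 / 2)))) with hB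
  have hc0 : 0 ≤ c := (mul_nonneg hΛ (by linarith)).trans hbl
  set κ := (π / 2 - β / 2) / (π / 2 - β) with hκ
  have hb0 : 0 < π / 2 - β := by linarith
  have hκ1 : 1 < κ := by rw [hκ, lt_div_iff₀ hb0]; linarith
  have hκ2 : κ * (π / 2 - β) = π / 2 - β / 2 := by rw [hκ]; exact div_mul_cancel₀ _ hb0.ne'
  have hy : ∀ w ∈ U, |w.im - θ| < π / 2 - β := fun w hw =>
    abs_lt.2 ⟨by linarith [hw.2.1], by linarith [hw.2.2]⟩
  have hs0 : 0 < cos (π / 2 - β / 2) := cos_pos_of_mem_Ioo ⟨by linarith, by linarith⟩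
  have hcos : ∀ w ∈ U, cos (π / 2 - β / 2) ≤ cos (κ * (w.im - θ)) := fun w hw => by
    rw [← cos_abs (κ * (w.im - θ))]
    refine cos_le_cos_of_nonneg_of_le_pi (abs_nonneg _) (by linarith [pi_pos]) ?_
    rw [abs_mul, abs_of_pos (by linarith : 0 < κ), ← hκ2]
    exact mul_le_mul_of_nonneg_left (hy w hw).le (by linarith)
  have hy2 : ∀ w ∈ U, (w.im - θ) ^ 2 ≤ π ^ 2 := fun w hw => by
    rw [← sq_abs]
    exact pow_le_pow_left₀ (abs_nonneg _) (by linarith [hy w hw, pi_pos]) 2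
  have hk1 : exp (-(η ^ 2 / 2)) < 1 := exp_lt_one_iff.2 (by nlinarith)
  have hk2 : 0 < 1 - exp (-(η ^ 2 / 2)) := by linarith
  have hB1 : exp (π ^ 2) * (C * exp (Λ * exp (R + η))) ≤ B := by
    rw [hB]
    have : 0 ≤ 2 * ε / (1 - exp (-(η ^ 2 / 2))) := by positivity
    exact mul_le_mul_of_nonneg_left (by linarith) (exp_pos _).le
  have hB2 : 2 * (exp (π ^ 2) * ε) ≤ (1 - exp (-(η ^ 2 / 2))) * B := by
    have h1 : exp (π ^ 2) * (2 * ε / (1 - exp (-(η ^ 2 / 2)))) ≤ B := by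
      rw [hB]
      have : 0 ≤ C * exp (Λ * exp (R + η)) := by positivity
      exact mul_le_mul_of_nonneg_left (by linarith) (exp_pos _).le
    have h2 := mul_le_mul_of_nonneg_left h1 hk2.le
    have h3 : (1 - exp (-(η ^ 2 / 2))) * (exp (π ^ 2) * (2 * ε / (1 - exp (-(η ^ 2 / 2))))) =
        2 * (exp (π ^ 2) * ε) := by field_simp
    linarith
  have key : ∀ δ : ℝ, 0 < δ → ∀ w ∈ U, ‖H w‖ * exp (Λ * exp w.re * cos (w.im - θ) -
      δ * (exp (κ * w.re) * cos (κ * (w.im - θ))) + (w.im - θ) ^ 2) ≤ B := by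
    intro δ hδ
    set φ : ℂ → ℝ := fun w => Λ * exp w.re * cos (w.im - θ) -
      δ * (exp (κ * w.re) * cos (κ * (w.im - θ))) + (w.im - θ) ^ 2 with hφ
    have hneg : ∀ w ∈ U, 0 ≤ δ * (exp (κ * w.re) * cos (κ * (w.im - θ))) := fun w hw =>
      mul_nonneg hδ.le (mul_nonneg (exp_pos _).le (hs0.le.trans (hcos w hw)))
    have hφ1 : ∀ w ∈ U, φ w ≤ Λ * exp w.re * cos (w.im - θ) + π ^ 2 := fun w hw => by
      simp only [hφ]
      linarith [hneg w hw, hy2 w hw]
    have hφ2 : ∀ w ∈ U, φ w ≤ Λ * exp w.re + π ^ 2 := fun w hw => by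
      have := mul_le_mul_of_nonneg_left (cos_le_one (w.im - θ)) (mul_nonneg hΛ (exp_pos w.re).le)
      linarith [hφ1 w hw]
    have hHC : ∀ w ∈ U, ‖H w‖ ≤ C := fun w hw => by
      have : exp (-c * exp w.re) ≤ 1 := exp_le_one_iff.2 (by nlinarith [exp_pos w.re])
      nlinarith [hC w hw]
    refine am (V := fun w => ‖H w‖ * exp (φ w)) (κ := exp (-(η ^ 2 / 2))) (exp_pos _).le hk1 ?_ ?_
    · obtain ⟨M, hM⟩ := exp_sub_bdd hΛ (mul_pos hδ hs0) hκ1
      refine ⟨C * exp (M + π ^ 2), fun w hw => ?_⟩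
      refine mul_le_mul (hHC w hw) (exp_le_exp.2 ?_) (exp_pos _).le hC0
      have h1 := mul_le_mul_of_nonneg_left (cos_le_one (w.im - θ))
        (mul_nonneg hΛ (exp_pos w.re).le)
      have h2 := mul_le_mul_of_nonneg_left (hcos w hw) (mul_pos hδ (exp_pos (κ * w.re))).le
      have h3 := hM w.re
      have h4 := hy2 w hw
      simp only [hφ]
      nlinarith
    · intro M hM w₀ hw₀
      by_cases h1 : w₀.re ≤ R + η
      · left
        refine le_trans ?_ hB1
        have h2 : exp (φ w₀) ≤ exp (π ^ 2) * exp (Λ * exp (R + η)) := by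
          rw [← exp_add]
          refine exp_le_exp.2 ?_
          have := mul_le_mul_of_nonneg_left (exp_le_exp.2 h1) hΛ
          linarith [hφ2 w₀ hw₀]
        calc ‖H w₀‖ * exp (φ w₀) ≤ C * (exp (π ^ 2) * exp (Λ * exp (R + η))) :=
              mul_le_mul (hHC w₀ hw₀) h2 (exp_pos _).le hC0
          _ = _ := by ring
      by_cases h2 : π / 2 - β - η ≤ |w₀.im - θ|
      · left
        refine le_trans ?_ hB1
        have h3 : cos (w₀.im - θ) ≤ β + η := by
          rw [← cos_abs, ← sin_pi_div_two_sub]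
          refine (sin_le (by linarith [hy w₀ hw₀])).trans (by linarith)
        have h4 : Λ * cos (w₀.im - θ) ≤ c := (mul_le_mul_of_nonneg_left h3 hΛ).trans hbl
        have h5 : exp (-c * exp w₀.re) * exp (φ w₀) ≤ exp (π ^ 2) := by
          rw [← exp_add]
          refine exp_le_exp.2 ?_
          have := mul_le_mul_of_nonneg_left h4 (exp_pos w₀.re).le
          nlinarith [hφ1 w₀ hw₀]
        have h6 : 1 ≤ exp (Λ * exp (R + η)) := one_le_exp (by positivity)
        calc ‖H w₀‖ * exp (φ w₀) ≤ C * exp (-c * exp w₀.re) * exp (φ w₀) :=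
              mul_le_mul_of_nonneg_right (hC w₀ hw₀) (exp_pos _).le
          _ = C * (exp (-c * exp w₀.re) * exp (φ w₀)) := by ring
          _ ≤ C * exp (π ^ 2) := mul_le_mul_of_nonneg_left h5 hC0
          _ ≤ _ := by
              have := mul_le_mul_of_nonneg_left h6 (mul_nonneg hC0 (exp_pos (π ^ 2)).le)
              nlinarith
      right
      push Not at h1 h2
      refine ⟨_, le_rfl, ?_⟩
      have hs : closedBall w₀ η ⊆ U := fun w hw => by
        have a1 := abs_le.1 (abs_re_sub_le hw)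
        have a2 := abs_le.1 (abs_im_sub_le hw)
        have a3 := abs_lt.1 h2
        exact ⟨by linarith [a1.1], by linarith [a2.1, a3.1], by linarith [a2.2, a3.2]⟩
      obtain ⟨g, hg, hge⟩ := hA w₀ η hη le_rfl hs
      set y₀ := w₀.im - θ with hy₀
      set l : ℂ → ℂ := fun w => (Λ : ℂ) * Complex.exp (w - θ * Complex.I) -
        (δ : ℂ) * Complex.exp (κ * (w - θ * Complex.I)) +
        ((y₀ : ℂ) ^ 2 - 2 * Complex.I * y₀ * (w - w₀) - (w - w₀) ^ 2 / 2) with hl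
      have hlre : ∀ w, (l w).re = φ w - ((w.re - w₀.re) ^ 2 + (w.im - w₀.im) ^ 2) / 2 := by
        intro w
        simp only [hl, hφ, hy₀, Complex.add_re, Complex.sub_re,
          Complex.exp_re, Complex.sub_im, Complex.I_re, Complex.I_im,
          Complex.div_ofNat_re, pow_two, Complex.mul_re, Complex.mul_im, Complex.ofReal_re,
          Complex.ofReal_im, Complex.re_ofNat, Complex.im_ofNat]
        ring_nf
      have h3 := step (H := H) (l := l) (φ := φ) (M := M) (ε := exp (π ^ 2) * ε)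
        (γ := η ^ 2 / 2) hη (by positivity) hg (by rw [hl]; fun_prop) hge (by rw [hlre]; simp)
        (fun w hw => by rw [hlre, sq_add_sq_of_sphere hw]) (fun w hw => hM w (hs hw))
        (fun w hw => by
          have h4 : exp (-Λ * exp w.re) * exp (φ w) ≤ exp (π ^ 2) := by
            rw [← exp_add]
            exact exp_le_exp.2 (by linarith [hφ2 w (hs hw)])
          have h5 := mul_le_mul_of_nonneg_left h4 hε
          nlinarith)
      linarith
  intro w hw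
  have h1 : ‖H w‖ * exp (Λ * exp w.re * cos (w.im - θ) + (w.im - θ) ^ 2) ≤ B := by
    have hc : Continuous fun δ : ℝ => ‖H w‖ * exp (Λ * exp w.re * cos (w.im - θ) -
        δ * (exp (κ * w.re) * cos (κ * (w.im - θ))) + (w.im - θ) ^ 2) := by fun_prop
    have ht := (hc.tendsto 0).mono_left (nhdsWithin_le_nhds (s := Ioi (0 : ℝ)))
    simp only [zero_mul, sub_zero] at ht
    exact le_of_tendsto ht (eventually_nhdsWithin_of_forall fun δ hδ => key δ hδ w hw)
  exact (mul_le_mul_of_nonneg_left (exp_le_exp.2 (by nlinarith)) (norm_nonneg _)).trans h1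





end Crest.Agent.N250.W

end
end

-- ▼ part N250/B2/Stm

/-!
# Row 250, block (B2): the three parts of `NCStmt` (helper34)

`HNStmt` (Hensel induction along the formal curve), `CVStmt` (cells along the curve give a one variable
package `OV`), `STStmt` (the package is contradictory); `nc_of` is the compiled glue.
-/

set_option autoImplicit false

open Set Metric Filter Topology Asymptotics Function

noncomputable section

namespace Crest.Agent.N250.B2

variable {ι κ Γ : Type} [Fintype ι] [Fintype κ] [DecidableEq κ]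

/-- the truncated curve at a complex parameter -/
def cv (P : ℕ → ι ⊕ κ → ℝ) (N : ℕ) (t : ℂ) : ι ⊕ κ → ℂ := tr (fun m => ofR (P m)) N t

/-- the piece `U` is adapted to the parameter `t` -/
def Ad (Q : Cells Γ) (r : ℝ) (P : ℕ → ι ⊕ κ → ℝ) (K : ℕ) (Λ : ℝ) (U : κ → Γ) (t : ℂ) : Prop :=
  Q.Adm U ∧ t ≠ 0 ∧ (∀ j, Q.sz (U j) ≤ Λ * ‖t‖) ∧ ball (cv P (K + 1) t) (‖t‖ ^ K) ⊆ Q.Dom r U

/-- the open set of parameters near which `U` is adapted -/
def Om (Q : Cells Γ) (r : ℝ) (P : ℕ → ι ⊕ κ → ℝ) (K : ℕ) (Λ r2 : ℝ) (U : κ → Γ) : Set ℂ :=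
  interior {t | Ad Q r P K Λ U t} ∩ ball 0 r2

/-- output of the Hensel induction: almost critical points `Z U t` of the pieces -/
structure Hn (Q : Cells Γ) (F : (κ → Γ) → (ι ⊕ κ → ℂ) → ℂ) (r : ℝ) (P : ℕ → ι ⊕ κ → ℝ) (K : ℕ)
    (Λ r2 : ℝ) (f0 : ℂ) (Z : (κ → Γ) → ℂ → ι ⊕ κ → ℂ) (μ : ℕ) (C : ℝ) : Prop where
  r2_pos : 0 < r2
  near : ∀ U, ∀ t ∈ Om Q r P K Λ r2 U, ‖Z U t - cv P (K + 1) t‖ ≤ C * ‖t‖ ^ (K + 1)
  hol : ∀ U, DifferentiableOn ℂ (Z U) (Om Q r P K Λ r2 U)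
  flat : ∀ n : ℕ, ∃ C', ∀ U, ∀ t ∈ Om Q r P K Λ r2 U,
    ‖fderiv ℂ (F U) (Z U t)‖ ≤ C' * ‖t‖ ^ n ∧ ‖F U (Z U t) - f0‖ ≤ C' * ‖t‖ ^ n
  jmp : ∀ U V, ∀ t ∈ Om Q r P K Λ r2 U, t ∈ Om Q r P K Λ r2 V → ∀ e : ℝ,
    (∀ z ∈ ball (cv P (K + 1) t) (‖t‖ ^ K), ‖F U z - F V z‖ ≤ e) →
      ‖Z U t - Z V t‖ ≤ C * e / ‖t‖ ^ μ

/-- (HN) -/
def HNStmt : Prop :=
  ∀ (ι κ Γ : Type) [Fintype ι] [Fintype κ] [DecidableEq κ] (Q : Cells Γ)
    (F : (κ → Γ) → (ι ⊕ κ → ℂ) → ℂ) (r c C : ℝ) (k : ℕ → (ι ⊕ κ → ℂ) → ℂ) (r1 : ℝ)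
    (P : ℕ → ι ⊕ κ → ℝ), Wk Q F r c C → Tr Q F r c k r1 → Crit k P → ∀ (K : ℕ) (Λ : ℝ), 1 ≤ K →
      ∃ r2 f0 Z μ C', Hn Q F r P K Λ r2 f0 Z μ C'

/-- ONE VARIABLE PACKAGE at the Stokes ray `im w = 0`; `ξ w = 1/t`, `ξ ^ q = ± e^w`; `c` = rate of the
largest end `j0`, `p j` = the real polynomial part of the exponent of the end `j` on this ray. -/
structure OV {D : Type} [Fintype D] (H Gp Gm : ℂ → ℂ) (R c L ε : ℝ) (q ν : ℕ) (θ : ℝ) (ω : ℂ)
    (p : D → Polynomial ℝ) (j0 : D) (s o : D → ℂ → ℂ) (C : ℝ) : Prop where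
  c_pos : 0 < c
  c_lt : c < L
  ε_pos : 0 < ε
  ε_le : ε ≤ 1 / 2
  q_pos : 0 < q
  deg : ∀ j, (p j).natDegree ≤ q
  top : ((p j0).coeff q : ℂ) * Complex.exp (θ * Complex.I) = -c
  flat : ∀ N : ℕ, ∃ C', ∀ w : ℂ, R < w.re → ‖H w‖ ≤ C' * Real.exp (-N * w.re)
  apx : ∀ γ < 1, ∃ η C', 0 < η ∧
    W.Apx {w | R < w.re} η H fun w => C' * Real.exp (-(γ * c) * Real.exp w.re)
  apxp : ∃ η, 0 < η ∧ W.Apx (W.HS R (-ε) 1) η Gp fun w => C * Real.exp (-L * Real.exp w.re)
  apxm : ∃ η, 0 < η ∧ W.Apx (W.HS R (-1) ε) η Gm fun w => C * Real.exp (-L * Real.exp w.re)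
  cmpp : ∀ γ < 1, ∃ C', ∀ w ∈ W.HS R (-ε) 1,
    ‖Gp w - H w‖ ≤ C' * Real.exp (-(γ * c * Real.cos ε) * Real.exp w.re)
  cmpm : ∀ γ < 1, ∃ C', ∀ w ∈ W.HS R (-1) ε,
    ‖Gm w - H w‖ ≤ C' * Real.exp (-(γ * c * Real.cos ε) * Real.exp w.re)
  jump : ∀ w ∈ W.HS R (-ε) ε,
    ‖Gp w - Gm w - ∑ j, s j w * Complex.exp
        (Polynomial.aeval (Complex.exp ((w + θ * Complex.I) / q)) (p j) + o j w)‖ ≤
      C * Real.exp (-L * Real.exp w.re)
  s_le : ∀ j, ∀ w ∈ W.HS R (-ε) ε, ‖s j w‖ ≤ C * Real.exp (ν * w.re)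
  s_ge : ∀ j, ∀ w ∈ W.HS R (-ε) ε, ‖s j w‖ + Real.exp (-ν * w.re) ≤ C * (ω * s j w).re
  o_le : ∀ j, ∀ w ∈ W.HS R (-ε) ε, ‖o j w‖ ≤ C * Real.exp (-w.re / q)




end Crest.Agent.N250.B2
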