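import Crest.Agent.R266.SCV
import Crest.Agent.N250.B2.Stm

-- ▼ part N250/Hn/Est
section

/-! Cauchy estimates in `IsBigO` form (uniform in a parameter) and analytic division by the first
coordinate. -/

set_option autoImplicit false
set_option linter.unusedSectionVars false

open Filter Topology Asymptotics Metric Set

noncomputable section

namespace Crest.Agent.N250.Hn

variable {E V : Type*} [NormedAddCommGroup E] [NormedSpace ℂ E] [NormedAddCommGroup V]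
  [NormedSpace ℂ V]

/-- a property eventually true along `l ×ˢ 𝓝 0` holds on a fixed ball -/
theorem ev_ball {α : Type*} {l : Filter α} {P : α × E → Prop}
    (h : ∀ᶠ x in l ×ˢ 𝓝 (0 : E), P x) : ∃ r > 0, ∀ᶠ a in l, ∀ z ∈ ball (0 : E) r, P (a, z) := by
  obtain ⟨pa, ha, pb, hb, hh⟩ := eventually_prod_iff.1 h
  obtain ⟨r, hr, hb'⟩ := Metric.eventually_nhds_iff_ball.1 hb
  exact ⟨r, hr, ha.mono fun a h1 z hz => hh h1 (hb' z hz)⟩

theorem ev_of_ball {α : Type*} {l : Filter α} {P : α × E → Prop} {r : ℝ} (hr : 0 < r)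
    (h : ∀ᶠ a in l, ∀ z ∈ ball (0 : E) r, P (a, z)) : ∀ᶠ x in l ×ˢ 𝓝 (0 : E), P x :=
  eventually_prod_iff.2 ⟨_, h, fun z => z ∈ ball (0 : E) r, ball_mem_nhds _ hr,
    fun ha _ hz => ha _ hz⟩

/-- uniform data on a ball -/
theorem unif_ball {α : Type*} {l : Filter α} {G : α → E → V} {b : α → ℝ}
    (hd : ∀ᶠ x in l ×ˢ 𝓝 (0 : E), DifferentiableAt ℂ (G x.1) x.2)
    (hb : (fun x : α × E => G x.1 x.2) =O[l ×ˢ 𝓝 (0 : E)] fun x => b x.1) :
    ∃ r > 0, ∃ C > 0, ∀ᶠ a in l, ∀ z ∈ ball (0 : E) r, DifferentiableAt ℂ (G a) z ∧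
      ‖G a z‖ ≤ C * ‖b a‖ ∧ ‖fderiv ℂ (G a) z‖ ≤ C * ‖b a‖ := by
  obtain ⟨C, hC, hb⟩ := hb.exists_pos
  obtain ⟨r, hr, h⟩ := ev_ball (hd.and hb.bound)
  refine ⟨r / 2, by positivity, C + C / (r / 2), by positivity, h.mono fun a ha z hz => ?_⟩
  have hsub : ball z (r / 2) ⊆ ball (0 : E) r := by
    refine ball_subset_ball' ?_
    have := mem_ball.1 hz
    linarith
  have hz' : z ∈ ball (0 : E) r := hsub (mem_ball_self (by positivity))
  have h1 := R266.SCV.norm_fderiv_le_of_ball (f := G a) (x := z) (r := r / 2) (M := C * ‖b a‖)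
    (by positivity) (fun y hy => (ha y (hsub hy)).1.differentiableWithinAt)
    (fun y hy => (ha y (hsub hy)).2)
  have h2 : 0 ≤ C / (r / 2) * ‖b a‖ := by positivity
  have h3 : 0 ≤ C * ‖b a‖ := by positivity
  refine ⟨(ha z hz').1, ?_, ?_⟩
  · have := (ha z hz').2
    nlinarith
  · have h4 : C * ‖b a‖ / (r / 2) = C / (r / 2) * ‖b a‖ := by ring
    nlinarith

theorem cauchyO {α : Type*} {l : Filter α} {G : α → E → V} {b : α → ℝ}
    (hd : ∀ᶠ x in l ×ˢ 𝓝 (0 : E), DifferentiableAt ℂ (G x.1) x.2)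
    (hb : (fun x : α × E => G x.1 x.2) =O[l ×ˢ 𝓝 (0 : E)] fun x => b x.1) :
    (fun x : α × E => fderiv ℂ (G x.1) x.2) =O[l ×ˢ 𝓝 (0 : E)] fun x => b x.1 := by
  obtain ⟨r, hr, C, _, h⟩ := unif_ball hd hb
  exact IsBigO.of_bound C (ev_of_ball hr (h.mono fun a ha z hz => (ha z hz).2.2))

theorem lipO {α β : Type*} {l : Filter α} {G : α → E → V} {b : α → ℝ}
    (hd : ∀ᶠ x in l ×ˢ 𝓝 (0 : E), DifferentiableAt ℂ (G x.1) x.2)
    (hb : (fun x : α × E => G x.1 x.2) =O[l ×ˢ 𝓝 (0 : E)] fun x => b x.1)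
    {m : Filter β} {π : β → α} {x y : β → E} (hπ : Tendsto π m l) (hx : Tendsto x m (𝓝 0))
    (hy : Tendsto y m (𝓝 0)) :
    (fun s => G (π s) (x s) - G (π s) (y s)) =O[m] fun s => b (π s) * ‖x s - y s‖ := by
  obtain ⟨r, hr, C, _, h⟩ := unif_ball hd hb
  refine IsBigO.of_bound C ?_
  filter_upwards [hπ.eventually h, hx.eventually (ball_mem_nhds _ hr),
    hy.eventually (ball_mem_nhds _ hr)] with s ha hxs hys
  have := (convex_ball (0 : E) r).norm_image_sub_le_of_norm_fderiv_le (𝕜 := ℂ) (f := G (π s))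
    (C := C * ‖b (π s)‖) (fun z hz => (ha z hz).1) (fun z hz => (ha z hz).2.2) hys hxs
  rw [norm_mul, norm_norm, ← mul_assoc]
  exact this

theorem ev_ana [FiniteDimensional ℂ E] [CompleteSpace V] {α : Type*} {l : Filter α}
    {G : α → E → V} (hd : ∀ᶠ x in l ×ˢ 𝓝 (0 : E), DifferentiableAt ℂ (G x.1) x.2) :
    ∀ᶠ x in l ×ˢ 𝓝 (0 : E), AnalyticAt ℂ (G x.1) x.2 := by
  obtain ⟨r, hr, h⟩ := ev_ball hd
  refine ev_of_ball hr (h.mono fun a ha z hz => ?_)
  exact R266.SCV.analyticOnNhd_of_differentiableOn isOpen_ball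
    (fun y hy => (ha y hy).differentiableWithinAt) z hz

theorem tayO [FiniteDimensional ℂ E] [CompleteSpace V] {α β : Type*} {l : Filter α}
    {G : α → E → V} {b : α → ℝ}
    (hd : ∀ᶠ x in l ×ˢ 𝓝 (0 : E), DifferentiableAt ℂ (G x.1) x.2)
    (hb : (fun x : α × E => G x.1 x.2) =O[l ×ˢ 𝓝 (0 : E)] fun x => b x.1)
    {m : Filter β} {π : β → α} {x y : β → E} (hπ : Tendsto π m l) (hx : Tendsto x m (𝓝 0))
    (hy : Tendsto y m (𝓝 0)) :
    (fun s => G (π s) (x s) - G (π s) (y s) - fderiv ℂ (G (π s)) (y s) (x s - y s)) =O[m]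
      fun s => b (π s) * ‖x s - y s‖ ^ 2 := by
  have hd2 : ∀ᶠ x in l ×ˢ 𝓝 (0 : E), DifferentiableAt ℂ (fderiv ℂ (G x.1)) x.2 :=
    (ev_ana hd).mono fun x hx => hx.fderiv.differentiableAt
  obtain ⟨r, hr, C, hC, h⟩ := unif_ball (G := fun a => fderiv ℂ (G a)) hd2 (cauchyO hd hb)
  obtain ⟨r', hr', h'⟩ := ev_ball hd
  refine IsBigO.of_bound C ?_
  have hρ : 0 < min r r' := lt_min hr hr'
  filter_upwards [hπ.eventually h, hπ.eventually h', hx.eventually (ball_mem_nhds _ hρ),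
    hy.eventually (ball_mem_nhds _ hρ)] with s ha ha' hxs hys
  have hs : segment ℝ (y s) (x s) ⊆ ball (0 : E) (min r r') :=
    (convex_ball _ _).segment_subset hys hxs
  have hl : ∀ z ∈ segment ℝ (y s) (x s), ‖fderiv ℂ (G (π s)) z - fderiv ℂ (G (π s)) (y s)‖ ≤
      C * ‖b (π s)‖ * ‖x s - y s‖ := by
    intro z hz
    have h1 := (convex_ball (0 : E) r).norm_image_sub_le_of_norm_fderiv_le (𝕜 := ℂ)
      (f := fderiv ℂ (G (π s))) (C := C * ‖b (π s)‖) (fun z hz => (ha z hz).1)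
      (fun z hz => (ha z hz).2.2) (ball_subset_ball (min_le_left _ _) hys)
      (ball_subset_ball (min_le_left _ _) (hs hz))
    refine h1.trans (mul_le_mul_of_nonneg_left ?_ (by positivity))
    obtain ⟨u, v, hu, hv, huv, rfl⟩ := hz
    have : u • y s + v • x s - y s = v • (x s - y s) := by
      have : u = 1 - v := by linarith
      rw [this]; module
    rw [this, norm_smul, Real.norm_of_nonneg hv]
    exact mul_le_of_le_one_left (norm_nonneg _) (by linarith)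
  have := (convex_segment (y s) (x s)).norm_image_sub_le_of_norm_fderiv_le' (𝕜 := ℂ)
    (f := G (π s)) (φ := fderiv ℂ (G (π s)) (y s)) (C := C * ‖b (π s)‖ * ‖x s - y s‖)
    (fun z hz => ha' z (ball_subset_ball (min_le_right _ _) (hs hz))) hl
    (left_mem_segment _ _ _) (right_mem_segment _ _ _)
  refine this.trans (le_of_eq ?_)
  rw [norm_mul, norm_pow, norm_norm]; ring

/-- analytic Hadamard lemma in the first coordinate -/
theorem div_fst [FiniteDimensional ℂ E] [CompleteSpace V] {K : ℂ × E → V}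
    (hK : AnalyticAt ℂ K 0) (h0 : ∀ᶠ z in 𝓝 (0 : E), K (0, z) = 0) :
    ∃ K' : ℂ × E → V, AnalyticAt ℂ K' 0 ∧ ∀ᶠ p in 𝓝 (0 : ℂ × E), K p = p.1 • K' p := by
  have h1 : ∀ᶠ p in 𝓝 (0 : ℂ × E), AnalyticAt ℂ K p ∧ K (0, p.2) = 0 :=
    hK.eventually_analyticAt.and
      ((continuous_snd.tendsto' (0 : ℂ × E) 0 rfl).eventually h0)
  obtain ⟨r, hr, h⟩ := Metric.eventually_nhds_iff_ball.1 h1
  have hm : ∀ p ∈ ball (0 : ℂ × E) r, ∀ s ∈ uIcc (0 : ℝ) 1,
      (((s : ℂ) * p.1, p.2) : ℂ × E) ∈ ball (0 : ℂ × E) r := by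
    intro p hp s hs
    rw [uIcc_of_le zero_le_one] at hs
    rw [mem_ball_zero_iff] at hp ⊢
    refine lt_of_le_of_lt ?_ hp
    simp only [Prod.norm_def]
    refine max_le_max ?_ le_rfl
    rw [norm_mul, Complex.norm_real, Real.norm_of_nonneg hs.1]
    exact mul_le_of_le_one_left (norm_nonneg _) hs.2
  set D : ℂ × E → V := fun p => fderiv ℂ K p (1, 0) with hD
  have hDa : ∀ p ∈ ball (0 : ℂ × E) r, AnalyticAt ℂ D p := fun p hp =>
    ((ContinuousLinearMap.apply ℂ V ((1, 0) : ℂ × E)).analyticAt _).comp (h p hp).1.fderiv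
  have hDc : ContinuousOn D (ball (0 : ℂ × E) r) := fun p hp =>
    (hDa p hp).continuousAt.continuousWithinAt
  refine ⟨fun p => ∫ s in (0 : ℝ)..1, D ((s : ℂ) * p.1, p.2), ?_, ?_⟩
  · refine R266.SCV.analyticOnNhd_intervalIntegral
      (f := fun q : (ℂ × E) × ℝ => D ((q.2 : ℂ) * q.1.1, q.1.2)) isOpen_ball ?_ ?_ 0
      (mem_ball_self hr)
    · refine hDc.comp (by fun_prop) ?_
      rintro ⟨p, s⟩ ⟨hp, hs⟩
      exact hm p hp s hs
    · intro s hs p hp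
      refine DifferentiableAt.differentiableWithinAt ?_
      exact (hDa _ (hm p hp s hs)).differentiableAt.comp p
        (f := fun x : ℂ × E => (((s : ℂ) * x.1, x.2) : ℂ × E)) (by fun_prop)
  · filter_upwards [ball_mem_nhds (0 : ℂ × E) hr] with p hp
    have hder : ∀ s ∈ uIcc (0 : ℝ) 1, HasDerivAt (fun s : ℝ => K ((s : ℂ) * p.1, p.2))
        (p.1 • D ((s : ℂ) * p.1, p.2)) s := by
      intro s hs
      have h2 : HasDerivAt (fun s : ℝ => (((s : ℂ) * p.1, p.2) : ℂ × E)) (p.1, 0) s := by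
        refine HasDerivAt.prodMk ?_ (hasDerivAt_const _ _)
        simpa using (Complex.ofRealCLM.hasDerivAt (x := s)).mul_const p.1
      have h3 := ((h _ (hm p hp s hs)).1.differentiableAt.hasFDerivAt.restrictScalars ℝ
        ).comp_hasDerivAt s h2
      have h4 : p.1 • D ((s : ℂ) * p.1, p.2) =
          (fderiv ℂ K ((s : ℂ) * p.1, p.2)) (p.1, 0) := by
        simp only [hD, ← map_smul]
        simp
      rw [h4]
      exact h3
    have hint : IntervalIntegrable (fun s : ℝ => p.1 • D ((s : ℂ) * p.1, p.2))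
        MeasureTheory.volume 0 1 := by
      refine ContinuousOn.intervalIntegrable ?_
      refine ContinuousOn.const_smul ?_ _
      exact hDc.comp (by fun_prop) (fun s hs => hm p hp s hs)
    have := intervalIntegral.integral_eq_sub_of_hasDerivAt hder hint
    rw [intervalIntegral.integral_smul] at this
    rw [this]
    simp [(h p hp).2]

/-- division by `t ^ m` of an analytic germ that is `O(t ^ m)` along a filter on which `t → 0`,
`t ≠ 0` -/
theorem div_pow [FiniteDimensional ℂ E] [CompleteSpace V] {α : Type*} {l : Filter α} [l.NeBot]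
    {t : α → ℂ} (ht : Tendsto t l (𝓝 0)) (hne : ∀ᶠ a in l, t a ≠ 0) (m : ℕ) :
    ∀ {K : ℂ × E → V}, AnalyticAt ℂ K 0 →
      (fun x : α × E => K (t x.1, x.2)) =O[l ×ˢ 𝓝 (0 : E)] (fun x => ‖t x.1‖ ^ m) →
      ∃ K' : ℂ × E → V, AnalyticAt ℂ K' 0 ∧ ∀ᶠ p in 𝓝 (0 : ℂ × E), K p = p.1 ^ m • K' p := by
  induction m with
  | zero => exact fun {K} hK _ => ⟨K, hK, by simp⟩
  | succ m ih =>
    intro K hK hO
    have hT : Tendsto (fun x : α × E => (t x.1, x.2)) (l ×ˢ 𝓝 (0 : E)) (𝓝 0) :=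
      (ht.comp tendsto_fst).prodMk_nhds tendsto_snd
    have h0 : ∀ᶠ z in 𝓝 (0 : E), K (0, z) = 0 := by
      obtain ⟨C, hC⟩ := hO.bound
      obtain ⟨r, hr, h⟩ := ev_ball hC
      have hc : ∀ᶠ z in 𝓝 (0 : E), ContinuousAt K (0, z) :=
        ((Continuous.prodMk_right (0 : ℂ)).tendsto' (0 : E) 0 rfl).eventually
          (hK.eventually_analyticAt.mono fun p hp => hp.continuousAt)
      filter_upwards [hc, ball_mem_nhds (0 : E) hr] with z hz hz'
      have h1 : Tendsto (fun a => K (t a, z)) l (𝓝 (K (0, z))) :=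
        hz.tendsto.comp (ht.prodMk_nhds tendsto_const_nhds)
      have h2 : Tendsto (fun a => K (t a, z)) l (𝓝 0) := by
        refine squeeze_zero_norm' (h.mono fun a ha => ha z hz') ?_
        have : Tendsto (fun a => C * ‖‖t a‖ ^ (m + 1)‖) l (𝓝 (C * ‖‖(0 : ℂ)‖ ^ (m + 1)‖)) :=
          ((ht.norm.pow _).norm).const_mul C
        simpa using this
      exact tendsto_nhds_unique h1 h2
    obtain ⟨K1, hK1, h1⟩ := div_fst hK h0
    obtain ⟨K2, hK2, h2⟩ := ih hK1 (by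
      obtain ⟨C, hC⟩ := hO.bound
      refine IsBigO.of_bound C ?_
      filter_upwards [hC, hT.eventually h1, tendsto_fst.eventually hne] with x hx hx1 hx2
      rw [hx1, norm_smul, Real.norm_of_nonneg (by positivity), pow_succ'] at hx
      rw [Real.norm_of_nonneg (by positivity)]
      have := norm_pos_iff.2 hx2
      nlinarith [hx])
    refine ⟨K2, hK2, ?_⟩
    filter_upwards [h1, h2] with p hp hp2
    rw [hp, hp2, smul_smul, pow_succ']

end Crest.Agent.N250.Hn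
end
end

-- ▼ part N250/Hn/CF
section

/-! The class `CF` of families of holomorphic functions on a cover (sectors, cells) with small jumps
and asymptotic expansions of every order; closure properties. -/

set_option autoImplicit false
set_option linter.unusedSectionVars false

open Filter Topology Asymptotics Metric Set

noncomputable section

namespace Crest.Agent.N250.Hn

/-- a cover: open pieces `Ω k` in the variable `w`, the small parameter `t = τ w`, and the sizes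
`ε k l w` of the jumps -/
structure Cov (κ : Type*) where
  Ω : κ → Set ℂ
  τ : ℂ → ℂ
  ε : κ → κ → ℂ → ℝ
  isOpen : ∀ k, IsOpen (Ω k)
  diff : ∀ k, DifferentiableOn ℂ τ (Ω k)
  ne : ∀ k, ∀ w ∈ Ω k, τ w ≠ 0
  acc : ∀ r > 0, ∃ k, ∃ w ∈ Ω k, ‖τ w‖ < r

variable {κ : Type*}

/-- `t → 0` inside the pieces, uniformly in the index -/
def Cov.F (c : Cov κ) : Filter (κ × ℂ) :=
  comap (fun q => c.τ q.2) (𝓝 0) ⊓ 𝓟 {q | q.2 ∈ c.Ω q.1}

/-- `t → 0` inside the overlaps -/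
def Cov.J (c : Cov κ) : Filter (κ × κ × ℂ) :=
  comap (fun q => c.τ q.2.2) (𝓝 0) ⊓ 𝓟 {q | q.2.2 ∈ c.Ω q.1 ∧ q.2.2 ∈ c.Ω q.2.1}

namespace Cov

variable (c : Cov κ)

theorem evF {P : κ × ℂ → Prop} :
    (∀ᶠ q in c.F, P q) ↔ ∃ r > 0, ∀ k, ∀ w ∈ c.Ω k, ‖c.τ w‖ < r → P (k, w) := by
  unfold F
  rw [eventually_inf_principal, eventually_comap, Metric.eventually_nhds_iff_ball]
  constructor
  · rintro ⟨r, hr, h⟩
    exact ⟨r, hr, fun k w hw ht => h _ (mem_ball_zero_iff.2 ht) (k, w) rfl hw⟩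
  · rintro ⟨r, hr, h⟩
    refine ⟨r, hr, fun y hy q hq hw => h q.1 q.2 hw ?_⟩
    rw [hq]; exact mem_ball_zero_iff.1 hy

theorem evJ {P : κ × κ × ℂ → Prop} :
    (∀ᶠ q in c.J, P q) ↔
      ∃ r > 0, ∀ k l, ∀ w ∈ c.Ω k, w ∈ c.Ω l → ‖c.τ w‖ < r → P (k, l, w) := by
  unfold J
  rw [eventually_inf_principal, eventually_comap, Metric.eventually_nhds_iff_ball]
  constructor
  · rintro ⟨r, hr, h⟩
    exact ⟨r, hr, fun k l w hw hw' ht => h _ (mem_ball_zero_iff.2 ht) (k, l, w) rfl ⟨hw, hw'⟩⟩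
  · rintro ⟨r, hr, h⟩
    refine ⟨r, hr, fun y hy q hq hw => h q.1 q.2.1 q.2.2 hw.1 hw.2 ?_⟩
    rw [hq]; exact mem_ball_zero_iff.1 hy

instance neBot : c.F.NeBot := by
  refine ⟨fun h => ?_⟩
  have : ∀ᶠ q in c.F, False := by rw [h]; exact eventually_bot
  obtain ⟨r, hr, h1⟩ := c.evF.1 this
  obtain ⟨k, w, hw, ht⟩ := c.acc r hr
  exact h1 k w hw ht

theorem tF : Tendsto (fun q : κ × ℂ => c.τ q.2) c.F (𝓝 0) :=
  tendsto_inf_left tendsto_comap

theorem neF : ∀ᶠ q in c.F, c.τ q.2 ≠ 0 := c.evF.2 ⟨1, one_pos, fun k w hw _ => c.ne k w hw⟩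

theorem anaF : ∀ᶠ q in c.F, AnalyticAt ℂ c.τ q.2 :=
  c.evF.2 ⟨1, one_pos, fun k _ hw _ => (c.diff k).analyticAt ((c.isOpen k).mem_nhds hw)⟩

theorem le_one : ∀ᶠ q in c.F, ‖c.τ q.2‖ ≤ 1 := c.evF.2 ⟨1, one_pos, fun _ _ _ h => h.le⟩

theorem π₁ : Tendsto (fun q : κ × κ × ℂ => (q.1, q.2.2)) c.J c.F := by
  intro s hs
  obtain ⟨r, hr, h⟩ := c.evF.1 hs
  exact c.evJ.2 ⟨r, hr, fun k l w hw _ ht => h k w hw ht⟩

theorem π₂ : Tendsto (fun q : κ × κ × ℂ => (q.2.1, q.2.2)) c.J c.F := by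
  intro s hs
  obtain ⟨r, hr, h⟩ := c.evF.1 hs
  exact c.evJ.2 ⟨r, hr, fun k l w _ hw ht => h l w hw ht⟩

theorem powO {β : Type*} {m : Filter β} {π : β → κ × ℂ} (hπ : Tendsto π m c.F) {M N : ℕ}
    (h : M ≤ N) : (fun s => ‖c.τ (π s).2‖ ^ N) =O[m] fun s => ‖c.τ (π s).2‖ ^ M := by
  refine IsBigO.of_bound 1 ?_
  filter_upwards [hπ.eventually c.le_one] with s hs
  rw [one_mul, Real.norm_of_nonneg (by positivity), Real.norm_of_nonneg (by positivity)]
  exact pow_le_pow_of_le_one (norm_nonneg _) hs h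

/-- the jump gauge -/
def g (ν : ℕ) (q : κ × κ × ℂ) : ℝ := ‖c.τ q.2.2‖⁻¹ ^ ν * c.ε q.1 q.2.1 q.2.2

theorem gO {β : Type*} {m : Filter β} {π : β → κ × κ × ℂ} (hπ : Tendsto π m c.J) {μ ν : ℕ}
    (h : μ ≤ ν) : (fun s => c.g μ (π s)) =O[m] fun s => c.g ν (π s) := by
  refine IsBigO.mul ?_ (isBigO_refl _ _)
  refine IsBigO.of_bound 1 ?_
  filter_upwards [(c.π₁.comp hπ).eventually c.le_one, (c.π₁.comp hπ).eventually c.neF] with s hs hn
  rw [one_mul, Real.norm_of_nonneg (by positivity), Real.norm_of_nonneg (by positivity)]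
  exact pow_le_pow_right₀ (one_le_inv_iff₀.2 ⟨norm_pos_iff.2 hn, hs⟩) h

end Cov

variable {E E' V W : Type*} [NormedAddCommGroup E] [NormedSpace ℂ E] [FiniteDimensional ℂ E]
  [NormedAddCommGroup E'] [NormedSpace ℂ E'] [FiniteDimensional ℂ E']
  [NormedAddCommGroup V] [NormedSpace ℂ V] [CompleteSpace V]
  [NormedAddCommGroup W] [NormedSpace ℂ W] [CompleteSpace W]

/-- families with small jumps and asymptotic expansions -/
structure CF (c : Cov κ) (F : κ → ℂ × E → V) : Prop where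
  hol : ∀ᶠ x in c.F ×ˢ 𝓝 (0 : E), AnalyticAt ℂ (F x.1.1) (x.1.2, x.2)
  jump : ∃ ν : ℕ, (fun x : (κ × κ × ℂ) × E => F x.1.1 (x.1.2.2, x.2) - F x.1.2.1 (x.1.2.2, x.2))
    =O[c.J ×ˢ 𝓝 (0 : E)] fun x => c.g ν x.1
  asy : ∀ N : ℕ, ∃ K : ℂ × E → V, AnalyticAt ℂ K 0 ∧
    (fun x : (κ × ℂ) × E => F x.1.1 (x.1.2, x.2) - K (c.τ x.1.2, x.2)) =O[c.F ×ˢ 𝓝 (0 : E)]
      fun x => ‖c.τ x.1.2‖ ^ N

variable {c : Cov κ}

theorem tT (c : Cov κ) : Tendsto (fun x : (κ × ℂ) × E => (c.τ x.1.2, x.2)) (c.F ×ˢ 𝓝 (0 : E))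
    (𝓝 0) := (c.tF.comp tendsto_fst).prodMk_nhds tendsto_snd

theorem tJ₁ (c : Cov κ) : Tendsto (fun x : (κ × κ × ℂ) × E => ((x.1.1, x.1.2.2), x.2))
    (c.J ×ˢ 𝓝 (0 : E)) (c.F ×ˢ 𝓝 (0 : E)) := (c.π₁.comp tendsto_fst).prodMk tendsto_snd

theorem tJ₂ (c : Cov κ) : Tendsto (fun x : (κ × κ × ℂ) × E => ((x.1.2.1, x.1.2.2), x.2))
    (c.J ×ˢ 𝓝 (0 : E)) (c.F ×ˢ 𝓝 (0 : E)) := (c.π₂.comp tendsto_fst).prodMk tendsto_snd

/-- differentiability on the open pieces gives the field `hol` -/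
theorem hol_of_diff {F : κ → ℂ × E → V}
    (h : ∀ᶠ x in c.F ×ˢ 𝓝 (0 : E), DifferentiableAt ℂ (F x.1.1) (x.1.2, x.2)) :
    ∀ᶠ x in c.F ×ˢ 𝓝 (0 : E), AnalyticAt ℂ (F x.1.1) (x.1.2, x.2) := by
  obtain ⟨r, hr, h⟩ := ev_ball h
  obtain ⟨r', hr', h⟩ := c.evF.1 h
  refine ev_of_ball hr (c.evF.2 ⟨r', hr', fun k w hw ht z hz => ?_⟩)
  have ho : IsOpen ((c.Ω k ∩ c.τ ⁻¹' ball 0 r') ×ˢ ball (0 : E) r) :=
    ((c.diff k).continuousOn.isOpen_inter_preimage (c.isOpen k) isOpen_ball).prod isOpen_ball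
  exact R266.SCV.analyticOnNhd_of_differentiableOn ho
    (fun p hp => (h k p.1 hp.1.1 (mem_ball_zero_iff.1 hp.1.2) p.2 hp.2).differentiableWithinAt)
    (w, z) ⟨⟨hw, mem_ball_zero_iff.2 ht⟩, hz⟩

theorem slice_ana {G : ℂ × E → V} {w : ℂ} {z : E} (h : AnalyticAt ℂ G (w, z)) :
    AnalyticAt ℂ (fun y => G (w, y)) z :=
  h.comp (f := fun y : E => (w, y)) (analyticAt_const.prod analyticAt_id)

theorem ana_slice {K : ℂ × E → V} (hK : AnalyticAt ℂ K 0) :
    ∀ᶠ x in c.F ×ˢ 𝓝 (0 : E), DifferentiableAt ℂ (fun y => K (c.τ x.1.2, y)) x.2 :=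
  ((tT c).eventually hK.eventually_analyticAt).mono fun _ hx => (slice_ana hx).differentiableAt

theorem ana_bdd {K : ℂ × E → V} (hK : AnalyticAt ℂ K 0) :
    (fun x : (κ × ℂ) × E => K (c.τ x.1.2, x.2)) =O[c.F ×ˢ 𝓝 (0 : E)] fun _ => (1 : ℝ) :=
  (hK.continuousAt.tendsto.comp (tT c)).isBigO_one ℝ

namespace CF

variable {F G : κ → ℂ × E → V}

theorem sl (h : CF c F) :
    ∀ᶠ x in c.F ×ˢ 𝓝 (0 : E), DifferentiableAt ℂ (fun y => F x.1.1 (x.1.2, y)) x.2 :=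
  h.hol.mono fun _ hx => (slice_ana hx).differentiableAt

theorem bdd (h : CF c F) :
    (fun x : (κ × ℂ) × E => F x.1.1 (x.1.2, x.2)) =O[c.F ×ˢ 𝓝 (0 : E)] fun _ => (1 : ℝ) := by
  obtain ⟨K, hK, h1⟩ := h.asy 0
  have := (h1.congr_right (fun x => pow_zero _)).add (ana_bdd hK)
  simpa using this

theorem lip (h : CF c F) {β : Type*} {m : Filter β} {π : β → κ × ℂ} {x y : β → E}
    (hπ : Tendsto π m c.F) (hx : Tendsto x m (𝓝 0)) (hy : Tendsto y m (𝓝 0)) :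
    (fun s => F (π s).1 ((π s).2, x s) - F (π s).1 ((π s).2, y s)) =O[m] fun s => x s - y s := by
  have := lipO (G := fun q y => F q.1 (q.2, y)) (b := fun _ => 1) h.sl h.bdd hπ hx hy
  simpa using this

theorem of_ana {K : ℂ × E → V} (hK : AnalyticAt ℂ K 0) :
    CF c (fun (_ : κ) (x : ℂ × E) => K (c.τ x.1, x.2)) where
  hol := by
    filter_upwards [(tT c).eventually hK.eventually_analyticAt, tendsto_fst.eventually c.anaF]
      with x hx ht
    exact AnalyticAt.comp (g := K) (f := fun p : ℂ × E => (c.τ p.1, p.2)) hx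
      ((AnalyticAt.comp (g := c.τ) (f := fun p : ℂ × E => p.1) ht analyticAt_fst).prod
        analyticAt_snd)
  jump := ⟨0, by simpa using isBigO_zero _ _⟩
  asy N := ⟨K, hK, by simpa using isBigO_zero _ _⟩

theorem add (hF : CF c F) (hG : CF c G) : CF c (fun k x => F k x + G k x) where
  hol := (hF.hol.and hG.hol).mono fun _ hx => hx.1.add hx.2
  jump := by
    obtain ⟨μ, h1⟩ := hF.jump
    obtain ⟨ν, h2⟩ := hG.jump
    refine ⟨max μ ν, ((h1.trans (c.gO tendsto_fst (le_max_left _ _))).add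
      (h2.trans (c.gO tendsto_fst (le_max_right _ _)))).congr_left fun x => ?_⟩
    abel
  asy N := by
    obtain ⟨K, hK, h1⟩ := hF.asy N
    obtain ⟨L, hL, h2⟩ := hG.asy N
    refine ⟨fun p => K p + L p, hK.add hL, (h1.add h2).congr_left fun x => ?_⟩
    beta_reduce
    abel

theorem clm (hF : CF c F) (L : V →L[ℂ] W) : CF c (fun k x => L (F k x)) where
  hol := hF.hol.mono fun _ hx => (L.analyticAt _).comp hx
  jump := by
    obtain ⟨μ, h1⟩ := hF.jump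
    exact ⟨μ, ((L.isBigO_comp _ _).trans h1).congr_left fun x => by simp⟩
  asy N := by
    obtain ⟨K, hK, h1⟩ := hF.asy N
    exact ⟨fun p => L (K p), (L.analyticAt _).comp hK,
      ((L.isBigO_comp _ _).trans h1).congr_left fun x => by simp⟩

theorem neg (hF : CF c F) : CF c (fun k x => -F k x) := hF.clm (-ContinuousLinearMap.id ℂ V)

theorem sub (hF : CF c F) (hG : CF c G) : CF c (fun k x => F k x - G k x) := by
  simpa [sub_eq_add_neg] using hF.add hG.neg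

/-- the value at the origin of an expansion is the limit of the family -/
theorem asy_zero {K : ℂ × E → V} {N : ℕ} (hK : AnalyticAt ℂ K 0)
    (h1 : (fun x : (κ × ℂ) × E => F x.1.1 (x.1.2, x.2) - K (c.τ x.1.2, x.2)) =O[c.F ×ˢ 𝓝 (0 : E)]
      fun x => ‖c.τ x.1.2‖ ^ (N + 1)) :
    Tendsto (fun x : (κ × ℂ) × E => F x.1.1 (x.1.2, x.2)) (c.F ×ˢ 𝓝 (0 : E)) (𝓝 (K 0)) := by
  have h2 : Tendsto (fun x : (κ × ℂ) × E => ‖c.τ x.1.2‖ ^ (N + 1)) (c.F ×ˢ 𝓝 (0 : E)) (𝓝 0) := by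
    simpa using ((c.tF.comp tendsto_fst).norm.pow (N + 1) :
      Tendsto (fun x : (κ × ℂ) × E => ‖c.τ x.1.2‖ ^ (N + 1)) (c.F ×ˢ 𝓝 (0 : E)) _)
  simpa using (h1.trans_tendsto h2).add (hK.continuousAt.tendsto.comp (tT c))

theorem comp (hF : CF c F) {Φ : κ → ℂ × E' → E} (hΦ : CF c Φ)
    (h0 : Tendsto (fun x : (κ × ℂ) × E' => Φ x.1.1 (x.1.2, x.2)) (c.F ×ˢ 𝓝 (0 : E')) (𝓝 0)) :
    CF c (fun k (x : ℂ × E') => F k (x.1, Φ k x)) where
  hol := by
    filter_upwards [hΦ.hol, (tendsto_fst.prodMk h0).eventually hF.hol] with x hx hx'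
    exact AnalyticAt.comp (g := F x.1.1) (f := fun p : ℂ × E' => (p.1, Φ x.1.1 p)) hx'
      (analyticAt_fst.prod hx)
  jump := by
    obtain ⟨μ, h1⟩ := hF.jump
    obtain ⟨ν, h2⟩ := hΦ.jump
    have h3 := h1.comp_tendsto (tendsto_fst.prodMk (h0.comp (tJ₂ c)))
    have h4 := (hF.lip (c.π₁.comp tendsto_fst) (h0.comp (tJ₁ c)) (h0.comp (tJ₂ c))).trans h2
    refine ⟨max μ ν, ((h3.trans (c.gO tendsto_fst (le_max_left _ _))).add
      (h4.trans (c.gO tendsto_fst (le_max_right _ _)))).congr_left fun x => ?_⟩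
    simp
  asy N := by
    obtain ⟨K, hK, h1⟩ := hF.asy N
    obtain ⟨L, hL, h2⟩ := hΦ.asy (N + 1)
    have hL0 : L 0 = 0 := tendsto_nhds_unique (asy_zero hL h2) h0
    have hLt : Tendsto (fun x : (κ × ℂ) × E' => L (c.τ x.1.2, x.2)) (c.F ×ˢ 𝓝 (0 : E')) (𝓝 0) := by
      have := hL.continuousAt.tendsto.comp (tT c)
      rwa [hL0] at this
    refine ⟨fun p => K (p.1, L p), ?_, ?_⟩
    · refine AnalyticAt.comp (g := K) (f := fun p : ℂ × E' => (p.1, L p)) ?_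
        (analyticAt_fst.prod hL)
      have : ((0 : ℂ × E').1, L 0) = 0 := by rw [hL0]; rfl
      rw [this]; exact hK
    · have h3 := h1.comp_tendsto (tendsto_fst.prodMk hLt)
      have h4 := ((hF.lip tendsto_fst h0 hLt).trans h2).trans
        (c.powO tendsto_fst (Nat.le_succ N))
      refine (h3.add h4).congr_left fun x => ?_
      simp

theorem div (hF : CF c F) (m : ℕ)
    (h : (fun x : (κ × ℂ) × E => F x.1.1 (x.1.2, x.2)) =O[c.F ×ˢ 𝓝 (0 : E)]
      fun x => ‖c.τ x.1.2‖ ^ m) : CF c (fun k x => (c.τ x.1 ^ m)⁻¹ • F k x) where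
  hol := by
    filter_upwards [hF.hol, tendsto_fst.eventually c.anaF, tendsto_fst.eventually c.neF]
      with x hx ht hn
    have h1 : AnalyticAt ℂ (fun p : ℂ × E => c.τ p.1 ^ m) (x.1.2, x.2) :=
      (AnalyticAt.comp (g := c.τ) (f := fun p : ℂ × E => p.1) ht analyticAt_fst).pow m
    exact (h1.inv (pow_ne_zero _ hn)).smul hx
  jump := by
    obtain ⟨μ, h1⟩ := hF.jump
    refine ⟨m + μ, ?_⟩
    have h2 : (fun x : (κ × κ × ℂ) × E => (c.τ x.1.2.2 ^ m)⁻¹) =O[c.J ×ˢ 𝓝 (0 : E)]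
        fun x => ‖c.τ x.1.2.2‖⁻¹ ^ m := IsBigO.of_bound 1 (by simp)
    refine (h2.smul h1).congr (fun x => smul_sub _ _ _) (fun x => ?_)
    simp [Cov.g, pow_add, mul_assoc]
  asy N := by
    obtain ⟨K, hK, h1⟩ := hF.asy (m + N)
    have h2 : (fun x : (κ × ℂ) × E => K (c.τ x.1.2, x.2)) =O[c.F ×ˢ 𝓝 (0 : E)]
        fun x => ‖c.τ x.1.2‖ ^ m := by
      refine (h.sub (h1.trans (c.powO tendsto_fst (Nat.le_add_right m N)))).congr_left fun x => ?_
      abel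
    obtain ⟨K', hK', h3⟩ := div_pow c.tF c.neF m hK h2
    refine ⟨K', hK', ?_⟩
    have h4 : (fun x : (κ × ℂ) × E => (c.τ x.1.2 ^ m)⁻¹) =O[c.F ×ˢ 𝓝 (0 : E)]
        fun x => (‖c.τ x.1.2‖ ^ m)⁻¹ := IsBigO.of_bound 1 (by simp)
    refine (h4.smul h1).congr' ?_ ?_
    · filter_upwards [(tT c).eventually h3, tendsto_fst.eventually c.neF] with x hx hn
      rw [hx, smul_sub, smul_smul, inv_mul_cancel₀ (pow_ne_zero _ hn), one_smul]
    · filter_upwards [tendsto_fst.eventually c.neF] with x hn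
      have := norm_pos_iff.2 hn
      rw [smul_eq_mul, pow_add]
      field_simp

end CF

/-- derivative in the variables `z` -/
def Dz (G : ℂ × E → V) (x : ℂ × E) : E →L[ℂ] V := fderiv ℂ (fun y => G (x.1, y)) x.2

theorem Dz_ana {G : ℂ × E → V} {x : ℂ × E} (h : AnalyticAt ℂ G x) : AnalyticAt ℂ (Dz G) x := by
  have h1 : AnalyticAt ℂ (fun p => (fderiv ℂ G p).comp (ContinuousLinearMap.inr ℂ ℂ E)) x :=
    (((ContinuousLinearMap.compL ℂ E (ℂ × E) V).flip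
      (ContinuousLinearMap.inr ℂ ℂ E)).analyticAt _).comp h.fderiv
  refine h1.congr ?_
  filter_upwards [h.eventually_analyticAt] with p hp
  exact ((hp.differentiableAt.hasFDerivAt.comp p.2
    (hasFDerivAt_prodMk_right p.1 p.2)).fderiv).symm

theorem CF.dz {F : κ → ℂ × E → V} (hF : CF c F) : CF c (fun k => Dz (F k)) where
  hol := hF.hol.mono fun _ hx => Dz_ana hx
  jump := by
    obtain ⟨μ, h1⟩ := hF.jump
    have h2 := (tJ₁ c).eventually hF.sl
    have h3 := (tJ₂ c).eventually hF.sl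
    refine ⟨μ, (cauchyO (G := fun q : κ × κ × ℂ => fun y => F q.1 (q.2.2, y) - F q.2.1 (q.2.2, y))
      ((h2.and h3).mono fun x hx => hx.1.sub hx.2) h1).congr' ?_ EventuallyEq.rfl⟩
    filter_upwards [h2, h3] with x hx hx'
    exact fderiv_fun_sub hx hx'
  asy N := by
    obtain ⟨K, hK, h1⟩ := hF.asy N
    have h3 := ana_slice (c := c) hK
    refine ⟨Dz K, Dz_ana hK, (cauchyO (b := fun q : κ × ℂ => ‖c.τ q.2‖ ^ N)
      (G := fun q : κ × ℂ => fun y => F q.1 (q.2, y) - K (c.τ q.2, y))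
      ((hF.sl.and h3).mono fun x hx => hx.1.sub hx.2) h1).congr' ?_ EventuallyEq.rfl⟩
    filter_upwards [hF.sl, h3] with x hx hx'
    exact fderiv_fun_sub hx hx'

end Crest.Agent.N250.Hn
end
end

-- ▼ part N250/Hn/Fix
section

/-! Fixed points `x = a + R (w, x)` with `R = O(t)` stay in the class `CF`. -/

set_option autoImplicit false
set_option linter.unusedSectionVars false

open Filter Topology Asymptotics Metric Set

noncomputable section

namespace Crest.Agent.N250.Hn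

variable {κ : Type*} {E : Type*} [NormedAddCommGroup E] [NormedSpace ℂ E] [FiniteDimensional ℂ E]
  [CompleteSpace E] {c : Cov κ}

theorem CF.lipt {R : κ → ℂ × E → E} (hR : CF c R)
    (h1 : (fun x : (κ × ℂ) × E => R x.1.1 (x.1.2, x.2)) =O[c.F ×ˢ 𝓝 (0 : E)]
      fun x => ‖c.τ x.1.2‖ ^ 1)
    {β : Type*} {m : Filter β} {π : β → κ × ℂ} {x y : β → E}
    (hπ : Tendsto π m c.F) (hx : Tendsto x m (𝓝 0)) (hy : Tendsto y m (𝓝 0)) :
    (fun s => R (π s).1 ((π s).2, x s) - R (π s).1 ((π s).2, y s)) =O[m]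
      fun s => ‖c.τ (π s).2‖ ^ 1 * ‖x s - y s‖ :=
  lipO (G := fun q y => R q.1 (q.2, y)) (b := fun q => ‖c.τ q.2‖ ^ 1) hR.sl h1 hπ hx hy

theorem CF.stab {R : κ → ℂ × E → E} (hR : CF c R)
    (h1 : (fun x : (κ × ℂ) × E => R x.1.1 (x.1.2, x.2)) =O[c.F ×ˢ 𝓝 (0 : E)]
      fun x => ‖c.τ x.1.2‖ ^ 1)
    {β : Type*} {m : Filter β} {π : β → κ × ℂ} {x y : β → E}
    (hπ : Tendsto π m c.F) (hx : Tendsto x m (𝓝 0)) (hy : Tendsto y m (𝓝 0)) :
    (fun s => x s - y s) =O[m]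
      fun s => (x s - R (π s).1 ((π s).2, x s)) - (y s - R (π s).1 ((π s).2, y s)) := by
  obtain ⟨C, hC, h⟩ := (hR.lipt h1 hπ hx hy).exists_pos
  have ht : ∀ᶠ s in m, ‖c.τ (π s).2‖ < 1 / (2 * C) := by
    have := (c.tF.comp hπ).norm
    rw [norm_zero] at this
    exact this.eventually (gt_mem_nhds (by positivity))
  refine IsBigO.of_bound 2 ?_
  filter_upwards [h.bound, ht] with s hs hs'
  rw [pow_one, Real.norm_of_nonneg (by positivity)] at hs
  have h2 : C * ‖c.τ (π s).2‖ ≤ 1 / 2 := by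
    rw [lt_div_iff₀ (by positivity)] at hs'
    linarith
  have h3 : x s - y s = ((x s - R (π s).1 ((π s).2, x s)) - (y s - R (π s).1 ((π s).2, y s))) +
      (R (π s).1 ((π s).2, x s) - R (π s).1 ((π s).2, y s)) := by abel
  have h4 := norm_add_le ((x s - R (π s).1 ((π s).2, x s)) - (y s - R (π s).1 ((π s).2, y s)))
    (R (π s).1 ((π s).2, x s) - R (π s).1 ((π s).2, y s))
  rw [← h3] at h4
  nlinarith [norm_nonneg (x s - y s)]

/-- Picard iterates -/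
def it (R : κ → ℂ × E → E) : ℕ → κ → ℂ × E → E
  | 0 => fun _ x => x.2
  | n + 1 => fun k x => x.2 + R k (x.1, it R n k x)

theorem tR {R : κ → ℂ × E → E}
    (h1 : (fun x : (κ × ℂ) × E => R x.1.1 (x.1.2, x.2)) =O[c.F ×ˢ 𝓝 (0 : E)]
      fun x => ‖c.τ x.1.2‖ ^ 1) :
    Tendsto (fun x : (κ × ℂ) × E => R x.1.1 (x.1.2, x.2)) (c.F ×ˢ 𝓝 (0 : E)) (𝓝 0) := by
  refine h1.trans_tendsto ?_
  simpa using ((c.tF.comp tendsto_fst).norm :
    Tendsto (fun x : (κ × ℂ) × E => ‖c.τ x.1.2‖) (c.F ×ˢ 𝓝 (0 : E)) _)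

theorem it_cf {R : κ → ℂ × E → E} (hR : CF c R)
    (h1 : (fun x : (κ × ℂ) × E => R x.1.1 (x.1.2, x.2)) =O[c.F ×ˢ 𝓝 (0 : E)]
      fun x => ‖c.τ x.1.2‖ ^ 1) (n : ℕ) : CF c (it R n) ∧
      Tendsto (fun x : (κ × ℂ) × E => it R n x.1.1 (x.1.2, x.2)) (c.F ×ˢ 𝓝 (0 : E)) (𝓝 0) := by
  have h0 : CF c (fun (_ : κ) (x : ℂ × E) => x.2) :=
    CF.of_ana (K := fun p : ℂ × E => p.2) analyticAt_snd
  induction n with
  | zero => exact ⟨h0, tendsto_snd⟩
  | succ n ih =>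
    refine ⟨h0.add (hR.comp ih.1 ih.2), ?_⟩
    have := tendsto_snd.add ((tR h1).comp (tendsto_fst.prodMk ih.2))
    rw [add_zero] at this
    exact this

theorem CF.fix {R : κ → ℂ × E → E} (hR : CF c R)
    (h1 : (fun x : (κ × ℂ) × E => R x.1.1 (x.1.2, x.2)) =O[c.F ×ˢ 𝓝 (0 : E)]
      fun x => ‖c.τ x.1.2‖ ^ 1) :
    ∃ ψ : κ → ℂ × E → E, CF c ψ ∧
      Tendsto (fun x : (κ × ℂ) × E => ψ x.1.1 (x.1.2, x.2)) (c.F ×ˢ 𝓝 (0 : E)) (𝓝 0) ∧
      ∀ᶠ x in c.F ×ˢ 𝓝 (0 : E),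
        ψ x.1.1 (x.1.2, x.2) = x.2 + R x.1.1 (x.1.2, ψ x.1.1 (x.1.2, x.2)) := by
  obtain ⟨r₁, hr₁, C, hC, h2⟩ :=
    unif_ball (G := fun (q : κ × ℂ) y => R q.1 (q.2, y)) (b := fun q : κ × ℂ => ‖c.τ q.2‖ ^ 1)
      hR.sl h1
  obtain ⟨r₂, hr₂, h3⟩ := ev_ball hR.hol
  set ρ := min r₁ r₂ with hρ
  have hρ0 : 0 < ρ := lt_min hr₁ hr₂
  have h4 : ∀ᶠ q in c.F, C * ‖c.τ q.2‖ < min (1 / 2) (ρ / 4) := by
    have := c.tF.norm.const_mul C
    rw [norm_zero, mul_zero] at this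
    exact this.eventually (gt_mem_nhds (lt_min (by norm_num) (by positivity)))
  obtain ⟨t₀, ht₀, hg⟩ := c.evF.1 (h2.and (h3.and h4))
  set U : κ → Set (ℂ × E) := fun k => (c.Ω k ∩ c.τ ⁻¹' ball 0 t₀) ×ˢ ball (0 : E) (ρ / 4) with hU
  have hUo : ∀ k, IsOpen (U k) := fun k =>
    ((c.diff k).continuousOn.isOpen_inter_preimage (c.isOpen k) isOpen_ball).prod isOpen_ball
  have hA : ∀ k, ∀ p ∈ U k, ∀ z ∈ ball (0 : E) ρ, AnalyticAt ℂ (R k) (p.1, z) ∧
      ‖R k (p.1, z)‖ ≤ ρ / 4 ∧ ‖fderiv ℂ (fun y => R k (p.1, y)) z‖ ≤ 1 / 2 := by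
    intro k p hp z hz
    obtain ⟨a1, a2, a3⟩ := hg k p.1 hp.1.1 (mem_ball_zero_iff.1 hp.1.2)
    obtain ⟨-, b1, b2⟩ := a1 z (ball_subset_ball (min_le_left _ _) hz)
    rw [pow_one, norm_norm] at b1 b2
    exact ⟨a2 z (ball_subset_ball (min_le_right _ _) hz),
      b1.trans (a3.le.trans (min_le_right _ _)), b2.trans (a3.le.trans (min_le_left _ _))⟩
  have hL : ∀ k, ∀ p ∈ U k, ∀ y ∈ ball (0 : E) ρ, ∀ z ∈ ball (0 : E) ρ,
      ‖R k (p.1, z) - R k (p.1, y)‖ ≤ 1 / 2 * ‖z - y‖ := fun k p hp y hy z hz =>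
    (convex_ball (0 : E) ρ).norm_image_sub_le_of_norm_fderiv_le (𝕜 := ℂ)
      (f := fun y => R k (p.1, y)) (fun z hz => (slice_ana (hA k p hp z hz).1).differentiableAt)
      (fun z hz => (hA k p hp z hz).2.2) hy hz
  have hb : ∀ k, ∀ p ∈ U k, ∀ n, ‖it R n k p‖ ≤ ρ / 2 := by
    intro k p hp n
    have hp2 : ‖p.2‖ < ρ / 4 := mem_ball_zero_iff.1 hp.2
    induction n with
    | zero => simp only [it]; linarith
    | succ n ih =>
      have := (hA k p hp _ (mem_ball_zero_iff.2 (by linarith : ‖it R n k p‖ < ρ))).2.1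
      simp only [it]
      linarith [norm_add_le p.2 (R k (p.1, it R n k p))]
  have hb' : ∀ k, ∀ p ∈ U k, ∀ n, it R n k p ∈ ball (0 : E) ρ := fun k p hp n =>
    mem_ball_zero_iff.2 (by linarith [hb k p hp n])
  have hd : ∀ k, ∀ p ∈ U k, ∀ n, dist (it R n k p) (it R (n + 1) k p) ≤ (2 * ρ) / 2 / 2 ^ n := by
    intro k p hp n
    induction n with
    | zero =>
      rw [dist_eq_norm]
      linarith [norm_sub_le (it R 0 k p) (it R (0 + 1) k p), hb k p hp 0, hb k p hp (0 + 1)]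
    | succ n ih =>
      have := hL k p hp _ (hb' k p hp (n + 1)) _ (hb' k p hp n)
      rw [dist_eq_norm] at ih ⊢
      have e : it R (n + 1) k p - it R (n + 1 + 1) k p =
          R k (p.1, it R n k p) - R k (p.1, it R (n + 1) k p) := by
        simp only [it]; abel
      rw [e, pow_succ, ← div_div]
      linarith
  set ψ : κ → ℂ × E → E := fun k p => limUnder atTop (fun n => it R n k p) with hψ
  have hlim : ∀ k, ∀ p ∈ U k, Tendsto (fun n => it R n k p) atTop (𝓝 (ψ k p)) := fun k p hp =>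
    (cauchySeq_of_le_geometric_two (hd k p hp)).tendsto_limUnder
  have hψb : ∀ k, ∀ p ∈ U k, ψ k p ∈ ball (0 : E) ρ := fun k p hp => by
    have := le_of_tendsto' (hlim k p hp).norm (hb k p hp)
    exact mem_ball_zero_iff.2 (by linarith)
  have hfix : ∀ k, ∀ p ∈ U k, ψ k p = p.2 + R k (p.1, ψ k p) := fun k p hp => by
    have a1 : Tendsto (fun n => it R (n + 1) k p) atTop (𝓝 (ψ k p)) :=
      (hlim k p hp).comp (tendsto_add_atTop_nat 1)
    have a2 : Tendsto (fun n => p.2 + R k (p.1, it R n k p)) atTop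
        (𝓝 (p.2 + R k (p.1, ψ k p))) :=
      ((slice_ana (hA k p hp _ (hψb k p hp)).1).continuousAt.tendsto.comp
        (hlim k p hp)).const_add _
    exact tendsto_nhds_unique a1 a2
  have hita : ∀ k n, ∀ p ∈ U k, AnalyticAt ℂ (it R n k) p := by
    intro k n p hp
    induction n with
    | zero => exact analyticAt_snd
    | succ n ih =>
      exact analyticAt_snd.add (AnalyticAt.comp (g := R k)
        (f := fun p : ℂ × E => (p.1, it R n k p)) (hA k p hp _ (hb' k p hp n)).1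
        (analyticAt_fst.prod ih))
  have hψa : ∀ k, AnalyticOnNhd ℂ (ψ k) (U k) := fun k => by
    refine R266.SCV.analyticOnNhd_of_tendstoLocallyUniformlyOn (φ := atTop)
      (f := fun n => it R n k) (hUo k) (TendstoUniformlyOn.tendstoLocallyUniformlyOn ?_)
      (Eventually.of_forall fun n p hp => (hita k n p hp).differentiableAt.differentiableWithinAt)
    rw [Metric.tendstoUniformlyOn_iff]
    intro e he
    have : Tendsto (fun n : ℕ => (2 * ρ) / 2 ^ n) atTop (𝓝 0) :=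
      tendsto_const_nhds.div_atTop (tendsto_pow_atTop_atTop_of_one_lt one_lt_two)
    filter_upwards [this.eventually (gt_mem_nhds he)] with n hn p hp
    rw [dist_comm]
    exact (dist_le_of_le_geometric_two_of_tendsto (hd k p hp) (hlim k p hp) n).trans_lt hn
  have hev : ∀ᶠ x in c.F ×ˢ 𝓝 (0 : E), (x.1.2, x.2) ∈ U x.1.1 :=
    ev_of_ball (by positivity : 0 < ρ / 4)
      (c.evF.2 ⟨t₀, ht₀, fun k w hw ht z hz => ⟨⟨hw, mem_ball_zero_iff.2 ht⟩, hz⟩⟩)
  have hfe : ∀ᶠ x in c.F ×ˢ 𝓝 (0 : E),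
      ψ x.1.1 (x.1.2, x.2) = x.2 + R x.1.1 (x.1.2, ψ x.1.1 (x.1.2, x.2)) :=
    hev.mono fun x hx => hfix _ _ hx
  have hRψ : (fun x : (κ × ℂ) × E => R x.1.1 (x.1.2, ψ x.1.1 (x.1.2, x.2)))
      =O[c.F ×ˢ 𝓝 (0 : E)] fun x => ‖c.τ x.1.2‖ ^ 1 := by
    refine IsBigO.of_bound C ?_
    filter_upwards [hev, tendsto_fst.eventually h2] with x hx hx2
    exact (hx2 _ (ball_subset_ball (min_le_left _ _) (hψb _ _ hx))).2.1
  have ht0 : Tendsto (fun x : (κ × ℂ) × E => ψ x.1.1 (x.1.2, x.2)) (c.F ×ˢ 𝓝 (0 : E)) (𝓝 0) := by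
    have a1 : Tendsto (fun x : (κ × ℂ) × E => R x.1.1 (x.1.2, ψ x.1.1 (x.1.2, x.2)))
        (c.F ×ˢ 𝓝 (0 : E)) (𝓝 0) := by
      refine hRψ.trans_tendsto ?_
      simpa using ((c.tF.comp tendsto_fst).norm :
        Tendsto (fun x : (κ × ℂ) × E => ‖c.τ x.1.2‖) (c.F ×ˢ 𝓝 (0 : E)) _)
    have := tendsto_snd.add a1
    rw [add_zero] at this
    exact this.congr' (hfe.mono fun x hx => hx.symm)
  have happ : ∀ n, (fun x : (κ × ℂ) × E => ψ x.1.1 (x.1.2, x.2) - it R n x.1.1 (x.1.2, x.2))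
      =O[c.F ×ˢ 𝓝 (0 : E)] fun x => ‖c.τ x.1.2‖ ^ (n + 1) := by
    intro n
    induction n with
    | zero =>
      refine hRψ.congr' ?_ EventuallyEq.rfl
      filter_upwards [hfe] with x hx
      simp only [it]
      exact eq_sub_of_add_eq' hx.symm
    | succ n ih =>
      have a1 := (hR.lipt h1 tendsto_fst ht0 (it_cf hR h1 n).2).trans
        ((isBigO_refl _ _).mul ih.norm_left)
      refine a1.congr' ?_ (Eventually.of_forall fun x => by ring)
      filter_upwards [hfe] with x hx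
      simp only [it]
      nth_rewrite 2 [hx]
      abel
  refine ⟨ψ, ⟨hev.mono fun x hx => hψa _ _ hx, ?_, fun N => ?_⟩, ht0, hfe⟩
  · obtain ⟨ν, a1⟩ := hR.jump
    have a2 := hR.stab h1 (c.π₁.comp tendsto_fst) (ht0.comp (tJ₁ c)) (ht0.comp (tJ₂ c))
    have a3 := a1.comp_tendsto (tendsto_fst.prodMk (ht0.comp (tJ₂ c)))
    refine ⟨ν, a2.trans (a3.congr' ?_ EventuallyEq.rfl)⟩
    filter_upwards [(tJ₁ c).eventually hfe, (tJ₂ c).eventually hfe] with x hx hx'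
    simp only [Function.comp] at hx hx' ⊢
    rw [sub_eq_of_eq_add hx]
    nth_rewrite 3 [hx']
    abel
  · obtain ⟨K, hK, a1⟩ := (it_cf hR h1 N).1.asy N
    refine ⟨K, hK, (((happ N).trans (c.powO tendsto_fst (Nat.le_succ N))).add a1).congr_left
      fun x => ?_⟩
    abel

end Crest.Agent.N250.Hn
end
private theorem rz_2914f65827 : type_of% @_root_.Crest.Agent.N250.Hn.it.eq_def := @_root_.Crest.Agent.N250.Hn.it.eq_def -- L52
private theorem rz_ae6ee982aa : type_of% @_root_.Crest.Agent.N250.Hn.it.eq_1 := @_root_.Crest.Agent.N250.Hn.it.eq_1 -- L52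
end

-- ▼ part N250/Hn/Pt
section

/-! Curves of class `CC`, formal points, vanishing at a formal point, order, the Taylor case. -/

set_option autoImplicit false
set_option linter.unusedSectionVars false

open Filter Topology Asymptotics Metric Set

noncomputable section

namespace Crest.Agent.N250.Hn

variable {κ : Type*} {E V : Type*} [NormedAddCommGroup E] [NormedSpace ℂ E]
  [FiniteDimensional ℂ E] [NormedAddCommGroup V] [NormedSpace ℂ V] [CompleteSpace V] {c : Cov κ}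

/-- curves: holomorphic pieces, small jumps, expansions -/
structure CC (c : Cov κ) (Z : κ → ℂ → V) : Prop where
  hol : ∀ᶠ q in c.F, AnalyticAt ℂ (Z q.1) q.2
  jump : ∃ ν : ℕ, (fun q : κ × κ × ℂ => Z q.1 q.2.2 - Z q.2.1 q.2.2) =O[c.J] c.g ν
  asy : ∀ N : ℕ, ∃ K : ℂ → V, AnalyticAt ℂ K 0 ∧
    (fun q : κ × ℂ => Z q.1 q.2 - K (c.τ q.2)) =O[c.F] fun q => ‖c.τ q.2‖ ^ N

theorem CC.cf {Z : κ → ℂ → V} (h : CC c Z) : CF c (fun k (x : ℂ × E) => Z k x.1) where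
  hol := (tendsto_fst.eventually h.hol).mono fun x hx =>
    AnalyticAt.comp (g := Z x.1.1) (f := fun p : ℂ × E => p.1) hx analyticAt_fst
  jump := h.jump.imp fun _ h => h.comp_tendsto tendsto_fst
  asy N := by
    obtain ⟨K, hK, h1⟩ := h.asy N
    exact ⟨fun p => K p.1, AnalyticAt.comp (g := K) (f := fun p : ℂ × E => p.1) hK analyticAt_fst,
      h1.comp_tendsto tendsto_fst⟩

theorem t0 {α : Type*} (l : Filter α) : Tendsto (fun a => (a, (0 : E))) l (l ×ˢ 𝓝 0) :=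
  tendsto_id.prodMk tendsto_const_nhds

theorem CF.cc {F : κ → ℂ × E → V} (h : CF c F) : CC c (fun k w => F k (w, 0)) where
  hol := ((t0 _).eventually h.hol).mono fun q hq =>
    AnalyticAt.comp (g := F q.1) (f := fun w : ℂ => (w, (0 : E))) hq
      (analyticAt_id.prod analyticAt_const)
  jump := h.jump.imp fun _ h => h.comp_tendsto (t0 _)
  asy N := by
    obtain ⟨K, hK, h1⟩ := h.asy N
    exact ⟨fun t => K (t, 0), AnalyticAt.comp (g := K) (f := fun w : ℂ => (w, (0 : E))) hK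
      (analyticAt_id.prod analyticAt_const), h1.comp_tendsto (t0 _)⟩

/-- a family evaluated along a curve -/
theorem CF.along {F : κ → ℂ × E → V} (h : CF c F) {Z : κ → ℂ → E} (hZ : CC c Z)
    (h0 : Tendsto (fun q : κ × ℂ => Z q.1 q.2) c.F (𝓝 0)) : CC c (fun k w => F k (w, Z k w)) :=
  (h.comp (hZ.cf (E := ℂ)) (h0.comp tendsto_fst)).cc

theorem CC.of_ana {K : ℂ → V} (hK : AnalyticAt ℂ K 0) : CC c (fun _ w => K (c.τ w)) :=
  (CF.of_ana (c := c) (K := fun p : ℂ × ℂ => K p.1)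
    (AnalyticAt.comp (g := K) (f := fun p : ℂ × ℂ => p.1) hK analyticAt_fst)).cc

theorem div1 {f : ℂ → V} (hf : AnalyticAt ℂ f 0) (m : ℕ)
    (h : (fun q : κ × ℂ => f (c.τ q.2)) =O[c.F] fun q => ‖c.τ q.2‖ ^ m) :
    ∃ g : ℂ → V, AnalyticAt ℂ g 0 ∧ ∀ᶠ q in c.F, f (c.τ q.2) = c.τ q.2 ^ m • g (c.τ q.2) := by
  obtain ⟨K, hK, h1⟩ := div_pow (E := ℂ) c.tF c.neF m (K := fun p => f p.1)
    (AnalyticAt.comp (g := f) (f := fun p : ℂ × ℂ => p.1) hf analyticAt_fst)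
    (h.comp_tendsto tendsto_fst)
  exact ⟨fun t => K (t, 0), AnalyticAt.comp (g := K) (f := fun w : ℂ => (w, (0 : ℂ))) hK
    (analyticAt_id.prod analyticAt_const), ((tT c).comp (t0 _)).eventually h1⟩

theorem tpow (c : Cov κ) (n : ℕ) :
    Tendsto (fun q : κ × ℂ => ‖c.τ q.2‖ ^ (n + 1)) c.F (𝓝 0) := by
  simpa using c.tF.norm.pow (n + 1)

/-- cancel a power of `t` -/
theorem cancelO {β : Type*} {l : Filter β} {π : β → κ × ℂ} (hπ : Tendsto π l c.F) {f : β → V}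
    {m n : ℕ} (h : (fun s => c.τ (π s).2 ^ m • f s) =O[l] fun s => ‖c.τ (π s).2‖ ^ (m + n)) :
    f =O[l] fun s => ‖c.τ (π s).2‖ ^ n := by
  obtain ⟨C, h⟩ := h.bound
  refine IsBigO.of_bound C ?_
  filter_upwards [h, hπ.eventually c.neF] with s hs hn
  rw [norm_smul, norm_pow, Real.norm_of_nonneg (by positivity), pow_add] at hs
  rw [Real.norm_of_nonneg (by positivity)]
  have : 0 < ‖c.τ (π s).2‖ ^ m := pow_pos (norm_pos_iff.2 hn) m
  nlinarith

theorem smulO {β : Type*} {l : Filter β} {π : β → κ × ℂ} {f : β → V}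
    {n : ℕ} (m : ℕ) (h : f =O[l] fun s => ‖c.τ (π s).2‖ ^ n) :
    (fun s => c.τ (π s).2 ^ m • f s) =O[l] fun s => ‖c.τ (π s).2‖ ^ (m + n) := by
  have h2 : (fun s => c.τ (π s).2 ^ m) =O[l] fun s => ‖c.τ (π s).2‖ ^ m :=
    IsBigO.of_bound 1 (by simp)
  exact (h2.smul h).congr_right fun s => by rw [smul_eq_mul, pow_add]

theorem anaO {f : ℂ → V} (hf : AnalyticAt ℂ f 0) :
    (fun q : κ × ℂ => f (c.τ q.2) - f 0) =O[c.F] fun q => ‖c.τ q.2‖ ^ 1 := by
  have := (hf.differentiableAt.isBigO_sub.comp_tendsto c.tF).norm_right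
  simpa [Function.comp_def] using this

/-- a formal point: coherent analytic approximations -/
structure FP (c : Cov κ) (p : ℕ → ℂ → V) : Prop where
  ana : ∀ N, AnalyticAt ℂ (p N) 0
  zero : ∀ N, p N 0 = 0
  coh : ∀ N, (fun q : κ × ℂ => p (N + 1) (c.τ q.2) - p N (c.τ q.2)) =O[c.F]
    fun q => ‖c.τ q.2‖ ^ N

namespace FP

variable {p : ℕ → ℂ → V}

theorem coh' (h : FP c p) {M N : ℕ} (hMN : M ≤ N) :
    (fun q : κ × ℂ => p N (c.τ q.2) - p M (c.τ q.2)) =O[c.F] fun q => ‖c.τ q.2‖ ^ M := by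
  induction N, hMN using Nat.le_induction with
  | base => simpa using isBigO_zero _ _
  | succ N hMN ih =>
    refine (((h.coh N).trans (c.powO tendsto_id hMN)).add ih).congr_left fun q => ?_
    abel

theorem coh₂ (h : FP c p) {M N N' : ℕ} (h1 : M ≤ N) (h2 : M ≤ N') :
    (fun q : κ × ℂ => p N (c.τ q.2) - p N' (c.τ q.2)) =O[c.F] fun q => ‖c.τ q.2‖ ^ M := by
  refine ((h.coh' h1).sub (h.coh' h2)).congr_left fun q => ?_
  abel

theorem one (h : FP c p) (N : ℕ) :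
    (fun q : κ × ℂ => p N (c.τ q.2)) =O[c.F] fun q => ‖c.τ q.2‖ ^ 1 := by
  simpa [h.zero N] using anaO (c := c) (h.ana N)

theorem tend (h : FP c p) (N : ℕ) : Tendsto (fun q : κ × ℂ => p N (c.τ q.2)) c.F (𝓝 0) :=
  (h.one N).trans_tendsto (tpow c 0)

end FP

/-- the family `h` vanishes at the formal point `p` -/
def Van (c : Cov κ) (h : κ → ℂ × E → V) (p : ℕ → ℂ → E) : Prop :=
  ∀ N, (fun q : κ × ℂ => h q.1 (q.2, p N (c.τ q.2))) =O[c.F] fun q => ‖c.τ q.2‖ ^ N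

section

variable [CompleteSpace E] {h : κ → ℂ × E → V} {p : ℕ → ℂ → E}

theorem van_of (hh : CF c h) (hp : FP c p) (H : ∀ N, ∃ N', N ≤ N' ∧
    (fun q : κ × ℂ => h q.1 (q.2, p N' (c.τ q.2))) =O[c.F] fun q => ‖c.τ q.2‖ ^ N) :
    Van c h p := by
  intro N
  obtain ⟨N', h1, h2⟩ := H N
  refine (h2.sub ((hh.lip tendsto_id (hp.tend N') (hp.tend N)).trans (hp.coh' h1))).congr_left
    fun q => ?_
  simp

theorem Van.le (hv : Van c h p) {M N : ℕ} (hMN : M ≤ N) :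
    (fun q : κ × ℂ => h q.1 (q.2, p N (c.τ q.2))) =O[c.F] fun q => ‖c.τ q.2‖ ^ M :=
  (hv N).trans (c.powO tendsto_id hMN)

theorem order (hh : CF c h) (hp : FP c p) (hv : ¬ Van c h p) : ∃ (ν : ℕ) (u : V), u ≠ 0 ∧
    ∀ N, ν + 1 ≤ N → (fun q : κ × ℂ => h q.1 (q.2, p N (c.τ q.2)) - c.τ q.2 ^ ν • u) =O[c.F]
      fun q => ‖c.τ q.2‖ ^ (ν + 1) := by
  obtain ⟨N₀, h0⟩ := not_forall.1 hv
  obtain ⟨K, hK, h1⟩ := hh.asy N₀
  have h2 := h1.comp_tendsto (tendsto_id.prodMk (hp.tend N₀))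
  have hφ : AnalyticAt ℂ (fun t => K (t, p N₀ t)) 0 := by
    refine AnalyticAt.comp (g := K) (f := fun t => (t, p N₀ t)) ?_ (analyticAt_id.prod (hp.ana N₀))
    rw [hp.zero]; exact hK
  have hne : ¬ ∀ᶠ t in 𝓝 (0 : ℂ), K (t, p N₀ t) = 0 := by
    intro hz
    refine h0 (h2.congr' ?_ EventuallyEq.rfl)
    filter_upwards [c.tF.eventually hz] with q hq
    simp [hq]
  obtain ⟨ν, g, hg, hg0, hφg⟩ := hφ.exists_eventuallyEq_pow_smul_nonzero_iff.2 hne
  have h3 : ∀ᶠ q in c.F, K (c.τ q.2, p N₀ (c.τ q.2)) = c.τ q.2 ^ ν • g (c.τ q.2) := by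
    simpa using c.tF.eventually hφg
  have hν : ν + 1 ≤ N₀ := by
    by_contra hlt
    have hgO : (fun q : κ × ℂ => g (c.τ q.2)) =O[c.F] fun q => ‖c.τ q.2‖ ^ 0 := by
      simpa using (hg.continuousAt.tendsto.comp c.tF).isBigO_one ℝ
    have h4 := (smulO (π := id) ν hgO).trans (c.powO tendsto_id (by omega : N₀ ≤ ν + 0))
    refine h0 ((h2.add h4).congr' ?_ EventuallyEq.rfl)
    filter_upwards [h3] with q hq
    simp [hq]
  refine ⟨ν, g 0, hg0, fun N hN => ?_⟩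
  have h5 := (hh.lip tendsto_id (hp.tend N) (hp.tend N₀)).trans (hp.coh₂ hN hν)
  refine ((h5.add (h2.trans (c.powO tendsto_id hν))).add
    (smulO (π := id) ν (anaO hg))).congr' ?_ EventuallyEq.rfl
  filter_upwards [h3] with q hq
  simp [hq, smul_sub]

end

section Coord

variable {ι : Type*} [Fintype ι] [DecidableEq ι]

/-- projection on the coordinates in `S` -/
def P (S : Finset ι) : (ι → ℂ) →L[ℂ] (ι → ℂ) :=
  ContinuousLinearMap.pi fun i => if i ∈ S then ContinuousLinearMap.proj i else 0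

theorem P_apply (S : Finset ι) (z : ι → ℂ) (i : ι) : P S z i = if i ∈ S then z i else 0 := by
  unfold P
  by_cases h : i ∈ S <;> simp [h]

theorem P_eq_sum (S : Finset ι) (z : ι → ℂ) :
    P S z = ∑ i ∈ S, z i • (Pi.single i (1 : ℂ) : ι → ℂ) := by
  ext j
  simp [P_apply, Finset.sum_apply, Pi.single_apply]

/-- partial derivative -/
def pd (i : ι) (g : κ → ℂ × (ι → ℂ) → ℂ) : κ → ℂ × (ι → ℂ) → ℂ :=
  fun k x => Dz (g k) x (Pi.single i 1)

theorem CF.pd {g : κ → ℂ × (ι → ℂ) → ℂ} (hg : CF c g) (i : ι) : CF c (pd i g) :=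
  hg.dz.clm (ContinuousLinearMap.apply ℂ ℂ (Pi.single i 1 : ι → ℂ))

theorem norm_comp_P (L : (ι → ℂ) →L[ℂ] ℂ) (S : Finset ι) :
    ‖L.comp (P S)‖ ≤ ∑ i ∈ S, ‖L (Pi.single i 1)‖ := by
  refine ContinuousLinearMap.opNorm_le_bound _ (Finset.sum_nonneg fun _ _ => norm_nonneg _)
    fun z => ?_
  rw [ContinuousLinearMap.comp_apply, P_eq_sum, map_sum, Finset.sum_mul]
  refine (norm_sum_le _ _).trans (Finset.sum_le_sum fun i _ => ?_)
  rw [map_smul, norm_smul, mul_comm]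
  exact mul_le_mul_of_nonneg_left (norm_le_pi_norm z i) (norm_nonneg _)

/-- the Taylor case: all derivatives vanish at the formal point -/
theorem flatA {S : Finset ι} {p : ℕ → ℂ → ι → ℂ} (hp : FP c p)
    (hS : ∀ N t, P S (p N t) = p N t) {D : Set (κ → ℂ × (ι → ℂ) → ℂ)}
    (hD : ∀ g ∈ D, CF c g ∧ Van c g p ∧ ∀ i ∈ S, pd i g ∈ D) (M N : ℕ) :
    ∀ g ∈ D, (fun q : κ × ℂ => g q.1 (q.2, p M (c.τ q.2))) =O[c.F] fun q => ‖c.τ q.2‖ ^ N := by
  have hT : Tendsto (fun x : (κ × ℂ) × (ι → ℂ) => (x.1, p N (c.τ x.1.2) + P S x.2))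
      (c.F ×ˢ 𝓝 0) (c.F ×ˢ 𝓝 0) := by
    refine tendsto_fst.prodMk ?_
    have := ((hp.tend N).comp tendsto_fst).add
      (((P S).continuous.tendsto' 0 0 (map_zero _)).comp
        (tendsto_snd : Tendsto (Prod.snd : (κ × ℂ) × (ι → ℂ) → _) (c.F ×ˢ 𝓝 0) _))
    rw [add_zero] at this
    exact this
  have key : ∀ n, ∀ g ∈ D, (fun x : (κ × ℂ) × (ι → ℂ) =>
      g x.1.1 (x.1.2, p N (c.τ x.1.2) + P S x.2)) =O[c.F ×ˢ 𝓝 0]
        fun x => ‖c.τ x.1.2‖ ^ N + ‖x.2‖ ^ n := by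
    intro n
    induction n with
    | zero =>
      intro g hg
      refine ((hD g hg).1.bdd.comp_tendsto hT).trans (IsBigO.of_bound 1 ?_)
      refine Eventually.of_forall fun x => ?_
      rw [Real.norm_of_nonneg (r := ‖c.τ x.1.2‖ ^ N + ‖x.2‖ ^ 0) (by positivity)]
      simp
    | succ n ih =>
      intro g hg
      obtain ⟨h1, h2, h3⟩ := hD g hg
      have h4 := IsBigO.sum (s := S) fun i hi => (ih _ (h3 i hi)).norm_left
      obtain ⟨C, hC, h4⟩ := h4.exists_pos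
      obtain ⟨C', hC', h5⟩ := (h2 N).exists_pos
      obtain ⟨r, hr, h6⟩ := ev_ball (h4.bound.and (hT.eventually h1.sl))
      refine IsBigO.of_bound (C + C') (ev_of_ball (lt_min hr one_pos) ?_)
      filter_upwards [h6, h5.bound] with q hq hq' y hy
      have hy1 : ‖y‖ < r := (mem_ball_zero_iff.1 hy).trans_le (min_le_left _ _)
      have hy2 : ‖y‖ ≤ 1 := ((mem_ball_zero_iff.1 hy).trans_le (min_le_right _ _)).le
      have hsub : ∀ z ∈ closedBall (0 : ι → ℂ) ‖y‖, z ∈ ball (0 : ι → ℂ) r := fun z hz =>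
        mem_ball_zero_iff.2 ((mem_closedBall_zero_iff.1 hz).trans_lt hy1)
      have h7 := (convex_closedBall (0 : ι → ℂ) ‖y‖).norm_image_sub_le_of_norm_hasFDerivWithin_le
        (𝕜 := ℂ) (f := fun z => g q.1 (q.2, p N (c.τ q.2) + P S z))
        (f' := fun z => (Dz (g q.1) (q.2, p N (c.τ q.2) + P S z)).comp (P S))
        (C := C * (‖c.τ q.2‖ ^ N + ‖y‖ ^ n)) (x := 0) (y := y)
        (fun z hz => HasFDerivAt.hasFDerivWithinAt (HasFDerivAt.comp (g := fun y => g q.1 (q.2, y))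
          (f := fun z => p N (c.τ q.2) + P S z) z (hq z (hsub z hz)).2.hasFDerivAt
          ((P S).hasFDerivAt.const_add _)))
        (fun z hz => by
          have h8 := (hq z (hsub z hz)).1
          rw [Finset.sum_apply] at h8
          refine (norm_comp_P _ S).trans ((le_abs_self _).trans (h8.trans ?_))
          rw [Real.norm_of_nonneg (by positivity)]
          have := mem_closedBall_zero_iff.1 hz
          gcongr)
        (mem_closedBall_self (norm_nonneg _)) (mem_closedBall_zero_iff.2 le_rfl)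
      rw [Real.norm_of_nonneg (by positivity)] at hq' ⊢
      simp only [map_zero, add_zero, sub_zero] at h7
      have h8 := norm_le_norm_add_norm_sub' (g q.1 (q.2, p N (c.τ q.2) + P S y))
        (g q.1 (q.2, p N (c.τ q.2)))
      have h9 : ‖c.τ q.2‖ ^ N * ‖y‖ ≤ ‖c.τ q.2‖ ^ N := mul_le_of_le_one_right (by positivity) hy2
      have h10 : 0 ≤ ‖y‖ ^ n * ‖y‖ := by positivity
      rw [pow_succ]
      nlinarith
  intro g hg
  have hδ : (fun q : κ × ℂ => p M (c.τ q.2) - p N (c.τ q.2)) =O[c.F] fun q => ‖c.τ q.2‖ ^ 1 :=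
    (hp.one M).sub (hp.one N)
  have h1 := (key N g hg).comp_tendsto (tendsto_id.prodMk (hδ.trans_tendsto (tpow c 0)))
  refine (h1.congr_left fun q => ?_).trans ((isBigO_refl _ _).add ?_)
  · simp [hS]
  · simpa using hδ.norm_left.pow N

end Coord

end Crest.Agent.N250.Hn
end
end

-- ▼ part N250/Hn/Main
section

/-! Hensel induction on the free coordinates: a formal common zero of a family in the class `CF`
is realised by a curve of class `CC` along which all members are flat. -/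

set_option autoImplicit false
set_option linter.unusedSectionVars false

open Filter Topology Asymptotics Metric Set

noncomputable section

namespace Crest.Agent.N250.Hn

variable {κ : Type*} {c : Cov κ} {ι : Type*} [Fintype ι] [DecidableEq ι]

theorem P_P (S : Finset ι) (z : ι → ℂ) : P S (P S z) = P S z := by
  ext i; by_cases h : i ∈ S <;> simp [P_apply, h]

theorem P_erase {S : Finset ι} {i : ι} (hi : i ∈ S) (z : ι → ℂ) :
    P S z = P (S.erase i) z + z i • (Pi.single i (1 : ℂ) : ι → ℂ) := by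
  ext j
  by_cases h : j = i
  · subst h; simp [P_apply, hi]
  · simp [P_apply, h]


/-- the pairing of a gradient in the directions of `S` with a vector -/
def Bl (S : Finset ι) : (S → ℂ) →L[ℂ] (ι → ℂ) →L[ℂ] ℂ :=
  ∑ j : S, (ContinuousLinearMap.proj j : (S → ℂ) →L[ℂ] ℂ).smulRight
    (ContinuousLinearMap.proj j.1 : (ι → ℂ) →L[ℂ] ℂ)

theorem Bl_apply (S : Finset ι) (u : S → ℂ) (y : ι → ℂ) : Bl S u y = ∑ j : S, u j * y j := by
  simp [Bl]

theorem Bl_P (S : Finset ι) (u : S → ℂ) (y : ι → ℂ) : Bl S u (P S y) = Bl S u y := by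
  simp [Bl_apply, P_apply]

theorem Bl_single (S : Finset ι) (u : S → ℂ) (j : S) : Bl S u (Pi.single j.1 1) = u j := by
  rw [Bl_apply, Finset.sum_eq_single j]
  · simp
  · intro b _ hb
    have : (b : ι) ≠ j := fun h => hb (Subtype.ext h)
    simp [this]
  · simp

/-- the gradient in the directions of `S` -/
def gr (S : Finset ι) : ((ι → ℂ) →L[ℂ] ℂ) →L[ℂ] (S → ℂ) :=
  ContinuousLinearMap.pi fun j => ContinuousLinearMap.apply ℂ ℂ (Pi.single j.1 1 : ι → ℂ)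

theorem Bl_gr (S : Finset ι) (L : (ι → ℂ) →L[ℂ] ℂ) (y : ι → ℂ) :
    Bl S (gr S L) y = L (P S y) := by
  rw [Bl_apply, P_eq_sum, map_sum, ← Finset.sum_coe_sort S]
  refine Finset.sum_congr rfl fun j _ => ?_
  simp [gr, mul_comm]

theorem BlO {β : Type*} {l : Filter β} (S : Finset ι) {u : β → S → ℂ} {y : β → ι → ℂ}
    {a b : β → ℝ} (hu : u =O[l] a) (hy : y =O[l] b) :
    (fun s => Bl S (u s) (y s)) =O[l] fun s => a s * b s := by
  refine IsBigO.trans (IsBigO.of_bound ‖Bl S‖ (Eventually.of_forall fun s => ?_))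
    (hu.norm_left.mul hy.norm_left)
  rw [norm_mul, norm_norm, norm_norm, ← mul_assoc]
  exact (Bl S).le_opNorm₂ _ _

/-- the rescaled equation is linear up to `O(t)` -/
theorem lin {S : Finset ι} {p : ℕ → ℂ → ι → ℂ} (hp : FP c p) (hS : ∀ N t, P S (p N t) = p N t)
    {g : κ → ℂ × (ι → ℂ) → ℂ} (hg : CF c g) (hv : Van c g p) {ν m : ℕ} {u : S → ℂ}
    (hm : ν + 1 ≤ m)
    (hu : ∀ N, ν + 1 ≤ N → (fun q : κ × ℂ => gr S (Dz (g q.1) (q.2, p N (c.τ q.2))) -
      c.τ q.2 ^ ν • u) =O[c.F] fun q => ‖c.τ q.2‖ ^ (ν + 1)) :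
    (fun x : (κ × ℂ) × (ι → ℂ) =>
      g x.1.1 (x.1.2, p (m + 1) (c.τ x.1.2) + c.τ x.1.2 ^ m • P S x.2) -
        c.τ x.1.2 ^ (m + ν) • Bl S u x.2) =O[c.F ×ˢ 𝓝 0] fun x => ‖c.τ x.1.2‖ ^ (m + ν + 1) := by
  set l : Filter ((κ × ℂ) × (ι → ℂ)) := c.F ×ˢ 𝓝 0 with hl
  have hf : Tendsto Prod.fst l c.F := tendsto_fst
  have hP : (fun x : (κ × ℂ) × (ι → ℂ) => P S x.2) =O[l] fun x => ‖c.τ x.1.2‖ ^ 0 := by
    simpa using (((P S).continuous.tendsto 0).comp (tendsto_snd : Tendsto Prod.snd l _)).isBigO_one ℝ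
  have h1 := smulO (π := Prod.fst) m hP
  have h2 := (hp.coh₂ (le_refl (m + 1)) (by omega : m + 1 ≤ m + ν + 1)).comp_tendsto hf
  have hδ : (fun x : (κ × ℂ) × (ι → ℂ) => p (m + 1) (c.τ x.1.2) + c.τ x.1.2 ^ m • P S x.2 -
      p (m + ν + 1) (c.τ x.1.2)) =O[l] fun x => ‖c.τ x.1.2‖ ^ m := by
    refine (h1.add (h2.trans (c.powO hf (Nat.le_succ m)))).congr_left fun x => ?_
    simp only [Function.comp]; abel
  have hx : Tendsto (fun x : (κ × ℂ) × (ι → ℂ) =>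
      p (m + 1) (c.τ x.1.2) + c.τ x.1.2 ^ m • P S x.2) l (𝓝 0) := by
    have := ((hp.tend (m + 1)).comp hf).add
      ((h1.trans (c.powO hf (by omega : 0 + 1 ≤ m + 0))).trans_tendsto ((tpow c 0).comp hf))
    rw [add_zero] at this
    exact this
  have h3 := tayO (G := fun (q : κ × ℂ) y => g q.1 (q.2, y)) (b := fun _ => 1) hg.sl hg.bdd hf hx
    ((hp.tend (m + ν + 1)).comp hf)
  have h4 := h3.trans (((isBigO_refl (fun _ => (1 : ℝ)) l).mul (hδ.norm_left.pow 2)).trans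
    ((c.powO hf (by omega : m + ν + 1 ≤ m * 2)).congr_left fun x => by rw [one_mul, pow_mul]))
  have h5 := (hv (m + ν + 1)).comp_tendsto hf
  have h6 := (BlO S ((hu (m + ν + 1) (by omega)).comp_tendsto hf) hδ).congr_right
    (g₂ := fun x => ‖c.τ x.1.2‖ ^ (m + ν + 1)) fun x => by simp only [Function.comp]; ring
  have h7 := (smulO (π := Prod.fst) ν (((Bl S u).isBigO_comp _ _).trans h2)).congr_right
    (g₂ := fun x => ‖c.τ x.1.2‖ ^ (m + ν + 1)) fun x => by ring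
  refine (((h4.add h5).add h6).add h7).congr_left fun x => ?_
  simp only [Function.comp, map_sub, map_add, map_smul, sub_apply,
    smul_apply, Bl_gr, Bl_P, hS, smul_eq_mul, Dz]
  ring

/-- iterated partial derivatives -/
def pdL (l : List ι) (g : κ → ℂ × (ι → ℂ) → ℂ) : κ → ℂ × (ι → ℂ) → ℂ := l.foldr pd g

theorem CF.pdL {g : κ → ℂ × (ι → ℂ) → ℂ} (hg : CF c g) (l : List ι) : CF c (pdL l g) := by
  induction l with
  | nil => exact hg
  | cons i l ih => exact ih.pd i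

theorem exists_step {S : Finset ι} {p : ℕ → ℂ → ι → ℂ} {h : κ → ℂ × (ι → ℂ) → ℂ} (hh : CF c h)
    (hv : Van c h p) : ∀ l : List ι, (∀ i ∈ l, i ∈ S) → ¬ Van c (pdL l h) p →
      ∃ g : κ → ℂ × (ι → ℂ) → ℂ, CF c g ∧ Van c g p ∧ ∃ i ∈ S, ¬ Van c (pd i g) p := by
  intro l
  induction l with
  | nil => exact fun _ h => absurd hv h
  | cons i l ih =>
    intro hl hn
    by_cases h1 : Van c (pdL l h) p
    · exact ⟨_, hh.pdL l, h1, i, hl i (List.mem_cons_self ..), hn⟩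
    · exact ih (fun j hj => hl j (List.mem_cons_of_mem _ hj)) h1

/-- elimination of one coordinate -/
theorem elim {S : Finset ι} {p : ℕ → ℂ → ι → ℂ} (hp : FP c p) (hS : ∀ N t, P S (p N t) = p N t)
    {g : κ → ℂ × (ι → ℂ) → ℂ} (hg : CF c g) (hv : Van c g p) {i₀ : ι} (hi₀ : i₀ ∈ S)
    (hn : ¬ Van c (pd i₀ g) p) (M : ℕ) :
    ∃ i ∈ S, ∃ (Φ : κ → ℂ × (ι → ℂ) → ι → ℂ) (p' : ℕ → ℂ → ι → ℂ), CF c Φ ∧
      (fun x : (κ × ℂ) × (ι → ℂ) => Φ x.1.1 (x.1.2, x.2) - p M (c.τ x.1.2)) =O[c.F ×ˢ 𝓝 0]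
        (fun x => ‖c.τ x.1.2‖ ^ M) ∧
      Tendsto (fun x : (κ × ℂ) × (ι → ℂ) => Φ x.1.1 (x.1.2, x.2)) (c.F ×ˢ 𝓝 0) (𝓝 0) ∧
      FP c p' ∧ (∀ N t, P (S.erase i) (p' N t) = p' N t) ∧
      ∀ N, ∃ N', N ≤ N' ∧ ∃ N'', N ≤ N'' ∧
        (fun q : κ × ℂ => Φ q.1 (q.2, p' N' (c.τ q.2)) - p N'' (c.τ q.2)) =O[c.F]
          fun q => ‖c.τ q.2‖ ^ N := by
  have hG : CF c (fun k x => gr S (Dz (g k) x)) := hg.dz.clm (gr S)
  have hGn : ¬ Van c (fun k x => gr S (Dz (g k) x)) p := fun h => hn fun N =>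
    (IsBigO.of_bound 1 (Eventually.of_forall fun q => by
      rw [one_mul]
      exact norm_le_pi_norm (gr S (Dz (g q.1) (q.2, p N (c.τ q.2)))) ⟨i₀, hi₀⟩)).trans (h N)
  obtain ⟨ν, u, hu0, hu⟩ := order hG hp hGn
  obtain ⟨i, hi⟩ : ∃ i : S, u i ≠ 0 := by
    by_contra h
    push Not at h
    exact hu0 (funext h)
  set m := max M (ν + 1) with hm
  have hlin := lin hp hS hg hv (le_max_right M (ν + 1)) hu
  rw [← hm] at hlin
  set l : Filter ((κ × ℂ) × (ι → ℂ)) := c.F ×ˢ 𝓝 0 with hl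
  have hf : Tendsto Prod.fst l c.F := tendsto_fst
  have hs : Tendsto Prod.snd l (𝓝 0) := tendsto_snd
  -- the substitution
  set σ : κ → ℂ × (ι → ℂ) → ι → ℂ :=
    fun _ x => p (m + 1) (c.τ x.1) + c.τ x.1 ^ m • P S x.2 with hσ
  have hσc : CF c σ := CF.of_ana (K := fun x => p (m + 1) x.1 + x.1 ^ m • P S x.2)
    ((AnalyticAt.comp (g := p (m + 1)) (f := fun x : ℂ × (ι → ℂ) => x.1) (hp.ana _)
      analyticAt_fst).add ((analyticAt_fst.pow m).smul (((P S).analyticAt _).comp analyticAt_snd)))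
  have hP : (fun x : (κ × ℂ) × (ι → ℂ) => P S x.2) =O[l] fun x => ‖c.τ x.1.2‖ ^ 0 := by
    simpa using (((P S).continuous.tendsto 0).comp hs).isBigO_one ℝ
  have hσM : (fun x : (κ × ℂ) × (ι → ℂ) => σ x.1.1 (x.1.2, x.2) - p M (c.τ x.1.2)) =O[l]
      fun x => ‖c.τ x.1.2‖ ^ M := by
    refine (((hp.coh' (by omega : M ≤ m + 1)).comp_tendsto hf).add
      ((smulO (π := Prod.fst) m hP).trans (c.powO hf (by omega : M ≤ m + 0)))).congr_left
      fun x => ?_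
    simp only [Function.comp, hσ]; abel
  have hσ0 : Tendsto (fun x : (κ × ℂ) × (ι → ℂ) => σ x.1.1 (x.1.2, x.2)) l (𝓝 0) := by
    have := ((hp.tend (m + 1)).comp hf).add
      (((smulO (π := Prod.fst) m hP).trans (c.powO hf (by omega : 0 + 1 ≤ m + 0))).trans_tendsto
        ((tpow c 0).comp hf))
    rw [add_zero] at this
    exact this
  have hℓ : (fun x : (κ × ℂ) × (ι → ℂ) => Bl S u x.2) =O[l] fun x => ‖c.τ x.1.2‖ ^ 0 := by
    simpa using (((Bl S u).continuous.tendsto 0).comp hs).isBigO_one ℝ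
  have hg1 : CF c (fun k x => (c.τ x.1 ^ (m + ν))⁻¹ • g k (x.1, σ k x)) := by
    refine (hg.comp hσc hσ0).div (m + ν) ?_
    refine ((hlin.trans (c.powO hf (Nat.le_succ _))).add
      (smulO (π := Prod.fst) (m + ν) hℓ)).congr_left fun x => ?_
    simp [hσ]
  set e : ι → ℂ := -(u i)⁻¹ • (Pi.single i.1 1 : ι → ℂ) with he
  set R : κ → ℂ × (ι → ℂ) → ι → ℂ :=
    fun k x => ((c.τ x.1 ^ (m + ν))⁻¹ • g k (x.1, σ k x) - Bl S u x.2) • e with hR
  have hRc : CF c R :=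
    (hg1.sub (CF.of_ana (K := fun x => Bl S u x.2)
      (((Bl S u).analyticAt _).comp analyticAt_snd))).clm ((ContinuousLinearMap.id ℂ ℂ).smulRight e)
  have hR1 : (fun x : (κ × ℂ) × (ι → ℂ) => R x.1.1 (x.1.2, x.2)) =O[l]
      fun x => ‖c.τ x.1.2‖ ^ 1 := by
    have h1 : (fun x : (κ × ℂ) × (ι → ℂ) => (c.τ x.1.2 ^ (m + ν))⁻¹ •
        g x.1.1 (x.1.2, σ x.1.1 (x.1.2, x.2)) - Bl S u x.2) =O[l] fun x => ‖c.τ x.1.2‖ ^ 1 := by
      refine cancelO hf (m := m + ν) (hlin.congr' ?_ EventuallyEq.rfl)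
      filter_upwards [hf.eventually c.neF] with x hx
      simp only [hσ, smul_sub, smul_smul, mul_inv_cancel₀ (pow_ne_zero _ hx), one_smul]
    exact (((ContinuousLinearMap.id ℂ ℂ).smulRight e).isBigO_comp _ _).trans h1
  obtain ⟨ψ, hψ, hψ0, hψe⟩ := hRc.fix hR1
  set A : (ι → ℂ) →L[ℂ] (ι → ℂ) :=
    P (S.erase i) + ((Bl S u).comp (P (S.erase i))).smulRight e with hA
  have hAc : CF c (fun (_ : κ) (x : ℂ × (ι → ℂ)) => A x.2) :=
    CF.of_ana (K := fun x => A x.2) ((A.analyticAt _).comp analyticAt_snd)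
  have hA0 : Tendsto (fun x : (κ × ℂ) × (ι → ℂ) => A x.2) l (𝓝 0) :=
    (A.continuous.tendsto' 0 0 (map_zero _)).comp hs
  have hΨ0 : Tendsto (fun x : (κ × ℂ) × (ι → ℂ) => ψ x.1.1 (x.1.2, A x.2)) l (𝓝 0) :=
    hψ0.comp (hf.prodMk hA0)
  -- the new formal point
  have hq : ∀ N, ∃ r : ℂ → ι → ℂ, AnalyticAt ℂ r 0 ∧ ∀ᶠ q in c.F,
      p (N + m + 1) (c.τ q.2) - p (m + 1) (c.τ q.2) = c.τ q.2 ^ m • r (c.τ q.2) := fun N =>
    div1 ((hp.ana _).sub (hp.ana _)) m (hp.coh₂ (by omega) (by omega))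
  choose r hr hre using hq
  have hr0 : ∀ N, r N 0 = 0 := fun N => by
    have h1 : (fun q : κ × ℂ => r N (c.τ q.2)) =O[c.F] fun q => ‖c.τ q.2‖ ^ 1 :=
      cancelO tendsto_id (m := m) ((hp.coh' (by omega : m + 1 ≤ N + m + 1)).congr' (hre N)
        EventuallyEq.rfl)
    exact tendsto_nhds_unique ((hr N).continuousAt.tendsto.comp c.tF)
      (h1.trans_tendsto (tpow c 0))
  have hrF : FP c r := by
    refine ⟨hr, hr0, fun N => cancelO tendsto_id (m := m)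
      ((hp.coh₂ (M := m + N) (N := N + 1 + m + 1) (N' := N + m + 1) (by omega)
        (by omega)).congr' ?_ EventuallyEq.rfl)⟩
    filter_upwards [hre N, hre (N + 1)] with q h1 h2
    simp only [id, smul_sub, ← h1, ← h2]
    abel
  have hcl : ∀ T : Finset ι, FP c (fun N t => P T (r N t)) := fun T =>
    ⟨fun N => ((P T).analyticAt _).comp (hr N), fun N => by simp [hr0],
      fun N => (((P T).isBigO_comp _ _).trans (hrF.coh N)).congr_left fun q => by simp⟩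
  refine ⟨i, i.2, fun k x => σ k (x.1, ψ k (x.1, A x.2)), fun N t => P (S.erase i) (r N t),
    hσc.comp (hψ.comp hAc hA0) hΨ0, hσM.comp_tendsto (hf.prodMk hΨ0), hσ0.comp (hf.prodMk hΨ0),
    hcl _, fun N t => P_P _ _, fun N => ⟨N + ν, by omega, N + ν + m + 1, by omega, ?_⟩⟩
  have hx0 := (hcl S).tend (N + ν)
  have ha0 : Tendsto (fun q : κ × ℂ => A (P (S.erase i) (r (N + ν) (c.τ q.2)))) c.F (𝓝 0) :=
    (A.continuous.tendsto' 0 0 (map_zero _)).comp ((hcl _).tend (N + ν))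
  have hy0 := hψ0.comp (tendsto_id.prodMk ha0)
  have hσx : ∀ᶠ q in c.F, σ q.1 (q.2, P S (r (N + ν) (c.τ q.2))) =
      p (N + ν + m + 1) (c.τ q.2) := by
    filter_upwards [hre (N + ν)] with q hq
    simp only [hσ, P_P]
    rw [← map_smul, ← hq, map_sub, hS, hS]
    abel
  have h1 : (fun q : κ × ℂ => (c.τ q.2 ^ (m + ν))⁻¹ • g q.1 (q.2, p (N + ν + m + 1) (c.τ q.2)))
      =O[c.F] fun q => ‖c.τ q.2‖ ^ N := by
    refine cancelO tendsto_id (m := m + ν)
      ((hv.le (by omega : m + ν + N ≤ N + ν + m + 1)).congr' ?_ EventuallyEq.rfl)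
    filter_upwards [c.neF] with q hq
    simp only [id, smul_smul, mul_inv_cancel₀ (pow_ne_zero _ hq), one_smul]
  have h2 := (hRc.stab hR1 tendsto_id hy0 hx0).trans
    (((((ContinuousLinearMap.id ℂ ℂ).smulRight e).isBigO_comp _ _).trans h1).congr' (f₂ := _) ?_
      EventuallyEq.rfl)
  · refine ((hσc.lip tendsto_id hy0 hx0).trans h2).congr' ?_ EventuallyEq.rfl
    filter_upwards [hσx] with q hq
    simp only [id, Function.comp, hq]
  · filter_upwards [hσx, (tendsto_id.prodMk ha0).eventually hψe] with q hq hq'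
    simp only [id, Function.comp] at hq' ⊢
    rw [sub_eq_of_eq_add hq']
    simp only [hR, hq, hA, add_apply, ContinuousLinearMap.smulRight_apply,
      ContinuousLinearMap.comp_apply, ContinuousLinearMap.id_apply, P_P]
    rw [P_erase i.2 (r (N + ν) (c.τ q.2)), map_add, map_smul, Bl_single]
    have h3 : (Pi.single i.1 1 : ι → ℂ) = -(u i) • e := by
      rw [he, smul_smul, neg_mul_neg, mul_inv_cancel₀ hi, one_smul]
    rw [h3, smul_eq_mul]
    module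

theorem hensel_aux {J : Type*} (n : ℕ) : ∀ (S : Finset ι), S.card = n →
    ∀ (H : J → κ → ℂ × (ι → ℂ) → ℂ) (p : ℕ → ℂ → ι → ℂ), (∀ j, CF c (H j)) → FP c p →
      (∀ N t, P S (p N t) = p N t) → (∀ j, Van c (H j) p) → ∀ M : ℕ,
      ∃ Z : κ → ℂ → ι → ℂ, CC c Z ∧ Tendsto (fun q : κ × ℂ => Z q.1 q.2) c.F (𝓝 0) ∧
        (fun q : κ × ℂ => Z q.1 q.2 - p M (c.τ q.2)) =O[c.F] (fun q => ‖c.τ q.2‖ ^ M) ∧
        ∀ j N, (fun q : κ × ℂ => H j q.1 (q.2, Z q.1 q.2)) =O[c.F] fun q => ‖c.τ q.2‖ ^ N := by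
  induction n using Nat.strong_induction_on with
  | _ n ih =>
    intro S hn H p hH hp hS hv M
    by_cases hA : ∀ j (l : List ι), (∀ i ∈ l, i ∈ S) → Van c (pdL l (H j)) p
    · refine ⟨fun _ w => p M (c.τ w), CC.of_ana (hp.ana M), hp.tend M,
        by simp only [sub_self]; exact isBigO_zero _ _, fun j N => ?_⟩
      refine flatA hp hS (D := {g | ∃ j, ∃ l : List ι, (∀ i ∈ l, i ∈ S) ∧ g = pdL l (H j)}) ?_ M N
        (H j) ⟨j, [], by simp, rfl⟩
      rintro g ⟨j, l, hl, rfl⟩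
      refine ⟨(hH j).pdL l, hA j l hl, fun i hi => ⟨j, i :: l, fun a ha => ?_, rfl⟩⟩
      rcases List.mem_cons.1 ha with rfl | ha
      exacts [hi, hl a ha]
    · push Not at hA
      obtain ⟨j₀, l, hl, hl'⟩ := hA
      obtain ⟨g, hg, hgv, i₀, hi₀, hgn⟩ := exists_step (hH j₀) (hv j₀) l hl hl'
      obtain ⟨i, hi, Φ, p', hΦ, hΦM, hΦ0, hp', hS', hap⟩ := elim hp hS hg hgv hi₀ hgn M
      obtain ⟨Z, hZ, hZ0, -, hZv⟩ := ih _ (hn ▸ Finset.card_erase_lt_of_mem hi) (S.erase i) rfl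
        (fun j k x => H j k (x.1, Φ k x)) p' (fun j => (hH j).comp hΦ hΦ0) hp' hS' (fun j => by
          refine van_of ((hH j).comp hΦ hΦ0) hp' fun N => ?_
          obtain ⟨N', h1, N'', h2, h3⟩ := hap N
          refine ⟨N', h1, ((((hH j).lip tendsto_id (hΦ0.comp (tendsto_id.prodMk (hp'.tend N')))
            (hp.tend N'')).trans h3).add ((hv j).le h2)).congr_left fun q => ?_⟩
          simp) 0
      exact ⟨fun k w => Φ k (w, Z k w), hΦ.along hZ hZ0, hΦ0.comp (tendsto_id.prodMk hZ0),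
        hΦM.comp_tendsto (tendsto_id.prodMk hZ0), hZv⟩

/-- **Theorem T.** -/
theorem hensel {J : Type*} {H : J → κ → ℂ × (ι → ℂ) → ℂ} {p : ℕ → ℂ → ι → ℂ}
    (hH : ∀ j, CF c (H j)) (hp : FP c p) (hv : ∀ j, Van c (H j) p) (M : ℕ) :
    ∃ Z : κ → ℂ → ι → ℂ, CC c Z ∧ Tendsto (fun q : κ × ℂ => Z q.1 q.2) c.F (𝓝 0) ∧
      (fun q : κ × ℂ => Z q.1 q.2 - p M (c.τ q.2)) =O[c.F] (fun q => ‖c.τ q.2‖ ^ M) ∧
      ∀ j N, (fun q : κ × ℂ => H j q.1 (q.2, Z q.1 q.2)) =O[c.F] fun q => ‖c.τ q.2‖ ^ N :=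
  hensel_aux _ Finset.univ rfl H p hH hp (fun N t => by ext i; simp [P_apply]) hv M


end Crest.Agent.N250.Hn
end
end

-- ▼ part N250/B2/Hn

/-!
Row 250, block B2 (helper31): `HNStmt` from the Hensel induction.
-/

set_option autoImplicit false
set_option linter.unusedSectionVars false
set_option linter.unusedVariables false

open Set Metric Filter Topology Asymptotics Function

noncomputable section

namespace Crest.Agent.N250.B2

open Crest.Agent.N250.Hn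

namespace HN

variable {ι κ Γ : Type} [Fintype ι] [Fintype κ] [DecidableEq κ]

/-- the rescaling about the truncated curve -/
def sc (P : ℕ → ι ⊕ κ → ℝ) (K : ℕ) (x : ℂ × (ι ⊕ κ → ℂ)) : ι ⊕ κ → ℂ :=
  cv P (K + 1) x.1 + x.1 ^ K • x.2

/-- the formal point in the rescaled coordinates -/
def pp (P : ℕ → ι ⊕ κ → ℝ) (K N : ℕ) (t : ℂ) : ι ⊕ κ → ℂ :=
  ∑ m ∈ Finset.range N, t ^ (m + 1) • ofR (P (K + 1 + m))

variable {P : ℕ → ι ⊕ κ → ℝ} {K : ℕ}

lemma an_cv (N : ℕ) (t : ℂ) : AnalyticAt ℂ (cv P N) t :=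
  Finset.analyticAt_fun_sum (f := fun m (t : ℂ) => t ^ m • ofR (P m)) (Finset.range N) fun m _ =>
    (analyticAt_id.pow m).smul analyticAt_const

lemma cv_zero (h : P 0 = 0) (N : ℕ) : cv P N 0 = 0 :=
  Finset.sum_eq_zero (s := Finset.range N) fun m _ => by
    rcases m with _ | m
    · ext i; simp [h, ofR]
    · simp

lemma an_sc (x : ℂ × (ι ⊕ κ → ℂ)) : AnalyticAt ℂ (sc P K) x :=
  ((an_cv _ _).comp analyticAt_fst).add ((analyticAt_fst.pow K).smul analyticAt_snd)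

lemma sc_zero (h : P 0 = 0) (hK : 1 ≤ K) (z : ι ⊕ κ → ℂ) : sc P K (0, z) = 0 := by
  simp [sc, cv_zero h, Nat.one_le_iff_ne_zero.1 hK]

lemma sc_pp (N : ℕ) (t : ℂ) : sc P K (t, pp P K N t) = cv P (K + 1 + N) t := by
  simp only [sc, cv, tr, pp, Finset.sum_range_add _ (K + 1), Finset.smul_sum, smul_smul, ← pow_add]
  congr 1
  exact Finset.sum_congr rfl fun m _ => by rw [add_assoc, add_comm 1]

lemma sc_mem {t : ℂ} (ht : t ≠ 0) {z : ι ⊕ κ → ℂ} {s : ℝ} (hz : ‖z‖ < s) :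
    sc P K (t, z) ∈ ball (cv P (K + 1) t) (‖t‖ ^ K * s) := by
  rw [mem_ball_iff_norm, sc, add_sub_cancel_left, norm_smul, norm_pow]
  exact mul_lt_mul_of_pos_left hz (pow_pos (norm_pos_iff.2 ht) K)

lemma fd_sc {f : (ι ⊕ κ → ℂ) → ℂ} {t : ℂ} {z : ι ⊕ κ → ℂ}
    (h : DifferentiableAt ℂ f (sc P K (t, z))) :
    fderiv ℂ (fun y => f (sc P K (t, y))) z = t ^ K • fderiv ℂ f (sc P K (t, z)) := by
  have h1 : HasFDerivAt (fun y => sc P K (t, y)) (t ^ K • ContinuousLinearMap.id ℂ _) z :=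
    ((hasFDerivAt_id z).const_smul (t ^ K)).const_add (cv P (K + 1) t)
  refine (h.hasFDerivAt.comp z h1).fderiv.trans ?_
  ext1 v
  simp

lemma isBigO_of_deriv {φ : ℂ → ℂ} (h : AnalyticAt ℂ φ 0) {n : ℕ}
    (hd : deriv φ =O[𝓝 0] fun t : ℂ => t ^ n) : (fun t => φ t - φ 0) =O[𝓝 0] fun t => t ^ n := by
  obtain ⟨C, hC, hb⟩ := hd.exists_pos
  obtain ⟨r, hr, h1⟩ := Metric.eventually_nhds_iff_ball.1 (hb.bound.and h.eventually_analyticAt)
  refine IsBigO.of_bound C ?_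
  filter_upwards [ball_mem_nhds (0 : ℂ) (lt_min hr one_pos)] with t ht
  have ht' := lt_min_iff.1 (mem_ball_zero_iff.1 ht)
  have hs : closedBall (0 : ℂ) ‖t‖ ⊆ ball 0 r := closedBall_subset_ball ht'.1
  have := (convex_closedBall (0 : ℂ) ‖t‖).norm_image_sub_le_of_norm_deriv_le (f := φ)
    (C := C * ‖t ^ n‖) (fun z hz => (h1 z (hs hz)).2.differentiableAt) (fun z hz =>
      (h1 z (hs hz)).1.trans (by
        rw [norm_pow, norm_pow]
        gcongr
        exact mem_closedBall_zero_iff.1 hz)) (mem_closedBall_self (norm_nonneg _))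
    (mem_closedBall_zero_iff.2 le_rfl)
  rw [sub_zero] at this
  exact this.trans (mul_le_of_le_one_right (by positivity) ht'.2.le)

variable {Q : Cells Γ} {F : (κ → Γ) → (ι ⊕ κ → ℂ) → ℂ} {r c C r1 Λ : ℝ}
  {k : ℕ → (ι ⊕ κ → ℂ) → ℂ}

lemma er_le (hc : 0 < c) {U : κ → Γ} {t : ℂ} (h : Ad Q r P K Λ U t) (N : ℕ) :
    Q.er c U ≤ Fintype.card κ * (N.factorial * (|Λ| / c) ^ N) * ‖t‖ ^ N := by
  refine (Finset.sum_le_card_nsmul _ _ (N.factorial * (|Λ| / c) ^ N * ‖t‖ ^ N) fun j _ => ?_).trans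
    (by simp [mul_assoc])
  have h0 : 0 < Q.sz (U j) := pos_of_mem_ball (Q.sub _ (h.1 j)
    ((h.2.2.2 (mem_ball_self (pow_pos (norm_pos_iff.2 h.2.1) K))).2 j))
  have h1 := Real.pow_div_factorial_le_exp (c / Q.sz (U j)) (by positivity) N
  have h2 : Q.sz (U j) ≤ |Λ| * ‖t‖ := (h.2.2.1 j).trans (by gcongr; exact le_abs_self _)
  rw [neg_div, Real.exp_neg]
  refine (inv_anti₀ (by positivity) h1).trans ?_
  rw [inv_div, div_eq_mul_inv, ← inv_pow, inv_div, mul_assoc, ← mul_pow, div_mul_eq_mul_div]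
  gcongr

/-- the cover by the adapted pieces -/
def cov (Q : Cells Γ) (F : (κ → Γ) → (ι ⊕ κ → ℂ) → ℂ) (r : ℝ) (P : ℕ → ι ⊕ κ → ℝ) (K : ℕ) (Λ : ℝ)
    (h : ∀ s > 0, ∃ U, ∃ w ∈ interior {t | Ad Q r P K Λ U t}, ‖w‖ < s) : Cov (κ → Γ) where
  Ω U := interior {t | Ad Q r P K Λ U t}
  τ w := w
  ε U V t := sSup ((fun z => ‖F U z - F V z‖) '' ball (cv P (K + 1) t) (‖t‖ ^ K))
  isOpen _ := isOpen_interior
  diff _ := differentiableOn_id
  ne _ _ hw := (interior_subset hw).2.1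
  acc := h

variable {h : ∀ s > 0, ∃ U, ∃ w ∈ interior {t | Ad Q r P K Λ U t}, ‖w‖ < s}

lemma ad {U : κ → Γ} {t : ℂ} (ht : t ∈ (cov Q F r P K Λ h).Ω U) : Ad Q r P K Λ U t :=
  interior_subset (s := {t | Ad Q r P K Λ U t}) ht

lemma ev_ad : ∀ᶠ x in (cov Q F r P K Λ h).F ×ˢ 𝓝 (0 : ι ⊕ κ → ℂ), Ad Q r P K Λ x.1.1 x.1.2 ∧
    sc P K (x.1.2, x.2) ∈ ball (cv P (K + 1) x.1.2) (‖x.1.2‖ ^ K) :=
  ev_of_ball one_pos ((Cov.evF _).2 ⟨1, one_pos, fun U w hw _ z hz =>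
    ⟨ad hw, by simpa using sc_mem (ad hw).2.1 (mem_ball_zero_iff.1 hz)⟩⟩)

lemma dif (hW : Wk Q F r c C) {U : κ → Γ} {t : ℂ} (ha : Ad Q r P K Λ U t) {z : ι ⊕ κ → ℂ}
    (hz : z ∈ ball (cv P (K + 1) t) (‖t‖ ^ K)) : DifferentiableAt ℂ (F U) z :=
  ((hW.hol U ha.1).mono ha.2.2.2).differentiableAt (isOpen_ball.mem_nhds hz)

lemma an_k (hT : Tr Q F r c k r1) (N : ℕ) : AnalyticAt ℂ (k N) 0 :=
  R266.SCV.analyticOnNhd_of_differentiableOn isOpen_ball (hT.hol N) 0 (mem_ball_self hT.r1_pos)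

lemma asy (hW : Wk Q F r c C) (hT : Tr Q F r c k r1) (h0 : P 0 = 0) (hK : 1 ≤ K) (N : ℕ) :
    (fun x : ((κ → Γ) × ℂ) × (ι ⊕ κ → ℂ) => F x.1.1 (sc P K (x.1.2, x.2)) -
      k N (sc P K (x.1.2, x.2))) =O[(cov Q F r P K Λ h).F ×ˢ 𝓝 0] fun x => ‖x.1.2‖ ^ N := by
  obtain ⟨C', hC⟩ := hT.app N
  obtain ⟨S, hS, e⟩ := div_fst (an_sc (P := P) (K := K) 0) (.of_forall (sc_zero h0 hK))
  have t1 := tT (E := ι ⊕ κ → ℂ) (cov Q F r P K Λ h)
  have t2 : Tendsto (sc P K) (𝓝 0) (𝓝 0) := by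
    simpa [ContinuousAt, show sc P K 0 = 0 from sc_zero h0 hK 0] using
      (an_sc (P := P) (K := K) 0).continuousAt
  refine IsBigO.of_bound (|C'| * ((‖S 0‖ + 1) ^ N +
    Fintype.card κ * (N.factorial * (|Λ| / c) ^ N))) ?_
  filter_upwards [ev_ad, t1.eventually e, (t2.comp t1).eventually (ball_mem_nhds _ hT.r1_pos),
    (hS.continuousAt.norm.tendsto.comp t1).eventually (gt_mem_nhds (lt_add_one _))]
    with x a1 a2 a3 a4
  refine (hC _ a1.1.1 _ (a1.1.2.2.2 a1.2) (mem_ball_zero_iff.1 a3)).trans ?_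
  have b1 : ‖aa (sc P K (x.1.2, x.2))‖ ≤ (‖S 0‖ + 1) * ‖x.1.2‖ := by
    refine le_trans ((pi_norm_le_iff_of_nonneg (norm_nonneg (sc P K (x.1.2, x.2)))).2
      fun j => norm_le_pi_norm (sc P K (x.1.2, x.2)) (.inr j)) ?_
    rw [show sc P K (x.1.2, x.2) = _ from a2, norm_smul, mul_comm]
    exact mul_le_mul_of_nonneg_right (le_of_lt a4) (norm_nonneg _)
  have b2 := er_le hW.c_pos a1.1 N
  have b3 : 0 ≤ Q.er c x.1.1 := Finset.sum_nonneg fun _ _ => (Real.exp_pos _).le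
  rw [norm_pow, norm_norm, mul_assoc, add_mul, ← mul_pow]
  gcongr
  exact le_abs_self _

lemma cf (hW : Wk Q F r c C) (hT : Tr Q F r c k r1) (h0 : P 0 = 0) (hK : 1 ≤ K) :
    CF (cov Q F r P K Λ h) fun U x => F U (sc P K x) where
  hol := hol_of_diff (F := fun U x => F U (sc P K x)) (ev_ad.mono fun x hx =>
    (dif hW hx.1 hx.2).comp _ (an_sc _).differentiableAt)
  jump := ⟨0, IsBigO.of_bound 1 (by
    filter_upwards [(tJ₁ _).eventually ev_ad, (tJ₂ _).eventually ev_ad] with x a1 a2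
    rw [one_mul, Cov.g, pow_zero, one_mul]
    refine le_trans (le_csSup ⟨C + C, ?_⟩
      (mem_image_of_mem (fun z => ‖F x.1.1 z - F x.1.2.1 z‖) a1.2)) (le_abs_self _)
    rintro _ ⟨z, hz, rfl⟩
    exact (norm_sub_le _ _).trans (add_le_add (hW.bdd _ a1.1.1 z (a1.1.2.2.2 hz))
      (hW.bdd _ a2.1.1 z (a2.1.2.2.2 hz))))⟩
  asy N := ⟨fun x => k N (sc P K x), (an_k hT N).comp_of_eq (an_sc 0) (sc_zero h0 hK 0),
    asy hW hT h0 hK N⟩

lemma fp : FP (cov Q F r P K Λ h) (pp P K) where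
  ana N := Finset.analyticAt_fun_sum _ fun m _ => (analyticAt_id.pow _).smul analyticAt_const
  zero N := by simp [pp]
  coh N := by
    simp only [pp, Finset.sum_range_succ, add_sub_cancel_left]
    refine IsBigO.trans (smulO (π := fun q => q) (n := 0) (N + 1) ?_)
      (Cov.powO _ tendsto_id (by omega))
    simpa using isBigO_const_one ℝ _ _

lemma k_zero (hT : Tr Q F r c k r1) (N : ℕ) : k (N + 1) 0 = k 1 0 := by
  induction N with
  | zero => rfl
  | succ N ih =>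
    obtain ⟨C', h⟩ := hT.step (N + 1)
    have := h 0 (mem_ball_self hT.r1_pos)
    rw [show aa (0 : ι ⊕ κ → ℂ) = 0 from rfl, norm_zero, zero_pow N.succ_ne_zero, mul_zero,
      norm_le_zero_iff, sub_eq_zero] at this
    rw [this, ih]

lemma van0 (hW : Wk Q F r c C) (hT : Tr Q F r c k r1) (hP : Crit k P) (hK : 1 ≤ K) :
    Van (cov Q F r P K Λ h) (fun U x => F U (sc P K x) - k 1 0) (pp P K) := fun N => by
  set n := K + 1 + N
  have a1 := (asy (h := h) hW hT hP.zero hK (n + 1)).comp_tendsto (tendsto_id.prodMk (fp.tend N))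
  have a0 := (an_k hT (n + 1)).comp_of_eq (an_cv (P := P) n 0) (cv_zero hP.zero n)
  have a2 := (isBigO_of_deriv a0 (n := n) (by
    have b1 := (an_cv (P := P) n 0).deriv.continuousAt.tendsto.isBigO_one ℝ
    have b2 : Tendsto (cv P n) (𝓝 0) (𝓝 0) := by
      simpa [ContinuousAt, cv_zero hP.zero] using (an_cv (P := P) n 0).continuousAt
    refine IsBigO.trans (IsBigO.of_bound' ?_) (isBigO_norm_right.1
      (((hP.crit n).norm_norm.mul b1.norm_left).congr_right fun t => mul_one _))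
    filter_upwards [b2.eventually (an_k hT (n + 1)).eventually_analyticAt] with t ht
    rw [(ht.differentiableAt.hasFDerivAt.comp_hasDerivAt t
      (an_cv n t).differentiableAt.hasDerivAt).deriv]
    exact (ContinuousLinearMap.le_opNorm _ _).trans (le_abs_self _))).comp_tendsto
      (cov Q F r P K Λ h).tF
  refine ((a1.trans (Cov.powO _ tendsto_id (show N ≤ n + 1 by omega))).add
    ((a2.trans (isBigO_norm_right.2 (isBigO_refl _ _))).congr_right (fun _ => norm_pow _ _) |>.trans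
      (Cov.powO _ tendsto_id (show N ≤ n by omega)))).congr_left fun q => ?_
  simp [cov, sc_pp, n, cv_zero hP.zero, k_zero hT]

lemma van1 [DecidableEq ι] (hW : Wk Q F r c C) (hT : Tr Q F r c k r1) (hP : Crit k P) (hK : 1 ≤ K)
    (i : ι ⊕ κ) : Van (cov Q F r P K Λ h) (pd i fun U x => F U (sc P K x)) (pp P K) := fun N => by
  set n := K + 1 + N
  have hk := (an_k hT (n + 1)).comp_of_eq (an_sc (P := P) (K := K) 0) (sc_zero hP.zero hK 0)
  have d1 := (cf (h := h) hW hT hP.zero hK).sl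
  have d2 := ana_slice (c := cov Q F r P K Λ h) hk
  have t1 := tendsto_id.prodMk ((fp (F := F) (h := h)).tend N)
  have a1 := (cauchyO (G := fun (q : (κ → Γ) × ℂ) y => F q.1 (sc P K (q.2, y)) -
    k (n + 1) (sc P K (q.2, y))) (b := fun q => ‖q.2‖ ^ (n + 1)) ((d1.and d2).mono fun x hx =>
      hx.1.sub hx.2) (asy hW hT hP.zero hK (n + 1))).comp_tendsto t1
  have b2 : Tendsto (cv P n) (𝓝 0) (𝓝 0) := by
    simpa [ContinuousAt, cv_zero hP.zero] using (an_cv (P := P) n 0).continuousAt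
  have a2 := smulO (c := cov Q F r P K Λ h) (π := fun q => q) K
    ((((hP.crit n).comp_tendsto (cov Q F r P K Λ h).tF).trans
      (isBigO_norm_right.2 (isBigO_refl _ _))).congr_right fun _ => norm_pow _ _)
  refine IsBigO.trans (((ContinuousLinearMap.apply ℂ ℂ (Pi.single i 1 : ι ⊕ κ → ℂ)).isBigO_comp
    _ _).congr' ?_ EventuallyEq.rfl) ((a1.trans (Cov.powO _ tendsto_id
      (show N ≤ n + 1 by omega))).add (a2.trans (Cov.powO _ tendsto_id (show N ≤ K + n by omega))))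
  filter_upwards [t1.eventually d1, t1.eventually d2, (b2.comp (cov Q F r P K Λ h).tF).eventually
    (an_k hT (n + 1)).eventually_analyticAt] with q c1 c2 c3
  have c4 := fd_sc (P := P) (K := K) (f := k (n + 1)) (t := q.2) (z := pp P K N q.2)
    (by rw [sc_pp]; exact c3.differentiableAt)
  rw [sc_pp] at c4
  exact congrArg (fun L : (ι ⊕ κ → ℂ) →L[ℂ] ℂ => L (Pi.single i 1))
    (((congrArg₂ (· + ·) (fderiv_fun_sub c1 c2) c4.symm)).trans (sub_add_cancel _ _))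

/-- from germs to a fixed radius -/
lemma unif {c' : Cov (κ → Γ)} {f : (κ → Γ) × ℂ → ℝ} {A r2 : ℝ} {n : ℕ}
    (h1 : ∀ U, ∀ t ∈ c'.Ω U, ‖c'.τ t‖ < r2 → f (U, t) * ‖c'.τ t‖ ^ K ≤ A)
    (h2 : f =O[c'.F] fun q => ‖c'.τ q.2‖ ^ n) :
    ∃ C', 0 ≤ C' ∧ ∀ U, ∀ t ∈ c'.Ω U, ‖c'.τ t‖ < r2 → f (U, t) ≤ C' * ‖c'.τ t‖ ^ n := by
  obtain ⟨B, hB, hb⟩ := h2.exists_pos
  obtain ⟨s, hs, h3⟩ := c'.evF.1 hb.bound
  refine ⟨B + |A| / s ^ (K + n), by positivity, fun U t ht hr => ?_⟩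
  have p0 := norm_pos_iff.2 (c'.ne U t ht)
  rw [add_mul]
  by_cases h4 : ‖c'.τ t‖ < s
  · have := h3 U t ht h4
    rw [norm_pow, norm_norm] at this
    exact ((le_abs_self _).trans this).trans (le_add_of_nonneg_right (by positivity))
  · refine le_trans ?_ (le_add_of_nonneg_left (by positivity))
    refine ((le_div_iff₀ (by positivity)).2 ((h1 U t ht hr).trans (le_abs_self A))).trans ?_
    rw [div_mul_eq_mul_div, div_le_div_iff₀ (by positivity) (by positivity), mul_assoc, ← pow_add,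
      add_comm n]
    gcongr
    exact not_lt.1 h4

end HN

open HN

/-- (HN) -/
theorem hnStmt : HNStmt := by
  intro ι κ Γ _ _ _ Q F r c C k r1 P hW hT hP K Λ hK
  classical
  by_cases h : ∀ s > 0, ∃ U, ∃ w ∈ interior {t | Ad Q r P K Λ U t}, ‖w‖ < s
  swap
  · push Not at h
    obtain ⟨s, hs, h⟩ := h
    have e : ∀ U, ∀ t ∈ Om Q r P K Λ s U, False := fun U t ht =>
      absurd (mem_ball_zero_iff.1 ht.2) (not_lt.2 (h U t ht.1))
    exact ⟨s, 0, 0, 0, 0, hs, fun U t ht => (e U t ht).elim, fun U t ht => (e U t ht).elim,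
      fun n => ⟨0, fun U t ht => (e U t ht).elim⟩, fun U V t ht => (e U t ht).elim⟩
  have hc := cf (h := h) hW hT hP.zero hK
  obtain ⟨Z, z1, z2, z3, z4⟩ := hensel (c := cov Q F r P K Λ h)
    (H := fun o : Option (ι ⊕ κ) => o.elim (fun U x => F U (sc P K x) - k 1 0)
      fun i => pd i fun U x => F U (sc P K x))
    (fun o => by
      cases o
      exacts [hc.sub (CF.of_ana (K := fun _ => k 1 0) analyticAt_const), hc.pd _]) fp
    (fun o => by cases o; exacts [van0 hW hT hP hK, van1 hW hT hP hK _]) 1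
  obtain ⟨ν, z5⟩ := z1.jump
  obtain ⟨C1, hC1, y1⟩ := ((z3.add (fp.one 1)).congr_left fun q => sub_add_cancel _ _).exists_pos
  obtain ⟨C2, hC2, y2⟩ := z5.exists_pos
  obtain ⟨s1, hs1, y3⟩ := (Cov.evF _).1 (y1.bound.and (z1.hol.and ((Cov.le_one _).and
    (z2.eventually (ball_mem_nhds 0 one_half_pos)))))
  obtain ⟨s2, hs2, y4⟩ := (Cov.evJ _).1 y2.bound
  have hm : ∀ {U t}, t ∈ Om Q r P K Λ (min s1 s2) U → ‖t‖ < s1 ∧ ‖t‖ < s2 := fun ht =>
    lt_min_iff.1 (mem_ball_zero_iff.1 ht.2)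
  refine ⟨min s1 s2, k 1 0, fun U t => sc P K (t, Z U t), ν, C1 + C2, lt_min hs1 hs2,
    fun U t ht => ?_, fun U t ht => ?_, fun n => ?_, fun U V t ht ht' e he => ?_⟩
  · have := (y3 U t ht.1 (hm ht).1).1
    rw [norm_pow, norm_norm, pow_one] at this
    rw [sc, add_sub_cancel_left, norm_smul, norm_pow, pow_succ, mul_left_comm]
    exact mul_le_mul_of_nonneg_left (this.trans (mul_le_mul_of_nonneg_right
      (le_add_of_nonneg_right hC2.le) (norm_nonneg _))) (by positivity)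
  · exact ((an_sc _).comp (f := fun t => (t, Z U t))
      (analyticAt_id.prod (y3 U t ht.1 (hm ht).1).2.1)).differentiableAt.differentiableWithinAt
  · have m1 : ∀ U, ∀ t ∈ (cov Q F r P K Λ h).Ω U, ‖t‖ < s1 →
        ball (sc P K (t, Z U t)) (‖t‖ ^ K / 2) ⊆ ball (cv P (K + 1) t) (‖t‖ ^ K) :=
      fun U t ht hs => ball_subset_ball' (by
        have := mem_ball.1 (sc_mem (P := P) (K := K) (interior_subset ht).2.1
          (mem_ball_zero_iff.1 (y3 U t ht hs).2.2.2))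
        linarith)
    have m2 : ∀ U, ∀ t ∈ (cov Q F r P K Λ h).Ω U, 0 < ‖t‖ ^ K / 2 := fun U t ht =>
      half_pos (pow_pos (norm_pos_iff.2 (interior_subset ht).2.1) K)
    obtain ⟨A1, p1, x1⟩ := unif (c' := cov Q F r P K Λ h) (K := K) (r2 := s1) (A := 2 * C) (n := n)
      (f := fun q => ‖fderiv ℂ (F q.1) (sc P K (q.2, Z q.1 q.2))‖) (fun U t ht hs => by
        have ha : Ad Q r P K Λ U t := ad ht
        have := R266.SCV.norm_fderiv_le_of_ball (f := F U) (M := C) (m2 U t ht)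
          (fun z hz => (dif hW ha (m1 U t ht hs hz)).differentiableWithinAt)
          (fun z hz => hW.bdd U ha.1 z (ha.2.2.2 (m1 U t ht hs hz)))
        rw [le_div_iff₀ (m2 U t ht)] at this
        show _ * ‖t‖ ^ K ≤ _
        linarith) (by
        refine IsBigO.norm_left (cancelO (c := cov Q F r P K Λ h) tendsto_id (m := K) ?_)
        refine IsBigO.trans (IsBigO.of_bound' ?_)
          (IsBigO.sum (s := Finset.univ) fun i _ => (z4 (some i) (K + n)).norm_left)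
        refine (Cov.evF _).2 ⟨s1, hs1, fun U t ht hs => ?_⟩
        have e := fd_sc (dif hW (ad ht) (m1 U t ht hs (mem_ball_self (m2 U t ht))))
        have := norm_comp_P (t ^ K • fderiv ℂ (F U) (sc P K (t, Z U t))) Finset.univ
        rw [show Hn.P (Finset.univ : Finset (ι ⊕ κ)) = ContinuousLinearMap.id ℂ _ from
          ContinuousLinearMap.ext fun v => funext fun i => by simp [P_apply],
          ContinuousLinearMap.comp_id] at this
        refine this.trans (le_trans (le_of_eq ?_) (le_abs_self _))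
        rw [← e, Finset.sum_apply]
        rfl)
    obtain ⟨A2, p2, x2⟩ := unif (c' := cov Q F r P K Λ h) (K := 0) (r2 := s1) (A := C + ‖k 1 0‖)
      (n := n) (f := fun q => ‖F q.1 (sc P K (q.2, Z q.1 q.2)) - k 1 0‖) (fun U t ht hs => by
        have ha : Ad Q r P K Λ U t := ad ht
        rw [pow_zero, mul_one]
        exact (norm_sub_le _ _).trans (add_le_add_left
          (hW.bdd U ha.1 _ (ha.2.2.2 (m1 U t ht hs (mem_ball_self (m2 U t ht))))) _))
      (z4 none n).norm_left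
    exact ⟨A1 + A2, fun U t ht =>
      ⟨(x1 U t ht.1 (hm ht).1).trans (by show _ * ‖t‖ ^ n ≤ _; gcongr; linarith),
        (x2 U t ht.1 (hm ht).1).trans (by show _ * ‖t‖ ^ n ≤ _; gcongr; linarith)⟩⟩
  · have a1 := y4 U V t ht.1 ht'.1 (hm ht).2
    have t0 := norm_pos_iff.2 (interior_subset ht.1).2.1
    have hb : (ball (cv P (K + 1) t) (‖t‖ ^ K)).Nonempty := nonempty_ball.2 (pow_pos t0 K)
    have a2 : (cov Q F r P K Λ h).ε U V t ≤ e := csSup_le (hb.image _) (forall_mem_image.2 he)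
    have a3 : 0 ≤ (cov Q F r P K Λ h).ε U V t :=
      Real.sSup_nonneg (forall_mem_image.2 fun _ _ => norm_nonneg _)
    rw [Cov.g, Real.norm_of_nonneg (mul_nonneg (by positivity) a3)] at a1
    rw [sc, sc, add_sub_add_left_eq_sub, ← smul_sub, norm_smul, norm_pow]
    refine (mul_le_of_le_one_left (norm_nonneg _)
      (pow_le_one₀ t0.le (y3 U t ht.1 (hm ht).1).2.2.1)).trans (a1.trans ?_)
    rw [mul_div_assoc, div_eq_inv_mul, ← inv_pow]
    exact mul_le_mul (le_add_of_nonneg_left hC1.le) (mul_le_mul_of_nonneg_left a2 (by positivity))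
      (mul_nonneg (by positivity) a3) (by positivity)

end Crest.Agent.N250.B2
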