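import Crest.Agent.N250.Bt.Sup
import Crest.Agent.N250.FV.Hu4
import Crest.Agent.N250.Be.Main
import Crest.Agent.N250.T.Reach
import Crest.Agent.N250.Gi.Main
import Crest.Agent.N250.R0.Stm
import Crest.Agent.N250.Cc.Main
import Crest.Agent.N250.Ov.Defs
import Crest.Agent.N250.St.Abel
import Mathlib
import Crest.Agent.N250.St.Defs2
import Crest.Agent.N250.B2.Defs2
import Crest.Agent.N250.B2.Fam
import Crest.Agent.N250.Cc.Geo
import Crest.Agent.N250.B2.Hn
import Crest.Agent.N250.B2.Gl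

-- ▼ part N250/Bt/Main
section

/-!
# Row 250, Boot (helper14): `BootS` from White's theorem
-/

set_option autoImplicit false

namespace Crest.Agent.N250

theorem bootS_of (hW : WhiteS) : BootS :=
  Bt.bootS_of (Bt.bootF_of divS_holds transS_holds muContS_holds huiskenS_holds hW bernS_holds
    reachAS_holds)

end Crest.Agent.N250
end

-- ▼ part N250/Gi/Glx
section

/-!
# Row 250 (helper62): `GLX` from the block `B2`
-/

namespace Crest.Agent.N250.Gi.T

theorem glx_of (h : B2.GL2Stmt) : R0.GLX := conclX_of h giS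

end Crest.Agent.N250.Gi.T
end

-- ▼ part N250/Cc/Val2
section

/-!
# Row 250, block (B2), helper93: the sharp rate of the value along the glued curve (`Cc.curve2`).
-/

set_option autoImplicit false
set_option linter.unusedSectionVars false

open Set Metric Filter Topology Function

noncomputable section

namespace Crest.Agent.N250.Cc
open B2

variable {ι κ Γ : Type} [Fintype ι] [Fintype κ] [DecidableEq κ] {P : ℕ → ι ⊕ κ → ℝ} {q : ℕ}
  {al : ℝ} {Q : Cells Γ} {F : (κ → Γ) → (ι ⊕ κ → ℂ) → ℂ} {r c C d Λ r3 C1 : ℝ} {K μ : ℕ} {f0 : ℂ}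
  {z : ℝ → ℂ → ι ⊕ κ → ℂ}

theorem OO.mono {d d' ρ : ℝ} {t : ℂ} (ha : 0 < al) (hd : d' ≤ d) (h : t ∈ OO al q d Λ r3 ρ) :
    t ∈ OO al q d' Λ r3 ρ :=
  ⟨h.1, h.2.1, (mul_le_mul_of_nonneg_right hd (by positivity)).trans_lt h.2.2.1, h.2.2.2⟩

set_option maxHeartbeats 1000000 in
theorem Fm.val2 {th th' th2 Lam lam lam' : ℝ} (h : Fm Q F r c P q al th2⁻¹ Λ r3 K f0 z μ C1)
    (hW : Wk Q F r c C) (ha : 0 < al) (hq : 0 < q) (t0 : 0 < th) (t1 : th ≤ th') (t2 : th' ≤ th2)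
    (t3 : th2 < 1) (hL : 1 ≤ Lam) (hΛ : Lam * al / th ^ 4 ≤ Λ) (hl : lam ≤ c * th ^ 4)
    (hl' : lam' ≤ c * th2 ^ 4) : ∃ C' s2, ∀ s, s2 < s → ∀ t ∈ An al q th Lam s,
      glue (fun k : ℤ => z (th ^ 3 * k)⁻¹) s t ∈ Q.Dom r (fun _ : κ => Q.disc (th' * sg al q t)⁻¹) ∧
      ‖Fd Q F (th' * sg al q t)⁻¹ (glue (fun k : ℤ => z (th ^ 3 * k)⁻¹) s t) - f0‖ ≤
        C' * (Real.exp (-lam' * (th' * sg al q t)) + Real.exp (-(2 * lam) * s)) := by
  have u0 : 0 < th' := t0.trans_le t1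
  have u1 : 0 < th2 := u0.trans_le t2
  have u2 : th ≤ th2 := t1.trans t2
  have u3 : th < 1 := u2.trans_lt t3
  have hd : 1 < th2⁻¹ := (one_lt_inv₀ u1).2 t3
  have hc := hW.c_pos
  have h42 : th ^ 4 ≤ th2 ^ 2 := (pow_le_pow_of_le_one t0.le u3.le (by norm_num)).trans
    (pow_le_pow_left₀ t0.le u2 2)
  obtain ⟨Ce, pe, he⟩ := h.exp_small hW ha hq u1 t3 (le_trans (by
    rw [inv_mul_eq_div]
    exact div_le_div₀ (by positivity) (by nlinarith) (by positivity) h42) hΛ)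
  obtain ⟨Cj, pj, hj⟩ := h.jmp
  obtain ⟨s1, D, p1, pD, key⟩ := key hc ha hq t0 u3 hL hΛ h.r3_pos h.r3_le (μ + K)
  set B := 2 * (Fintype.card κ * max C 0) with hB
  have pB : 0 ≤ B := by positivity
  have pM : 0 ≤ max C 0 := le_max_right _ _
  set C3 := Ce * (Cj * D) + 16 * max C 0 * (Cj * D) ^ 2 with hC3
  have q3 : 0 ≤ C3 := by positivity
  refine ⟨B + Ce + C3, s1, fun s hs t ht => ?_⟩
  obtain ⟨a0, a1, -, a4, a5, m0, m1, hβ⟩ := key s hs t ht
  replace m0 := OO.mono ha (inv_anti₀ t0 u2) m0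
  replace m1 := OO.mono ha (inv_anti₀ t0 u2) m1
  obtain ⟨ρ', m2, l2, e2⟩ := he t a0 a1
  have ps : 0 < s := p1.trans hs
  have psg := sg_pos (q := q) ha a0
  have a2 : ‖t‖ ≤ 1 := by linarith [h.r3_le]
  have pρ' := OO.pos ha hd m2
  have hm := OO.lt ha hd h.Λ_le m0
  set ρm := (th ^ 3 * (⌊s⌋ : ℝ))⁻¹ with hρm
  set ρ := (th' * sg al q t)⁻¹ with hρ
  have pρ : 0 < ρ := by positivity
  have a6 : (th2 ^ 2 * sg al q t)⁻¹ ≤ ρm := le_trans (inv_anti₀ (by positivity)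
    (mul_le_mul_of_nonneg_right (pow_le_pow_left₀ t0.le u2 2) psg.le)) a5
  have l1 : ρ ≤ ρm := le_trans (inv_anti₀ (by positivity)
    (mul_le_mul_of_nonneg_right ((pow_le_of_le_one t0.le u3.le two_ne_zero).trans t1) psg.le)) a5
  have s1' := h.sub t a1 ρ (by
    rw [hρ, sg, mul_inv, inv_inv]
    exact mul_le_mul_of_nonneg_right (inv_anti₀ u0 t2) (by positivity)) pρ (l1.trans_lt hm)
  have s2' := h.sub' ha hd m2
  have hA2 := EX.adm_disc (κ := κ) Q pρ' ((l2.trans a6).trans_lt hm)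
  have hM : ∀ y ∈ ball (B2.cv P (K + 1) t) (‖t‖ ^ K), ‖Fd Q F ρ' y‖ ≤ max C 0 := fun y hy =>
    (hW.bdd _ hA2 y (s2' hy)).trans (le_max_left _ _)
  have i1 := h.in4' a0 a1 (glue_near (z := fun k : ℤ => z (th ^ 3 * k)⁻¹) (h.near _ t m0)
    (h.near _ t m1))
  have i2 := h.in4 m2
  have dz : ‖glue (fun k : ℤ => z (th ^ 3 * k)⁻¹) s t - z ρ' t‖ ≤
      Cj * (Real.exp (-c / ρm) / ‖t‖ ^ μ) :=
    glue_near (hj _ _ ρm le_rfl (l2.trans a6) hm t m0 m2) (hj _ _ ρm a4 (l2.trans a6) hm t m1 m2)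
  set Z := glue (fun k : ℤ => z (th ^ 3 * k)⁻¹) s t with hZ
  refine ⟨s1' (ball_subset_ball (by linarith [pow_pos a0 K]) i1), ?_⟩
  set e := Real.exp (-c / ρm) with he'
  have pe' : 0 < e := Real.exp_pos _
  set E := Real.exp (-lam * s) with hE
  have pE : 0 < E := Real.exp_pos _
  have eE0 : Real.exp (-(c * th ^ 4) * s) ≤ E :=
    Real.exp_le_exp.2 (mul_le_mul_of_nonneg_right (neg_le_neg hl) ps.le)
  have b0 : ∀ n ≤ μ + K, e / ‖t‖ ^ n ≤ D * E := fun n hn =>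
    ((div_le_div_of_nonneg_left pe'.le (by positivity)
      (pow_le_pow_of_le_one a0.le a2 hn)).trans hβ).trans (mul_le_mul_of_nonneg_left eE0 pD)
  have eE : Real.exp (-(c * th2 ^ 3) * sg al q t) ≤ E := by
    refine le_trans (Real.exp_le_exp.2 ?_) eE0
    have b1 : c * th ^ 3 * (th * s) ≤ c * th2 ^ 3 * sg al q t :=
      mul_le_mul (mul_le_mul_of_nonneg_left (pow_le_pow_left₀ t0.le u2 3) hc.le) ht.1.le
        (by positivity) (by positivity)
    linarith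
  have g0 : ‖fderiv ℂ (Fd Q F ρ') (z ρ' t)‖ ≤ Ce * E :=
    ((norm_fst_le (HH Q F f0 z ρ' t)).trans e2).trans (mul_le_mul_of_nonneg_left eE pe)
  have v0 : ‖Fd Q F ρ' (z ρ' t) - f0‖ ≤ Ce * Real.exp (-(c * th2 ^ 3) * sg al q t) :=
    (norm_snd_le (HH Q F f0 z ρ' t)).trans e2
  set E' := Real.exp (-lam' * (th' * sg al q t)) with hE'
  have pE' : 0 < E' := Real.exp_pos _
  have k1 : lam' * (th' * sg al q t) ≤ c * th2 ^ 4 * (th' * sg al q t) :=
    mul_le_mul_of_nonneg_right hl' (by positivity)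
  have k2 : c * th2 ^ 4 * (th' * sg al q t) ≤ c * th2 ^ 3 * sg al q t := by
    have : th2 ^ 4 * th' ≤ th2 ^ 3 := (mul_le_of_le_one_right (by positivity) (by linarith)).trans
      (pow_le_pow_of_le_one u1.le t3.le (by norm_num))
    have := mul_le_mul_of_nonneg_left this (mul_pos hc psg).le
    linarith
  have w1 : Real.exp (-(c * th2 ^ 3) * sg al q t) ≤ E' := Real.exp_le_exp.2 (by linarith)
  have w2 : Real.exp (-c / max ρ (th2 ^ 2 * sg al q t)⁻¹) ≤ E' := by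
    rcases le_total ρ (th2 ^ 2 * sg al q t)⁻¹ with h' | h'
    · rw [max_eq_right h', div_inv_eq_mul]
      refine le_trans (Real.exp_le_exp.2 ?_) w1
      have : th2 ^ 3 ≤ th2 ^ 2 := pow_le_pow_of_le_one u1.le t3.le (by norm_num)
      have := mul_le_mul_of_nonneg_left this (mul_pos hc psg).le
      linarith
    · rw [max_eq_left h', hρ, div_inv_eq_mul]
      refine Real.exp_le_exp.2 ?_
      have : th2 ^ 4 ≤ 1 := pow_le_one₀ u1.le t3.le
      have := mul_le_mul_of_nonneg_left this (mul_pos hc (mul_pos u0 psg)).le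
      linarith
  have g1 := pair_val ((hW.hol _ hA2).mono s2') hM
    (fun y hy => fd_cmp hW pρ pρ' (le_max_left _ _) (l2.trans (le_max_right _ _))
      (max_lt (l1.trans_lt hm) (a6.trans_lt hm)) (s1' hy) (s2' hy)) i1 i2
  have E2 : Real.exp (-(2 * lam) * s) = E * E := by
    rw [hE, ← Real.exp_add]; congr 1; ring
  have d1 : ‖Z - z ρ' t‖ ≤ Cj * D * E := by
    rw [mul_assoc]; exact dz.trans (mul_le_mul_of_nonneg_left (b0 μ (by omega)) pj)
  have d2 : ‖Z - z ρ' t‖ / ‖t‖ ^ K ≤ Cj * D * E := by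
    rw [mul_assoc]
    refine (div_le_div_of_nonneg_right dz (by positivity)).trans (le_trans (le_of_eq ?_)
      (mul_le_mul_of_nonneg_left (b0 (μ + K) le_rfl) pj))
    field_simp; ring
  have c1 : ‖fderiv ℂ (Fd Q F ρ') (z ρ' t)‖ * ‖Z - z ρ' t‖ ≤ Ce * (Cj * D) * (E * E) :=
    (mul_le_mul g0 d1 (norm_nonneg _) (by positivity)).trans (le_of_eq (by ring))
  have c2 : 16 * max C 0 / (‖t‖ ^ K) ^ 2 * ‖Z - z ρ' t‖ ^ 2 ≤
      16 * max C 0 * (Cj * D) ^ 2 * (E * E) := by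
    have := pow_le_pow_left₀ (by positivity) d2 2
    refine le_trans (le_of_eq ?_) ((mul_le_mul_of_nonneg_left this
      (by positivity : 0 ≤ 16 * max C 0)).trans (le_of_eq (by ring)))
    field_simp
  have c4 := norm_sub_le_norm_sub_add_norm_sub (Fd Q F ρ Z) (Fd Q F ρ' (z ρ' t)) f0
  have c5 := mul_le_mul_of_nonneg_left w2 pB
  have c6 := mul_le_mul_of_nonneg_left w1 pe
  have c7 : 0 ≤ C3 * E' := by positivity
  have c8 : 0 ≤ (B + Ce) * (E * E) := by positivity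
  have c9 : (B + Ce + C3) * (E' + E * E) = B * E' + Ce * E' + C3 * E' + (B + Ce) * (E * E) +
      (Ce * (Cj * D) * (E * E) + 16 * max C 0 * (Cj * D) ^ 2 * (E * E)) := by rw [hC3]; ring
  rw [E2, c9]
  unfold Fd at *
  linarith

/-- **Cells along the curve**, with the sharp rate of the value. -/
theorem curve2 (hW : Wk Q F r c C) (hO : Ord P q al)
    (hH : ∀ (K : ℕ) (Λ : ℝ), 1 ≤ K → ∃ r2 f0 Z μ C', Hn Q F r P K Λ r2 f0 Z μ C')
    {lam th Lam : ℝ} (t0 : 0 < th) (t1 : th < 1) (hl : lam ≤ c * th ^ 4) (hL : 1 ≤ Lam) {M : ℕ}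
    (hM : q + 2 ≤ M) : ∃ s1 C' f0 Z, 0 ≤ C' ∧ Cv Q F r P q al lam Lam th s1 C' M f0 Z ∧
      Ov.Val2 Q F r c q al lam Lam th f0 Z := by
  obtain ⟨K, rfl⟩ : ∃ K, M = K + 1 := ⟨M - 1, by omega⟩
  have ha := hO.al_pos
  obtain ⟨r2, f0, Z, μ, C', h⟩ := hH K (Lam * al / th ^ 4) (by omega)
  obtain ⟨r3, h1⟩ := exists_fm hW hO ((one_lt_inv₀ t0).2 t1) (by positivity) (by omega) h
  obtain ⟨s1, C2, p2, h2⟩ := h1.cv hW ha hO.q_pos t0 t1 hL le_rfl
  refine ⟨s1, C2, f0, _, p2, h2.mono ha hO.q_pos p2 hl, fun th' a b lam' hl' => ?_⟩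
  obtain ⟨th2, c0, c1, c2, c3⟩ := exists_th hl' b
  obtain ⟨r4, h4⟩ := exists_fm hW hO ((one_lt_inv₀ c0).2 c1) (by positivity) (by omega) h
  exact h4.val2 hW ha hO.q_pos t0 a c2.le c1 hL le_rfl hl c3

/-- the form used by the final assembly (`c = 1/2`) -/
theorem curve3 (hW : Wk Q F r (1 / 2) C) (h0 : P 0 = 0) (hne : ∃ m j, P m (Sum.inr j) ≠ 0)
    (hH : ∀ (K : ℕ) (Λ : ℝ), 1 ≤ K → ∃ r2 f0 Z μ C', Hn Q F r P K Λ r2 f0 Z μ C') :
    ∃ q al lam Lam th s1 C1 N f0 Z, Ord P q al ∧ 2 * q + 1 ≤ N ∧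
      Cv Q F r P q al lam Lam th s1 C1 N f0 Z ∧ 1 / 4 < lam ∧ 2 * lam ≤ th ^ 2 ∧ 1 < Lam ∧
      Ov.Val2 Q F r (1 / 2) q al lam Lam th f0 Z := by
  obtain ⟨q, al, hO⟩ := exists_ord h0 hne
  obtain ⟨th, t0, t1, -, hl⟩ := exists_th (lam := 3 / 8) (c := 1 / 2) (th0 := 0) (by norm_num) one_pos
  obtain ⟨s1, C1, f0, Z, -, h1, h2⟩ := curve2 hW hO hH t0 t1 hl (Lam := 2) (by norm_num)
    (M := 2 * q + 2) (by omega)
  have : th ^ 4 ≤ th ^ 2 := pow_le_pow_of_le_one t0.le t1.le (by norm_num)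
  exact ⟨q, al, _, _, th, s1, C1, _, f0, Z, hO, by omega, h1, by norm_num, by linarith, by norm_num, h2⟩

end Crest.Agent.N250.Cc

end
end

-- ▼ part N250/St/Inner
section

/-!
# Row 250, block B2 (helper92): the contribution of one end to the inner integral
-/

set_option autoImplicit false
open Set Filter Topology MeasureTheory Complex

noncomputable section

namespace Crest.Agent.N250.St

/-- the weight of the Stokes argument -/
def wt (e : ℝ) (w : ℂ) : ℂ :=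
  Real.exp w.re * ((chi w.im : ℂ) - (3 / 4 * w.im : ℝ) * I) * Real.exp (-hh w / 4) *
    cexp (w + (1 / 4 - e : ℝ) * cexp w)

namespace Inn

/-- the polynomial factor of the weight -/
def cc (y : ℝ) : ℂ := (chi y : ℂ) - (3 / 4 * y : ℝ) * I

theorem wt_eq (e x y : ℝ) : wt e (x + y * I) = (Real.exp x ^ 2 : ℝ) * cc y *
    cexp ((-(Real.exp x * chi y) / 4 + (1 / 4 - e) * (Real.exp x * Real.cos y) : ℝ) +
      (y + (1 / 4 - e) * (Real.exp x * Real.sin y) : ℝ) * I) := by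
  have h1 : ((x : ℂ) + y * I).re = x := by simp
  have h2 : ((x : ℂ) + y * I).im = y := by simp
  have h3 : cexp ((x : ℂ) + y * I) = Real.exp x * (Real.cos y + Real.sin y * I) := by
    rw [Complex.exp_add, Complex.exp_mul_I]
    push_cast
    ring
  have h4 : cexp ((x : ℂ) + y * I + (1 / 4 - e : ℝ) * cexp (x + y * I)) = (Real.exp x : ℝ) *
      cexp (y * I + (1 / 4 - e : ℝ) * (Real.exp x * (Real.cos y + Real.sin y * I))) := by
    rw [h3, add_assoc, Complex.exp_add, Complex.ofReal_exp]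
  rw [wt, hh, h1, h2, h4, cc, Complex.ofReal_exp (-(Real.exp x * chi y) / 4)]
  have h5 : cexp ((-(Real.exp x * chi y) / 4 + (1 / 4 - e) * (Real.exp x * Real.cos y) : ℝ) +
      (y + (1 / 4 - e) * (Real.exp x * Real.sin y) : ℝ) * I) =
      cexp (-(Real.exp x * chi y) / 4 : ℝ) *
      cexp (y * I + (1 / 4 - e : ℝ) * (Real.exp x * (Real.cos y + Real.sin y * I))) := by
    rw [← Complex.exp_add]
    congr 1
    simp only [ofReal_add, ofReal_mul]
    ring
  rw [h5, ofReal_pow]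
  ring

theorem norm_cc {y : ℝ} (hy : |y| ≤ 1) : ‖cc y‖ ≤ 1 := by
  have h1 : y ^ 2 ≤ 1 := by rw [← sq_abs]; nlinarith [abs_nonneg y]
  rw [← sq_le_one_iff₀ (norm_nonneg _), Complex.sq_norm, normSq_apply]
  simp only [cc, chi, sub_re, ofReal_re, mul_re, I_re, mul_zero, ofReal_im, I_im, mul_one,
    sub_zero, sub_im, mul_im, add_zero, zero_sub]
  nlinarith [sq_nonneg y]

theorem cos_le {y : ℝ} (hy : |y| ≤ 1) : Real.cos y ≤ chi y - y ^ 2 / 16 := by
  have h1 : y ^ 2 ≤ 1 := by rw [← sq_abs]; nlinarith [abs_nonneg y]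
  have h2 := (abs_le.1 (Real.cos_bound hy)).2
  have h3 : |y| ^ 4 = y ^ 2 * y ^ 2 := by rw [← sq_abs y]; ring
  rw [h3] at h2
  unfold chi
  nlinarith [sq_nonneg y]

theorem norm_wt {e x y : ℝ} (he : 0 ≤ e) (hy : |y| ≤ 1) : ‖wt e (x + y * I)‖ ≤
    Real.exp x ^ 2 * Real.exp (-e * Real.exp x / 2) * Real.exp (-(Real.exp x * y ^ 2) / 64) := by
  have h1 : y ^ 2 ≤ 1 := by rw [← sq_abs]; nlinarith [abs_nonneg y]
  have hρ := Real.exp_pos x
  rw [wt_eq, norm_mul, norm_mul, Complex.norm_exp, Complex.norm_real,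
    Real.norm_of_nonneg (by positivity), mul_assoc, mul_assoc, ← Real.exp_add]
  refine mul_le_mul_of_nonneg_left ?_ (by positivity)
  refine (mul_le_of_le_one_left (Real.exp_pos _).le (norm_cc hy)).trans (Real.exp_le_exp.2 ?_)
  simp only [add_re, ofReal_re, mul_re, I_re, mul_zero, ofReal_im, I_im, mul_one, sub_zero,
    add_zero]
  have h2 := mul_le_mul_of_nonneg_left (cos_le hy) hρ.le
  have h3 : 1 / 2 ≤ Real.cos y := by linarith [Real.one_sub_sq_div_two_le_cos (x := y)]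
  have h4 := mul_le_mul_of_nonneg_left h3 (mul_nonneg he hρ.le)
  nlinarith

theorem cont_wt (e : ℝ) : Continuous (wt e) := by
  unfold wt hh chi
  fun_prop

/-- the normalised weight at a tied end -/
def AA (γ s : ℝ) (p : ℝ × ℝ) : ℂ :=
  cc ((s - γ * Real.exp (p.1 / 2)) / Real.exp p.1) *
    cexp ((-(Real.exp p.1 * chi ((s - γ * Real.exp (p.1 / 2)) / Real.exp p.1)) / 4 +
      (1 / 4 - p.2) * (Real.exp p.1 * Real.cos ((s - γ * Real.exp (p.1 / 2)) / Real.exp p.1)) +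
        p.2 * Real.exp p.1 : ℝ) +
      ((s - γ * Real.exp (p.1 / 2)) / Real.exp p.1 + (1 / 4 - p.2) *
        (Real.exp p.1 * Real.sin ((s - γ * Real.exp (p.1 / 2)) / Real.exp p.1)) +
          (1 / 4 - p.2) * γ * Real.exp (p.1 / 2) : ℝ) * I)

theorem lim_t (γ s : ℝ) :
    Tendsto (fun x => (s - γ * Real.exp (x / 2)) / Real.exp (x / 2)) atTop (𝓝 (-γ)) := by
  have h1 : Tendsto (fun x : ℝ => Real.exp (x / 2)) atTop atTop :=
    Real.tendsto_exp_atTop.comp (tendsto_id.atTop_div_const two_pos)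
  have h2 := (tendsto_const_nhds (x := s).div_atTop h1).sub_const γ
  rw [zero_sub] at h2
  refine h2.congr fun x => ?_
  have := Real.exp_pos (x / 2)
  field_simp

theorem exp_half (x : ℝ) : Real.exp x = Real.exp (x / 2) ^ 2 := by
  rw [← Real.exp_nat_mul]
  congr 1
  push_cast
  ring

theorem lim_y (γ s : ℝ) :
    Tendsto (fun x => (s - γ * Real.exp (x / 2)) / Real.exp x) atTop (𝓝 0) := by
  have h1 : Tendsto (fun x : ℝ => Real.exp (x / 2)) atTop atTop :=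
    Real.tendsto_exp_atTop.comp (tendsto_id.atTop_div_const two_pos)
  refine ((lim_t γ s).div_atTop h1).congr fun x => ?_
  rw [exp_half x]
  have := Real.exp_pos (x / 2)
  field_simp

theorem lim_q (γ s : ℝ) : Tendsto (fun x =>
    Real.exp x * ((s - γ * Real.exp (x / 2)) / Real.exp x) ^ 2) atTop (𝓝 (γ ^ 2)) := by
  have := (lim_t γ s).pow 2
  rw [neg_sq] at this
  refine this.congr fun x => ?_
  rw [exp_half x]
  have := Real.exp_pos (x / 2)
  field_simp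

theorem lim_AA (γ s : ℝ) : Tendsto (AA γ s) (atTop ×ˢ 𝓝[>] 0)
    (𝓝 ((Real.exp (-γ ^ 2 / 32) : ℝ) * cexp ((s / 4 : ℝ) * I))) := by
  set y : ℝ → ℝ := fun x => (s - γ * Real.exp (x / 2)) / Real.exp x with hy
  have ly : Tendsto y atTop (𝓝 0) := lim_y γ s
  have lq : Tendsto (fun x => Real.exp x * y x ^ 2) atTop (𝓝 (γ ^ 2)) := lim_q γ s
  have ev : ∀ᶠ x in atTop, |y x| ≤ 1 := by
    have := ly.abs
    rw [abs_zero] at this
    exact this.eventually (ge_mem_nhds one_pos)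
  have la : Tendsto (fun x => Real.exp x * (Real.cos (y x) - (1 - y x ^ 2 / 2))) atTop (𝓝 0) := by
    have t1 := lq.mul (ly.pow 2)
    simp only [ne_eq, OfNat.ofNat_ne_zero, not_false_eq_true, zero_pow, mul_zero] at t1
    refine squeeze_zero_norm' ?_ t1
    filter_upwards [ev] with x hx
    have h2 := Real.cos_bound hx
    have h3 : |y x| ^ 4 = y x ^ 2 * y x ^ 2 := by rw [← sq_abs (y x)]; ring
    rw [norm_mul, Real.norm_of_nonneg (Real.exp_pos x).le, mul_assoc, Real.norm_eq_abs]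
    refine mul_le_mul_of_nonneg_left ?_ (Real.exp_pos x).le
    rw [h3] at h2
    nlinarith [mul_nonneg (sq_nonneg (y x)) (sq_nonneg (y x))]
  have lb : Tendsto (fun x => Real.exp x * (Real.sin (y x) - y x)) atTop (𝓝 0) := by
    have t1 := lq.mul ly.abs
    simp only [abs_zero, mul_zero] at t1
    refine squeeze_zero_norm' ?_ t1
    filter_upwards [ev] with x hx
    have h2 := Real.sin_bound hx
    have h0 := abs_nonneg (y x)
    have h3 : |y x ^ 3 / 6| = |y x| ^ 3 / 6 := by rw [abs_div, abs_pow]; norm_num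
    have h4 := abs_sub_le (Real.sin (y x)) (y x - y x ^ 3 / 6) (y x)
    rw [show y x - y x ^ 3 / 6 - y x = -(y x ^ 3 / 6) by ring, abs_neg, h3] at h4
    rw [norm_mul, Real.norm_of_nonneg (Real.exp_pos x).le, mul_assoc, Real.norm_eq_abs,
      ← sq_abs (y x)]
    refine mul_le_mul_of_nonneg_left ?_ (Real.exp_pos x).le
    have h5 : |y x| ^ 4 ≤ |y x| ^ 3 := pow_le_pow_of_le_one h0 hx (by norm_num)
    have h6 : 0 ≤ |y x| ^ 3 := by positivity
    nlinarith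
  have f1 : Tendsto (fun p : ℝ × ℝ => p.1) (atTop ×ˢ 𝓝[>] 0) atTop := tendsto_fst
  have f2 : Tendsto (fun p : ℝ × ℝ => p.2) (atTop ×ˢ 𝓝[>] (0 : ℝ)) (𝓝 0) :=
    tendsto_snd.mono_right nhdsWithin_le_nhds
  have r1 : Tendsto (fun p : ℝ × ℝ => -(Real.exp p.1 * chi (y p.1)) / 4 +
      (1 / 4 - p.2) * (Real.exp p.1 * Real.cos (y p.1)) + p.2 * Real.exp p.1) (atTop ×ˢ 𝓝[>] 0)
      (𝓝 (-γ ^ 2 / 32)) := by
    have t := (((tendsto_const_nhds (x := (1 / 4 : ℝ))).sub f2).mul (la.comp f1)).add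
      ((f2.div_const 2).sub_const (1 / 32) |>.mul (lq.comp f1))
    refine (t.congr fun p => ?_).trans (by ring_nf; rfl)
    simp only [Function.comp, chi]
    ring
  have r2 : Tendsto (fun p : ℝ × ℝ => y p.1 + (1 / 4 - p.2) * (Real.exp p.1 * Real.sin (y p.1)) +
      (1 / 4 - p.2) * γ * Real.exp (p.1 / 2)) (atTop ×ˢ 𝓝[>] 0) (𝓝 (s / 4)) := by
    have t := (ly.comp f1).add (((tendsto_const_nhds (x := (1 / 4 : ℝ))).sub f2).mul
      ((lb.comp f1).add_const s))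
    refine (t.congr fun p => ?_).trans (by ring_nf; rfl)
    have := Real.exp_pos p.1
    have e : Real.exp p.1 * y p.1 = s - γ * Real.exp (p.1 / 2) := by
      simp only [hy]
      field_simp
    simp only [Function.comp]
    linear_combination (-(1 / 4 - p.2)) * e
  have r3 : Tendsto (fun p : ℝ × ℝ => cc (y p.1)) (atTop ×ˢ 𝓝[>] 0) (𝓝 1) := by
    have hc : Continuous cc := by
      unfold cc chi
      fun_prop
    have := (hc.tendsto 0).comp (ly.comp f1)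
    rwa [show cc 0 = 1 by simp [cc, chi]] at this
  have r4 := r3.mul (((continuous_ofReal.tendsto _).comp r1).add
    (((continuous_ofReal.tendsto _).comp r2).mul_const I)).cexp
  rw [one_mul, Complex.exp_add, ← Complex.ofReal_exp] at r4
  exact r4

theorem wt_AA (γ s : ℝ) (p : ℝ × ℝ) :
    wt p.2 (p.1 + ((s - γ * Real.exp (p.1 / 2)) / Real.exp p.1 : ℝ) * I) =
      (Real.exp p.1 ^ 2 * Real.exp (-p.2 * Real.exp p.1) : ℝ) *
        cexp (-((1 / 4 - p.2) * γ * Real.exp (p.1 / 2) : ℝ) * I) * AA γ s p := by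
  rw [wt_eq, AA, ofReal_mul, Complex.ofReal_exp (-p.2 * Real.exp p.1)]
  generalize (s - γ * Real.exp (p.1 / 2)) / Real.exp p.1 = y
  have h : cexp ((-(Real.exp p.1 * chi y) / 4 + (1 / 4 - p.2) * (Real.exp p.1 * Real.cos y) : ℝ) +
      (y + (1 / 4 - p.2) * (Real.exp p.1 * Real.sin y) : ℝ) * I) =
      cexp (-p.2 * Real.exp p.1 : ℝ) * cexp (-((1 / 4 - p.2) * γ * Real.exp (p.1 / 2) : ℝ) * I) *
      cexp ((-(Real.exp p.1 * chi y) / 4 + (1 / 4 - p.2) * (Real.exp p.1 * Real.cos y) +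
        p.2 * Real.exp p.1 : ℝ) + (y + (1 / 4 - p.2) * (Real.exp p.1 * Real.sin y) +
          (1 / 4 - p.2) * γ * Real.exp (p.1 / 2) : ℝ) * I) := by
    rw [← Complex.exp_add, ← Complex.exp_add]
    congr 1
    simp only [ofReal_add, ofReal_mul, ofReal_neg]
    ring
  rw [h]
  ring

theorem mem_QQ {σ : ℝ → ℝ} {x₀ θ x s : ℝ} (hx : x₀ ≤ x) : pt σ x s ∈ QQ x₀ θ ↔
    s ∈ Icc (-θ * Real.exp x - σ x) (θ * Real.exp x - σ x) := by
  have hρ := Real.exp_pos x
  have h1 : (pt σ x s).re = x := by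
    simp only [pt, add_re, ofReal_re, mul_re, I_re, mul_zero, ofReal_im, I_im, mul_one, sub_zero,
      add_zero]
  have h2 : (pt σ x s).im = (s + σ x) / Real.exp x := by
    simp only [pt, add_im, ofReal_re, mul_im, I_re, mul_zero, ofReal_im, I_im, mul_one, zero_add,
      add_zero]
  simp only [QQ, mem_ofPred_eq, h1, h2, hx, true_and, abs_le, le_div_iff₀ hρ, div_le_iff₀ hρ,
    mem_Icc]
  constructor <;> rintro ⟨a, b⟩ <;> constructor <;> linarith

theorem change (f : ℝ → ℂ) (x c : ℝ) {θ : ℝ} (h0 : 0 < θ) : ∫ y in (-θ)..θ, f y =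
    (Real.exp x)⁻¹ • ∫ s, (Icc (-θ * Real.exp x - c) (θ * Real.exp x - c)).indicator
      (fun s => f ((s + c) / Real.exp x)) s := by
  have hρ := Real.exp_pos x
  rw [integral_indicator measurableSet_Icc, integral_Icc_eq_integral_Ioc,
    ← intervalIntegral.integral_of_le (by nlinarith),
    intervalIntegral.integral_comp_add_right (fun u => f (u / Real.exp x)) c,
    intervalIntegral.integral_comp_div _ hρ.ne', smul_smul, inv_mul_cancel₀ hρ.ne', one_smul]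
  congr 1 <;> field_simp <;> ring

end Inn

open Inn in
theorem Prof.inner {Φ : ℂ → ℂ} {x₀ θ γ : ℝ} {φ : ℝ → ℂ} {M : ℝ → ℝ} (h : Prof Φ x₀ θ γ φ M)
    (h0 : 0 < θ) (h1 : θ ≤ 1) {η : ℝ} (hη : 0 < η) :
    ∀ᶠ p : ℝ × ℝ in atTop ×ˢ 𝓝[>] 0,
      ‖(∫ y in (-θ)..θ, wt p.2 (p.1 + y * I) * Φ (p.1 + y * I)) -
        (Real.exp p.1 * Real.exp (-p.2 * Real.exp p.1) * Real.exp (-γ ^ 2 / 32) : ℝ) *
          cexp (-((1 / 4 - p.2) * γ * Real.exp (p.1 / 2) : ℝ) * I) *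
          ∫ s : ℝ, cexp ((s / 4 : ℝ) * I) * φ s‖ ≤
      Real.exp p.1 * (Real.exp (-p.2 * Real.exp p.1) * (∫ s, M s) +
        η * Real.exp (-p.2 * Real.exp p.1 / 2)) := by
  obtain ⟨σ, Dom, C, κ, hκ, hDom, hcase, hbd, hlim⟩ := h.ex
  set D : ℝ × ℝ → Set ℝ := fun p =>
    Icc (-θ * Real.exp p.1 - σ p.1) (θ * Real.exp p.1 - σ p.1) with hD
  set F : ℝ × ℝ → ℝ → ℂ := fun p s => wt p.2 (pt σ p.1 s) * Φ (pt σ p.1 s) with hF
  set a : ℝ × ℝ → ℝ := fun p => Real.exp (-p.2 * Real.exp p.1 / 2) with ha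
  set ph : ℝ × ℝ → ℂ := fun p => cexp (-((1 / 4 - p.2) * γ * Real.exp (p.1 / 2) : ℝ) * I) with hph
  set Er : ℝ × ℝ → ℝ → ℂ := fun p s => (Real.exp p.1 ^ 2 * a p)⁻¹ • (D p).indicator (F p) s -
    (a p * Real.exp (-γ ^ 2 / 32) : ℝ) * ph p * (cexp ((s / 4 : ℝ) * I) * φ s) with hEr
  set g : ℝ → ℝ → ℝ := fun x s => |C| * Real.exp (-(1 / 2 + κ) * x) *
    Real.exp (-(64 * Real.exp x)⁻¹ * (s + σ x) ^ 2) with hg
  set P : ℝ × ℝ → ℝ → ℝ := fun p s => max (‖Er p s‖ - a p * M s - g p.1 s) 0 with hP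
  have ha0 : ∀ p, 0 < a p := fun p => Real.exp_pos _
  have ha1 : ∀ p : ℝ × ℝ, 0 < p.2 → a p ≤ 1 := fun p hp => by
    refine Real.exp_le_one_iff.2 ?_
    have := mul_pos hp (Real.exp_pos p.1)
    linarith
  have haa : ∀ p : ℝ × ℝ, Real.exp (-p.2 * Real.exp p.1) = a p * a p := fun p => by
    simp only [ha]
    rw [← Real.exp_add]
    congr 1
    ring
  have hph1 : ∀ p, ‖ph p‖ = 1 := fun p => by
    simp only [hph]
    rw [← ofReal_neg, Complex.norm_exp_ofReal_mul_I]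
  have hγ : Real.exp (-γ ^ 2 / 32) ≤ 1 := Real.exp_le_one_iff.2 (by nlinarith [sq_nonneg γ])
  have hg0 : ∀ x s, 0 ≤ g x s := fun x s => by positivity
  have hev : ∀ᶠ p : ℝ × ℝ in atTop ×ˢ 𝓝[>] 0, x₀ ≤ p.1 ∧ 0 < p.2 :=
    (eventually_ge_atTop x₀).prod_mk self_mem_nhdsWithin
  have iφ : Integrable fun s : ℝ => cexp ((s / 4 : ℝ) * I) * φ s :=
    h.φ_int.bdd_mul (c := 1) (by fun_prop) (Eventually.of_forall fun s => by
      rw [Complex.norm_exp_ofReal_mul_I])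
  have iF : ∀ p : ℝ × ℝ, x₀ ≤ p.1 → Integrable ((D p).indicator (F p)) := fun p hp => by
    rw [integrable_indicator_iff measurableSet_Icc]
    have hc : Continuous (pt σ p.1) := by
      unfold pt
      fun_prop
    refine ContinuousOn.integrableOn_Icc (((cont_wt p.2).comp hc).continuousOn.mul
      ((h.cont p.1 hp).comp (f := fun s => (s + σ p.1) / Real.exp p.1) (by fun_prop)
        fun s hs => ?_))
    have := ((mem_QQ hp).2 hs).2
    simp only [pt, add_im, ofReal_re, mul_im, I_re, mul_zero, ofReal_im, I_im, mul_one,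
      zero_add, add_zero] at this
    exact abs_le.1 this
  have iF' : ∀ p : ℝ × ℝ, x₀ ≤ p.1 →
      Integrable fun s => (Real.exp p.1 ^ 2 * a p)⁻¹ • (D p).indicator (F p) s :=
    fun p hp => (iF p hp).smul (Real.exp p.1 ^ 2 * a p)⁻¹
  have iE : ∀ p : ℝ × ℝ, x₀ ≤ p.1 → Integrable (Er p) := fun p hp =>
    (iF' p hp).sub (iφ.const_mul ((a p * Real.exp (-γ ^ 2 / 32) : ℝ) * ph p))
  have ig : ∀ x, Integrable (g x) := fun x =>
    ((integrable_exp_neg_mul_sq (inv_pos.2 (by positivity : 0 < 64 * Real.exp x))).comp_add_right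
      (σ x)).const_mul _
  have iP : ∀ p : ℝ × ℝ, x₀ ≤ p.1 → Integrable (P p) := fun p hp =>
    (((iE p hp).norm.sub (h.M_int.const_mul _)).sub (ig p.1)).pos_part
  have b1 : ∀ p : ℝ × ℝ, x₀ ≤ p.1 → 0 < p.2 → ∀ s, s ∈ D p →
      ‖(Real.exp p.1 ^ 2 * a p)⁻¹ • (D p).indicator (F p) s‖ ≤
        Real.exp (-(64 * Real.exp p.1)⁻¹ * (s + σ p.1) ^ 2) * ‖Φ (pt σ p.1 s)‖ := by
    intro p hp he s hs
    have hρ := Real.exp_pos p.1
    have hy : |(s + σ p.1) / Real.exp p.1| ≤ 1 := by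
      have := ((mem_QQ hp).2 hs).2
      simp only [pt, add_im, ofReal_re, mul_im, I_re, mul_zero, ofReal_im, I_im, mul_one,
        zero_add, add_zero] at this
      exact this.trans h1
    have hw := norm_wt (x := p.1) he.le hy
    have hpos : 0 < Real.exp p.1 ^ 2 * a p := mul_pos (by positivity) (ha0 p)
    rw [indicator_of_mem hs, norm_smul, norm_inv, Real.norm_of_nonneg hpos.le, norm_mul,
      ← mul_assoc]
    refine mul_le_mul_of_nonneg_right ?_ (norm_nonneg _)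
    rw [inv_mul_le_iff₀ hpos]
    refine hw.trans (le_of_eq ?_)
    congr 2
    field_simp
  have b2 : ∀ p : ℝ × ℝ, 0 < p.2 → ∀ s : ℝ,
      ‖(a p * Real.exp (-γ ^ 2 / 32) : ℝ) * ph p * (cexp ((s / 4 : ℝ) * I) * φ s)‖ ≤ ‖φ s‖ := by
    intro p he s
    rw [norm_mul, norm_mul, norm_mul, hph1, Complex.norm_exp_ofReal_mul_I, one_mul, mul_one,
      Complex.norm_real, Real.norm_of_nonneg (mul_pos (ha0 p) (Real.exp_pos _)).le]
    exact mul_le_of_le_one_left (norm_nonneg _)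
      (mul_le_one₀ (ha1 p he) (Real.exp_pos _).le hγ)
  have hG1 : ∀ x s, Real.exp (-(64 * Real.exp x)⁻¹ * (s + σ x) ^ 2) ≤ 1 := fun x s =>
    Real.exp_le_one_iff.2 (by
      have : 0 ≤ (64 * Real.exp x)⁻¹ * (s + σ x) ^ 2 := by positivity
      linarith)
  have tP : Tendsto (fun p => ∫ s, P p s) (atTop ×ˢ 𝓝[>] 0) (𝓝 (∫ _ : ℝ, (0 : ℝ))) := by
    refine tendsto_integral_filter_of_dominated_convergence (fun s => |Dom s| + ‖φ s‖)
      (hev.mono fun p hp => (iP p hp.1).aestronglyMeasurable)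
      (hev.mono fun p hp => Eventually.of_forall fun s => ?_) (hDom.abs.add h.φ_int.norm)
      (Eventually.of_forall fun s => ?_)
    · rw [Real.norm_of_nonneg (le_max_right _ _)]
      refine max_le ?_ (by positivity)
      have h2 := norm_sub_le ((Real.exp p.1 ^ 2 * a p)⁻¹ • (D p).indicator (F p) s)
        ((a p * Real.exp (-γ ^ 2 / 32) : ℝ) * ph p * (cexp ((s / 4 : ℝ) * I) * φ s))
      have h3 := b2 p hp.2 s
      have h4 := mul_nonneg (ha0 p).le (h.M_nonneg s)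
      have h5 : ‖(Real.exp p.1 ^ 2 * a p)⁻¹ • (D p).indicator (F p) s‖ ≤ |Dom s| + g p.1 s := by
        by_cases hs : s ∈ D p
        · refine (b1 p hp.1 hp.2 s hs).trans ?_
          have h6 : ‖Φ (pt σ p.1 s)‖ ≤ |Dom s| + |C| * Real.exp (-(1 / 2 + κ) * p.1) :=
            (hbd p.1 s ((mem_QQ hp.1).2 hs)).trans (add_le_add (le_abs_self _)
              (mul_le_mul_of_nonneg_right (le_abs_self _) (Real.exp_pos _).le))
          refine (mul_le_mul_of_nonneg_left h6 (Real.exp_pos _).le).trans ?_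
          rw [mul_add]
          exact add_le_add (mul_le_of_le_one_left (abs_nonneg _) (hG1 _ _))
            (le_of_eq (mul_comm _ _))
        · rw [indicator_of_notMem hs, smul_zero, norm_zero]
          exact add_nonneg (abs_nonneg _) (hg0 _ _)
      simp only [hEr]
      linarith
    · refine Metric.tendsto_nhds.2 fun e he => ?_
      suffices hh : ∀ᶠ p : ℝ × ℝ in atTop ×ˢ 𝓝[>] 0, ‖Er p s‖ ≤ a p * M s + e / 2 by
        filter_upwards [hh] with p hp
        rw [dist_zero_right, Real.norm_of_nonneg (le_max_right _ _)]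
        exact max_lt (by linarith [hg0 p.1 s]) he
      rcases hcase with hc | hc
      · filter_upwards [hev, tendsto_fst.eventually (hlim s (e / 2) (half_pos he))] with p hp hq
        simp only [hEr, (hc s).1, (hc s).2, mul_zero, sub_zero, zero_add] at hq ⊢
        by_cases hs : s ∈ D p
        · exact (b1 p hp.1 hp.2 s hs).trans ((mul_le_of_le_one_left (norm_nonneg _)
            (hG1 _ _)).trans (hq ((mem_QQ hp.1).2 hs)))
        · rw [indicator_of_notMem hs, smul_zero, norm_zero]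
          positivity
      · have hy : ∀ x, (s + σ x) / Real.exp x = (s - γ * Real.exp (x / 2)) / Real.exp x :=
          fun x => by rw [hc x]; ring
        have e1 : ∀ᶠ x in atTop, |(s - γ * Real.exp (x / 2)) / Real.exp x| ≤ θ := by
          have := (lim_y γ s).abs
          rw [abs_zero] at this
          exact this.eventually (ge_mem_nhds h0)
        have e2 := ((tendsto_iff_norm_sub_tendsto_zero.1 (lim_AA γ s)).mul_const
          (‖φ s‖ + M s + e / 4))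
        rw [zero_mul] at e2
        filter_upwards [hev, tendsto_fst.eventually (hlim s (e / 4) (by positivity)),
          tendsto_fst.eventually e1, e2.eventually (ge_mem_nhds (show 0 < e / 4 by positivity))]
          with p hp hq hθ hA
        have hQ : pt σ p.1 s ∈ QQ x₀ θ := by
          refine ⟨by
            simp only [pt, add_re, ofReal_re, mul_re, I_re, mul_zero, ofReal_im, I_im, mul_one,
              sub_zero, add_zero]
            exact hp.1, ?_⟩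
          simp only [pt, add_im, ofReal_re, mul_im, I_re, mul_zero, ofReal_im, I_im, mul_one,
            zero_add, add_zero]
          rwa [hy]
        have hq := hq hQ
        have hρ := Real.exp_pos p.1
        have e3 : Er p s = (a p : ℝ) * ph p * (AA γ s p * Φ (pt σ p.1 s) -
            (Real.exp (-γ ^ 2 / 32) : ℝ) * cexp ((s / 4 : ℝ) * I) * φ s) := by
          have e4 : wt p.2 (pt σ p.1 s) = (Real.exp p.1 ^ 2 * (a p * a p) : ℝ) * ph p * AA γ s p := by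
            rw [pt, hy, wt_AA, haa]
          have hne : ((Real.exp p.1 ^ 2 * a p : ℝ) : ℂ) ≠ 0 :=
            ofReal_ne_zero.2 (mul_pos (by positivity) (ha0 p)).ne'
          simp only [hEr, hF]
          rw [indicator_of_mem ((mem_QQ hp.1).1 hQ), e4, real_smul, ofReal_inv, ← mul_assoc (_ ^ 2),
            ofReal_mul (_ * _) (a p), ofReal_mul (a p)]
          field_simp
        set A₀ : ℂ := (Real.exp (-γ ^ 2 / 32) : ℝ) * cexp ((s / 4 : ℝ) * I) with hA₀
        have n0 : ‖A₀‖ ≤ 1 := by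
          rw [hA₀, norm_mul, Complex.norm_exp_ofReal_mul_I, mul_one, Complex.norm_real,
            Real.norm_of_nonneg (Real.exp_pos _).le]
          exact hγ
        have n1 : ‖Φ (pt σ p.1 s)‖ ≤ ‖φ s‖ + M s + e / 4 := by
          have := norm_le_insert' (Φ (pt σ p.1 s)) (φ s)
          linarith
        have n2 : ‖AA γ s p * Φ (pt σ p.1 s) - A₀ * φ s‖ ≤ M s + e / 2 := by
          rw [show AA γ s p * Φ (pt σ p.1 s) - A₀ * φ s = (AA γ s p - A₀) * Φ (pt σ p.1 s) +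
            A₀ * (Φ (pt σ p.1 s) - φ s) by ring]
          refine (norm_add_le _ _).trans ?_
          rw [norm_mul, norm_mul]
          have c1 := mul_le_mul_of_nonneg_left n1 (norm_nonneg (AA γ s p - A₀))
          have c2 := mul_le_of_le_one_left (norm_nonneg (Φ (pt σ p.1 s) - φ s)) n0
          linarith
        rw [e3, norm_mul, norm_mul, hph1, mul_one, Complex.norm_real,
          Real.norm_of_nonneg (ha0 p).le]
        refine (mul_le_mul_of_nonneg_left n2 (ha0 p).le).trans ?_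
        rw [mul_add]
        exact add_le_add le_rfl (mul_le_of_le_one_left (by positivity) (ha1 p hp.2))
  rw [integral_zero] at tP
  have tg : Tendsto (fun x => ∫ s, g x s) atTop (𝓝 0) := by
    have t1 : Tendsto (fun x => |C| * √(64 * Real.pi) * Real.exp (-(κ * x))) atTop
        (𝓝 (|C| * √(64 * Real.pi) * 0)) :=
      (Real.tendsto_exp_neg_atTop_nhds_zero.comp (tendsto_id.const_mul_atTop hκ)).const_mul _
    rw [mul_zero] at t1
    refine t1.congr fun x => ?_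
    simp only [hg]
    rw [integral_const_mul,
      integral_add_right_eq_self (fun u : ℝ => Real.exp (-(64 * Real.exp x)⁻¹ * u ^ 2)) (σ x),
      integral_gaussian, div_inv_eq_mul, show Real.pi * (64 * Real.exp x) =
        64 * Real.pi * Real.exp (x / 2) ^ 2 by rw [exp_half x]; ring,
      Real.sqrt_mul (x := 64 * Real.pi) (by positivity), Real.sqrt_sq (Real.exp_pos _).le,
      show -(κ * x) = -(1 / 2 + κ) * x + x / 2 by ring, Real.exp_add]
    ring
  filter_upwards [hev, tP.eventually (ge_mem_nhds (half_pos hη)),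
    tendsto_fst.eventually (tg.eventually (ge_mem_nhds (half_pos hη)))] with p hp hPp hgp
  have hρ := Real.exp_pos p.1
  have e1 : (∫ y in (-θ)..θ, wt p.2 (p.1 + y * I) * Φ (p.1 + y * I)) -
      (Real.exp p.1 * Real.exp (-p.2 * Real.exp p.1) * Real.exp (-γ ^ 2 / 32) : ℝ) * ph p *
        ∫ s : ℝ, cexp ((s / 4 : ℝ) * I) * φ s = (Real.exp p.1 * a p : ℝ) * ∫ s, Er p s := by
    have hne : ((Real.exp p.1 : ℝ) : ℂ) ≠ 0 := ofReal_ne_zero.2 hρ.ne'
    have hne' : ((a p : ℝ) : ℂ) ≠ 0 := ofReal_ne_zero.2 (ha0 p).ne'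
    rw [change (fun y : ℝ => wt p.2 (p.1 + y * I) * Φ (p.1 + y * I)) p.1 (σ p.1) h0, haa]
    simp only [hEr]
    rw [integral_sub (iF' p hp.1) (iφ.const_mul _), integral_smul, integral_const_mul]
    change (Real.exp p.1)⁻¹ • (∫ s, (D p).indicator (F p) s) - _ = _
    generalize (∫ s : ℝ, cexp ((s / 4 : ℝ) * I) * φ s) = J
    simp only [real_smul, ofReal_inv, ofReal_mul, ofReal_pow]
    field_simp
  have e2 : ‖∫ s, Er p s‖ ≤ a p * (∫ s, M s) + η := by
    refine (norm_integral_le_of_norm_le (((iP p hp.1).add (h.M_int.const_mul (a p))).add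
      (ig p.1)) (Eventually.of_forall fun s => ?_)).trans ?_
    · have := le_max_left (‖Er p s‖ - a p * M s - g p.1 s) 0
      simp only [hP, Pi.add_apply]
      linarith
    · rw [integral_add' ((iP p hp.1).add (h.M_int.const_mul (a p))) (ig p.1),
        integral_add' (iP p hp.1) (h.M_int.const_mul (a p)), integral_const_mul]
      linarith
  rw [e1, norm_mul, Complex.norm_real, Real.norm_of_nonneg (mul_pos hρ (ha0 p)).le, haa]
  calc Real.exp p.1 * a p * ‖∫ s, Er p s‖ ≤ Real.exp p.1 * a p * (a p * (∫ s, M s) + η) :=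
        mul_le_mul_of_nonneg_left e2 (mul_pos hρ (ha0 p)).le
    _ = _ := by ring

theorem st2Stmt : ST2Stmt :=
  st2_of fun _ _ _ _ _ _ h h0 h1 _ he => h.inner h0 h1 he

end Crest.Agent.N250.St

end
end

-- ▼ part N250/Ti/Main
section

/-!
# Row 250, block B2 (helper1): ties between ends on one Stokes ray (real-x design).

`P j` real polynomials of degree `q`.  There are `j₀` and a holomorphic `T` on a half plane with
`P j₀ (T w) = e^w` such that every `P j (T w)` is a tie, a middle end or a far end.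
-/

set_option autoImplicit false
open Set Filter Topology Polynomial Complex

noncomputable section

namespace Crest.Agent.N250.Ti

/-- `re w → +∞` -/
abbrev Fr : Filter ℂ := comap Complex.re atTop

/-- `b = e^w + iγ e^{w/2} + (e - γ²/4) + o(1)` -/
def Tie (l : Filter ℂ) (b : ℂ → ℂ) (γ e : ℝ) : Prop :=
  Tendsto (fun w => b w - exp w - I * γ * exp (w / 2) - ((e - γ ^ 2 / 4 : ℝ) : ℂ)) l (𝓝 0)

/-- `b = e^w + iγ e^{w/2} + (c + o(1)) e^{σ w}`, `re c > 0` -/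
def Mid (l : Filter ℂ) (b : ℂ → ℂ) (γ σ : ℝ) (c : ℂ) : Prop :=
  0 < σ ∧ σ < 1 ∧ 0 < c.re ∧ (γ = 0 ∨ σ < 1 / 2) ∧
    Tendsto (fun w => (b w - exp w - I * γ * exp (w / 2)) / exp (σ * w)) l (𝓝 c)

/-- `b = (κ + o(1)) e^w`, `κ > 1` or `κ ≤ -1` -/
def Far (l : Filter ℂ) (b : ℂ → ℂ) (κ : ℝ) : Prop :=
  (1 < κ ∨ κ ≤ -1) ∧ Tendsto (fun w => b w / exp w) l (𝓝 (κ : ℂ))

/-- the three classes -/
def Cls (l : Filter ℂ) (b : ℂ → ℂ) : Prop :=
  (∃ γ e : ℝ, 0 ≤ e ∧ Tie l b γ e) ∨ (∃ γ σ c, Mid l b γ σ c) ∨ ∃ κ, Far l b κ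

theorem tendsto_re : Tendsto Complex.re Fr atTop := tendsto_comap

theorem tendsto_exp_neg {σ : ℝ} (hσ : 0 < σ) :
    Tendsto (fun w : ℂ => (exp (σ * w))⁻¹) Fr (𝓝 0) := by
  rw [tendsto_zero_iff_norm_tendsto_zero]
  have := tendsto_inv_atTop_zero.comp
    (Real.tendsto_exp_atTop.comp (tendsto_re.const_mul_atTop hσ))
  refine this.congr fun w => ?_
  simp [norm_exp]

theorem Tie.congr {l : Filter ℂ} {b b' : ℂ → ℂ} {γ e : ℝ} (h : Tie l b γ e)
    (hb : Tendsto (fun w => b' w - b w) l (𝓝 0)) : Tie l b' γ e := by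
  have := hb.add h
  rw [add_zero] at this
  exact this.congr fun w => by ring

theorem Mid.congr {l : Filter ℂ} (hl : l ≤ Fr) {b b' : ℂ → ℂ} {γ σ : ℝ} {c : ℂ}
    (h : Mid l b γ σ c) {d : ℂ} (hb : Tendsto (fun w => b' w - b w) l (𝓝 d)) : Mid l b' γ σ c := by
  obtain ⟨h1, h2, h3, h4, h5⟩ := h
  refine ⟨h1, h2, h3, h4, ?_⟩
  have := (hb.mul ((tendsto_exp_neg h1).mono_left hl)).add h5
  rw [mul_zero, zero_add] at this
  exact this.congr fun w => by rw [div_eq_mul_inv, div_eq_mul_inv]; ring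

theorem Far.congr {l : Filter ℂ} (hl : l ≤ Fr) {b b' : ℂ → ℂ} {κ : ℝ}
    (h : Far l b κ) {d : ℂ} (hb : Tendsto (fun w => b' w - b w) l (𝓝 d)) : Far l b' κ := by
  refine ⟨h.1, ?_⟩
  have := (hb.mul ((tendsto_exp_neg one_pos).mono_left hl)).add h.2
  rw [mul_zero, zero_add] at this
  exact this.congr fun w => by simp only [ofReal_one, one_mul, div_eq_mul_inv]; ring

theorem Cls.congr {l l' : Filter ℂ} (hl : l ≤ Fr) (hl' : l' ≤ l) {b b' : ℂ → ℂ} (h : Cls l b)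
    (hb : Tendsto (fun w => b' w - b w) l' (𝓝 0)) : Cls l' b' := by
  rcases h with ⟨γ, e, h0, h⟩ | ⟨γ, σ, c, h1, h2, h3, h4, h5⟩ | ⟨κ, h1, h2⟩
  · exact Or.inl ⟨γ, e, h0, Tie.congr (b := b) (Tendsto.mono_left h hl') hb⟩
  · exact Or.inr (Or.inl ⟨γ, σ, c,
      Mid.congr (hl'.trans hl) (b := b) ⟨h1, h2, h3, h4, h5.mono_left hl'⟩ hb⟩)
  · exact Or.inr (Or.inr ⟨κ, Far.congr (hl'.trans hl) (b := b) ⟨h1, h2.mono_left hl'⟩ hb⟩)

/-- the leading term of `1 / T` -/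
def uu (q : ℕ) (β ϑ : ℝ) (w : ℂ) : ℂ := exp (-(ϑ * I + (w - Real.log β) / q))

theorem uu_ne (q : ℕ) (β ϑ : ℝ) (w : ℂ) : uu q β ϑ w ≠ 0 := exp_ne_zero _

theorem uu_pow (q : ℕ) (β ϑ : ℝ) (w : ℂ) (i : ℕ) :
    uu q β ϑ w ^ i * exp (i * (ϑ * I - Real.log β / q)) = (exp (((i : ℝ) / q : ℝ) * w))⁻¹ := by
  rw [uu, ← Complex.exp_nat_mul, ← Complex.exp_add, ← Complex.exp_neg]
  congr 1
  push_cast
  ring

theorem uu_tendsto {q : ℕ} (hq : 0 < q) (β ϑ : ℝ) : Tendsto (uu q β ϑ) Fr (𝓝 0) := by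
  have h := (tendsto_exp_neg (σ := ((1 : ℕ) : ℝ) / q) (by positivity)).mul_const
    (exp ((1 : ℕ) * (ϑ * I - Real.log β / q)))⁻¹
  rw [zero_mul] at h
  refine h.congr fun w => ?_
  rw [← uu_pow, pow_one, mul_inv_cancel_right₀ (exp_ne_zero _)]

theorem norm_uu_pow {q : ℕ} (hq : 0 < q) {β : ℝ} (hβ : 0 < β) (ϑ : ℝ) (w : ℂ) :
    ‖uu q β ϑ w‖ ^ q = β / Real.exp w.re := by
  have hq' : (q : ℝ) ≠ 0 := by positivity
  rw [uu, norm_exp, ← Real.exp_nat_mul, eq_div_iff (Real.exp_pos _).ne', ← Real.exp_add]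
  conv_rhs => rw [← Real.exp_log hβ]
  congr 1
  have : (w - Real.log β) / (q : ℂ) = ((q : ℝ)⁻¹ : ℝ) * (w - Real.log β) := by
    push_cast; ring
  rw [this]
  simp only [neg_re, add_re, mul_re, ofReal_re, I_re, ofReal_im, I_im, sub_re, sub_im]
  field_simp
  ring

section lim
variable {T u : ℂ → ℂ}

theorem lim (hT : Tendsto (fun w => T w * u w) Fr (𝓝 1)) (hu : Tendsto u Fr (𝓝 0)) (H : ℝ[X])
    {i : ℕ} (h : H.natDegree ≤ i) :
    Tendsto (fun w => aeval (T w) H * u w ^ i) Fr (𝓝 (H.coeff i : ℂ)) := by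
  have h1 : Tendsto (fun w => ∑ k ∈ Finset.range (i + 1),
      (H.coeff k : ℂ) * ((T w * u w) ^ k * u w ^ (i - k))) Fr
      (𝓝 (∑ k ∈ Finset.range (i + 1), (H.coeff k : ℂ) * (1 ^ k * 0 ^ (i - k)))) :=
    tendsto_finsetSum _ fun k _ => ((hT.pow k).mul (hu.pow _)).const_mul _
  rw [Finset.sum_eq_single i (fun k hk hki => by
    have : i - k ≠ 0 := by have := Finset.mem_range.1 hk; omega
    simp [this]) (by simp)] at h1
  simp only [one_pow, Nat.sub_self, pow_zero, mul_one] at h1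
  refine h1.congr fun w => ?_
  rw [aeval_eq_sum_range' (Nat.lt_succ_of_le h), Finset.sum_mul]
  refine Finset.sum_congr rfl fun k hk => ?_
  have hk' : k ≤ i := Nat.lt_succ_iff.1 (Finset.mem_range.1 hk)
  obtain ⟨d, rfl⟩ := Nat.exists_eq_add_of_le hk'
  rw [Nat.add_sub_cancel_left, real_smul, pow_add]
  ring

end lim

/-- the inverse function -/
theorem exists_inv (P : ℝ[X]) {q : ℕ} (hq : 0 < q) (hP : P.natDegree = q) {β ϑ : ℝ} (hβ : 0 < β)
    (hϑ : (P.leadingCoeff : ℂ) * exp (q * (ϑ * I)) = β) :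
    ∃ (T : ℂ → ℂ) (R : ℝ), DifferentiableOn ℂ T {w | R < w.re} ∧
      (∀ w : ℂ, R < w.re → T w ≠ 0 ∧ aeval (T w) P = exp w) ∧
      Tendsto (fun w => T w * uu q β ϑ w) Fr (𝓝 1) := by
  have hq' : (q : ℂ) ≠ 0 := by exact_mod_cast hq.ne'
  have hc : (P.leadingCoeff : ℂ) ≠ 0 := fun h => by
    rw [h, zero_mul] at hϑ; exact hβ.ne' (by exact_mod_cast hϑ.symm)
  set A : ℂ → ℂ := fun t => aeval t P.reverse / P.leadingCoeff with hA
  have hA0 : A 0 = 1 := by
    simp only [hA]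
    rw [← coeff_zero_eq_aeval_zero', coeff_zero_reverse]
    exact div_self hc
  have hAd : AnalyticAt ℂ A 0 :=
    ((contDiff_aeval P.reverse ⊤).div_const _).contDiffAt.analyticAt
  have hs : A 0 ∈ slitPlane := by rw [hA0]; exact one_mem_slitPlane
  set g : ℂ → ℂ := fun t => exp (-(log (A t)) / q) with hg
  have hgd : AnalyticAt ℂ g 0 := ((hAd.clog hs).neg.div_const).cexp
  have hg0 : g 0 = 1 := by simp [hg, hA0]
  set φ : ℂ → ℂ := fun t => t * g t with hφ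
  have hφa : AnalyticAt ℂ φ 0 := analyticAt_id.mul hgd
  have hφ0 : φ 0 = 0 := zero_mul _
  have hφ' : deriv φ 0 ≠ 0 := by
    have := ((hasDerivAt_id (0 : ℂ)).fun_mul hgd.differentiableAt.hasDerivAt).deriv
    simp only [id, hg0, one_mul, zero_mul, add_zero] at this
    rw [hφ, this]; exact one_ne_zero
  set χ := hφa.hasStrictDerivAt.localInverse _ _ _ hφ'
  have hχ : AnalyticAt ℂ χ 0 := by simpa only [hφ0] using hφa.analyticAt_localInverse hφ'
  have hχ0 : χ 0 = 0 := by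
    have : χ (φ 0) = 0 := HasStrictFDerivAt.localInverse_apply_image ..
    rwa [hφ0] at this
  have hr : ∀ᶠ x in 𝓝 (0 : ℂ), φ (χ x) = x := by
    simpa only [hφ0] using hφa.hasStrictDerivAt.eventually_right_inverse hφ'
  have hχt : Tendsto χ (𝓝 0) (𝓝 0) := by simpa only [hχ0] using hχ.continuousAt.tendsto
  have hu := uu_tendsto hq β ϑ
  have hne : ∀ᶠ t in 𝓝 (0 : ℂ), A t ≠ 0 :=
    hAd.continuousAt.eventually_ne (by rw [hA0]; exact one_ne_zero)
  have hev := hu.eventually (hr.and (hχ.eventually_analyticAt.and (hχt.eventually hne)))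
  obtain ⟨R, hR⟩ : ∃ R : ℝ, ∀ w : ℂ, R < w.re → φ (χ (uu q β ϑ w)) = uu q β ϑ w ∧
      AnalyticAt ℂ χ (uu q β ϑ w) ∧ A (χ (uu q β ϑ w)) ≠ 0 := by
    obtain ⟨R, hR⟩ := eventually_atTop.1 (eventually_comap.1 hev)
    exact ⟨R, fun w hw => hR _ hw.le w rfl⟩
  have hχne : ∀ w : ℂ, R < w.re → χ (uu q β ϑ w) ≠ 0 := fun w hw h => by
    have := (hR w hw).1
    rw [h, hφ0] at this
    exact uu_ne _ _ _ _ this.symm
  refine ⟨fun w => (χ (uu q β ϑ w))⁻¹, R, fun w hw => ?_, fun w hw => ⟨inv_ne_zero (hχne w hw), ?_⟩,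
    ?_⟩
  · have hud : DifferentiableAt ℂ (uu q β ϑ) w := by unfold uu; fun_prop
    exact (((hR w hw).2.1.differentiableAt.comp w hud).inv (hχne w hw)).differentiableWithinAt
  · obtain ⟨h1, -, h3⟩ := hR w hw
    set t := χ (uu q β ϑ w)
    have ht : t ≠ 0 := hχne w hw
    have : Invertible t⁻¹ := invertibleOfNonzero (inv_ne_zero ht)
    have e1 := eval₂_reverse_mul_pow (algebraMap ℝ ℂ) t⁻¹ P
    rw [invOf_eq_inv, inv_inv, hP, ← aeval_def, ← aeval_def] at e1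
    have e2 : g t ^ q = (A t)⁻¹ := by
      rw [hg, ← Complex.exp_nat_mul, mul_div_cancel₀ _ hq', Complex.exp_neg, exp_log h3]
    have e3 : t ^ q * (A t)⁻¹ = uu q β ϑ w ^ q := by rw [← h1, ← e2, hφ, mul_pow]
    have e4 := uu_pow q β ϑ w q
    have e5 : exp (q * (ϑ * I - Real.log β / q)) = exp (q * (ϑ * I)) / β := by
      rw [mul_sub, mul_div_cancel₀ _ hq', Complex.exp_sub, ← ofReal_exp, Real.exp_log hβ]
    have e6 : (((q : ℝ) / q : ℝ) : ℂ) = 1 := by push_cast; exact div_self hq'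
    have hβ' : (β : ℂ) ≠ 0 := by exact_mod_cast hβ.ne'
    have e7 : aeval t P.reverse = A t * P.leadingCoeff := by rw [hA, div_mul_cancel₀ _ hc]
    rw [e5, e6, one_mul, ← e3] at e4
    rw [← e1, e7, ← inv_inv (exp w), ← e4, ← hϑ, inv_pow]
    field_simp
  · have h1 : Tendsto (fun w => g (χ (uu q β ϑ w))) Fr (𝓝 1) := by
      rw [← hg0]; exact hgd.continuousAt.tendsto.comp (hχt.comp hu)
    refine h1.congr' ?_
    filter_upwards [tendsto_re.eventually (eventually_gt_atTop R)] with w hw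
    rw [eq_inv_mul_iff_mul_eq₀ (hχne w hw)]
    exact (hR w hw).1

/-- lexicographic minimum -/
theorem exists_min {D : Type*} [Finite D] (S : Set D) (hS : S.Nonempty) (Q : D → ℝ[X]) :
    ∃ j₀ ∈ S, ∀ j ∈ S, 0 ≤ (Q j - Q j₀).leadingCoeff := by
  have h : ∀ᶠ x : ℝ in atTop, ∀ p : D × D, (Q p.1 - Q p.2).leadingCoeff < 0 →
      (Q p.1 - Q p.2).eval x < 0 := by
    refine eventually_all.2 fun p => ?_
    by_cases hp : (Q p.1 - Q p.2).leadingCoeff < 0
    · rcases Nat.eq_zero_or_pos (Q p.1 - Q p.2).natDegree with h0 | h0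
      · refine Eventually.of_forall fun x _ => ?_
        rw [eq_C_of_natDegree_eq_zero h0, leadingCoeff_C] at hp
        rwa [eq_C_of_natDegree_eq_zero h0, eval_C]
      · filter_upwards [(tendsto_atBot_of_leadingCoeff_nonpos _
          (natDegree_pos_iff_degree_pos.1 h0) hp.le).eventually (eventually_lt_atBot 0)] with x hx _
        exact hx
    · exact Eventually.of_forall fun x h => absurd h hp
  obtain ⟨x, hx⟩ := h.exists
  obtain ⟨j₀, h0, hm⟩ := S.toFinite.exists_minimalFor (fun j => (Q j).eval x) S hS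
  refine ⟨j₀, h0, fun j hj => not_lt.1 fun hlt => ?_⟩
  have := hx (j, j₀) hlt
  rw [eval_sub, sub_neg] at this
  exact absurd (hm hj this.le) (not_le.2 this)

/-- polynomial square root with remainder -/
theorem exists_sqrt (P : ℝ[X]) {m : ℕ} (hP : P.natDegree = 2 * m) (h0 : P.leadingCoeff ≠ 0) :
    ∀ k ≤ m, ∃ R : ℝ[X], R.natDegree ≤ m ∧ R.coeff m = 1 ∧
      ∀ i, 2 * m - k ≤ i → (P - C P.leadingCoeff * R ^ 2).coeff i = 0 := by
  intro k
  induction k with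
  | zero =>
    refine fun _ => ⟨X ^ m, by simp, by simp, fun i hi => ?_⟩
    rw [← pow_mul, coeff_sub, coeff_C_mul, coeff_X_pow]
    split_ifs with h
    · rw [h, mul_one, leadingCoeff, hP, mul_comm, sub_self]
    · rw [mul_zero, sub_zero]
      exact coeff_eq_zero_of_natDegree_lt (by omega)
  | succ k ih =>
    intro hk
    obtain ⟨R, h1, h2, h3⟩ := ih (by omega)
    set β := P.leadingCoeff
    set c := (P - C β * R ^ 2).coeff (2 * m - (k + 1)) / (2 * β) with hc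
    refine ⟨R + C c * X ^ (m - (k + 1)), ?_, ?_, fun i hi => ?_⟩
    · exact natDegree_add_le_of_degree_le h1 ((natDegree_C_mul_X_pow_le _ _).trans (by omega))
    · rw [coeff_add, h2, coeff_C_mul, coeff_X_pow, if_neg (by omega), mul_zero, add_zero]
    · have e : P - C β * (R + C c * X ^ (m - (k + 1))) ^ 2 = (P - C β * R ^ 2) -
          C (2 * β * c) * (R * X ^ (m - (k + 1))) - C (β * c ^ 2) * X ^ (2 * (m - (k + 1))) := by
        simp only [C_mul, C_pow, C_ofNat]; ring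
      rw [e, coeff_sub, coeff_sub (P - C β * R ^ 2), coeff_C_mul, coeff_C_mul, coeff_X_pow,
        if_neg (by omega), coeff_mul_X_pow', if_pos (by omega), mul_zero, sub_zero]
      rcases hi.eq_or_lt with h | h
      · rw [← h, show 2 * m - (k + 1) - (m - (k + 1)) = m by omega, h2, hc]
        field_simp
        ring
      · rw [h3 i (by omega), coeff_eq_zero_of_natDegree_lt (p := R) (by omega), mul_zero, sub_zero]

section cls
variable {q : ℕ} {β ϑ : ℝ} {T : ℂ → ℂ}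

theorem lim' (hq : 0 < q) (hT : Tendsto (fun w => T w * uu q β ϑ w) Fr (𝓝 1)) (H : ℝ[X])
    {i : ℕ} (h : H.natDegree ≤ i) :
    Tendsto (fun w => aeval (T w) H / exp (((i : ℝ) / q : ℝ) * w)) Fr
      (𝓝 (H.coeff i * exp (i * (ϑ * I - Real.log β / q)))) :=
  ((lim hT (uu_tendsto hq β ϑ) H h).mul_const _).congr fun w => by
    rw [mul_assoc, uu_pow, ← div_eq_mul_inv]

theorem re_cst (q : ℕ) (β ϑ a : ℝ) (i : ℕ) : ((a : ℂ) * exp (i * (ϑ * I - Real.log β / q))).re =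
    a * Real.cos (i * ϑ) * Real.exp (-(i * (Real.log β / q))) := by
  have : (i : ℂ) * (ϑ * I - Real.log β / q) =
      ((-(i * (Real.log β / q)) : ℝ) : ℂ) + ((i * ϑ : ℝ) : ℂ) * I := by push_cast; ring
  rw [this, re_ofReal_mul, Complex.exp_add, ← ofReal_exp, re_ofReal_mul, exp_ofReal_mul_I_re]
  ring

/-- a real polynomial whose leading term points to the right gives a tie or a middle end -/
theorem cls_of (hq : 0 < q) (hT : Tendsto (fun w => T w * uu q β ϑ w) Fr (𝓝 1)) {b : ℂ → ℂ}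
    {γ : ℝ} (Λ : ℝ[X]) (hd : Λ.natDegree < q) (hγ : γ = 0 ∨ 2 * Λ.natDegree < q)
    (h0 : Λ = 0 ∨ 0 < Λ.leadingCoeff * Real.cos (Λ.natDegree * ϑ))
    (hb : Tendsto (fun w => b w - exp w - I * γ * exp (w / 2) - aeval (T w) Λ +
      ((γ ^ 2 / 4 : ℝ) : ℂ)) Fr (𝓝 0)) : Cls Fr b := by
  have hq' : (0 : ℝ) < q := by positivity
  rcases Nat.eq_zero_or_pos Λ.natDegree with h | h
  · refine Or.inl ⟨γ, Λ.coeff 0, ?_, hb.congr fun w => ?_⟩
    · rcases h0 with rfl | h0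
      · simp
      · rw [leadingCoeff, h] at h0; simpa using h0.le
    · conv_lhs => rw [eq_C_of_natDegree_eq_zero h, aeval_C]
      push_cast [Complex.coe_algebraMap]; ring
  · have h0' : 0 < Λ.leadingCoeff * Real.cos (Λ.natDegree * ϑ) :=
      h0.resolve_left fun e => by simp [e] at h
    have hm : Mid Fr (fun w => exp w + I * γ * exp (w / 2) + aeval (T w) Λ) γ
        ((Λ.natDegree : ℝ) / q) _ :=
      ⟨by positivity, (div_lt_one hq').2 (by exact_mod_cast hd), by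
        rw [re_cst]; exact mul_pos h0' (Real.exp_pos _), hγ.imp_right fun h => by
          rw [div_lt_div_iff₀ hq' two_pos, one_mul, mul_comm]; exact_mod_cast h,
        (lim' (β := β) (ϑ := ϑ) hq hT Λ le_rfl).congr fun w => by ring⟩
    refine Or.inr (Or.inl ⟨γ, _, _, hm.congr le_rfl (d := -((γ ^ 2 / 4 : ℝ) : ℂ)) ?_⟩)
    have := hb.sub_const ((γ ^ 2 / 4 : ℝ) : ℂ)
    rw [zero_sub] at this
    exact this.congr fun w => by ring

theorem natDegree_lt_of {H : ℝ[X]} {m : ℕ} (hm : 0 < m) (h : ∀ i, m ≤ i → H.coeff i = 0) :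
    H.natDegree < m := by
  obtain ⟨k, rfl⟩ := Nat.exists_eq_succ_of_ne_zero hm.ne'
  exact Nat.lt_succ_of_le (natDegree_le_iff_coeff_eq_zero.2 fun i hi => h i hi)

/-- real rays -/
theorem real_ray {D : Type*} [Finite D] (P : D → ℝ[X]) (hP : ∀ j, (P j).natDegree = q) (hq : 0 < q)
    (S : Set D) (hS : S.Nonempty) {β' : ℝ} (hβ' : ∀ j ∈ S, (P j).leadingCoeff = β') {s : ℝ}
    (hs : s ^ 2 = 1) (hc : ∀ k : ℕ, Real.cos (k * ϑ) = s ^ k) :
    ∃ j₀ ∈ S, ∀ T : ℂ → ℂ, Tendsto (fun w => T w * uu q β ϑ w) Fr (𝓝 1) →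
      (∀ᶠ w in Fr, aeval (T w) (P j₀) = exp w) → ∀ j ∈ S, Cls Fr fun w => aeval (T w) (P j) := by
  have hs0 : s ≠ 0 := fun h => by simp [h] at hs
  obtain ⟨j₀, h0, hm⟩ := exists_min S hS fun j => (P j).comp (C s * X)
  refine ⟨j₀, h0, fun T hT he j hj => cls_of hq hT (γ := 0) (P j - P j₀) ?_ (Or.inl rfl) ?_ ?_⟩
  · refine natDegree_lt_of hq fun i hi => ?_
    rw [coeff_sub]
    rcases hi.eq_or_lt with h | h
    · have e1 := hβ' j hj
      have e2 := hβ' j₀ h0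
      rw [leadingCoeff, hP] at e1 e2
      rw [← h, e1, e2, sub_self]
    · rw [coeff_eq_zero_of_natDegree_lt (by rw [hP]; exact h),
        coeff_eq_zero_of_natDegree_lt (by rw [hP]; exact h), sub_self]
  · refine or_iff_not_imp_left.2 fun hne => ?_
    have h1 := hm j hj
    have hd : (C s * X).natDegree = 1 := natDegree_C_mul_X s hs0
    rw [← sub_comp, leadingCoeff_comp (by rw [hd]; exact one_ne_zero), leadingCoeff_C_mul_X] at h1
    rw [hc]
    exact h1.lt_of_ne' (mul_ne_zero (leadingCoeff_ne_zero.2 hne) (pow_ne_zero _ hs0))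
  · refine tendsto_const_nhds.congr' (he.mono fun w hw => ?_)
    simp [hw]

/-- the ray `π / q`, `q` even, negative leading coefficient -/
theorem half_ray {D : Type*} [Finite D] (P : D → ℝ[X]) {m : ℕ} (hm : 0 < m) (hβ : 0 < β)
    (hP : ∀ j, (P j).natDegree = 2 * m) (S : Set D) (hS : S.Nonempty)
    (hβ' : ∀ j ∈ S, (P j).leadingCoeff = -β) :
    ∃ j₀ ∈ S, ∀ T : ℂ → ℂ,
      Tendsto (fun w => T w * uu (2 * m) β (-Real.pi / (2 * m : ℕ)) w) Fr (𝓝 1) →
      (∀ᶠ w in Fr, aeval (T w) (P j₀) = exp w) → ∀ j ∈ S, Cls Fr fun w => aeval (T w) (P j) := by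
  have hq : 0 < 2 * m := by omega
  have hm' : (0 : ℝ) < m := by positivity
  have hsq : ∀ j, ∃ R : ℝ[X], j ∈ S → R.natDegree ≤ m ∧ R.coeff m = 1 ∧
      (P j + C β * R ^ 2).natDegree < m := fun j => by
    by_cases hj : j ∈ S
    · obtain ⟨R, h1, h2, h3⟩ := exists_sqrt (P j) (hP j)
        (by rw [hβ' j hj]; exact neg_ne_zero.2 hβ.ne') m le_rfl
      refine ⟨R, fun _ => ⟨h1, h2, natDegree_lt_of hm fun i hi => ?_⟩⟩
      have := h3 i (by omega)
      rwa [hβ' j hj, C_neg, neg_mul, sub_neg_eq_add] at this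
    · exact ⟨0, fun h => absurd h hj⟩
  choose R hR using hsq
  set L : D → ℝ[X] := fun j => P j + C β * R j ^ 2 with hL
  obtain ⟨j₀, h0, hmin⟩ := exists_min S hS fun j => X ^ m * (R j - C ((R j).coeff 0)) + L j
  refine ⟨j₀, h0, fun T hT he j hj => ?_⟩
  set ϑ := -Real.pi / (2 * m : ℕ) with hϑ
  have hu := uu_tendsto hq β ϑ
  have hcos : ∀ k : ℕ, Real.cos (k * ϑ) = Real.cos (k / (2 * m) * Real.pi) := fun k => by
    rw [← Real.cos_neg, hϑ]; congr 1; push_cast; ring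
  obtain ⟨a1, a2, a3⟩ := hR j hj
  obtain ⟨b1, b2, b3⟩ := hR j₀ h0
  have hΛ : (L j - L j₀).natDegree < m :=
    (natDegree_sub_le _ _).trans_lt (max_lt a3 b3)
  set E := R j - R j₀ - C ((R j - R j₀).coeff 0) with hE
  have hk : X ^ m * (R j - C ((R j).coeff 0)) + L j - (X ^ m * (R j₀ - C ((R j₀).coeff 0)) + L j₀) =
      X ^ m * E + (L j - L j₀) := by rw [hE, coeff_sub, C_sub]; ring
  have h1 := hmin j hj
  rw [hk] at h1
  have hD : (R j - R j₀).natDegree < m := natDegree_lt_of hm fun i hi => by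
    rw [coeff_sub]
    rcases hi.eq_or_lt with h | h
    · rw [← h, a2, b2, sub_self]
    · rw [coeff_eq_zero_of_natDegree_lt (a1.trans_lt h),
        coeff_eq_zero_of_natDegree_lt (b1.trans_lt h), sub_self]
  have hPP : P j - P j₀ = C (-β) * ((R j - R j₀) * (R j + R j₀)) + (L j - L j₀) := by
    simp only [hL, C_neg]; ring
  rcases Nat.eq_zero_or_pos (R j - R j₀).natDegree with hd | hd
  · -- constant difference
    set r := (R j - R j₀).coeff 0
    have hr : R j = R j₀ + C r := by rw [← eq_C_of_natDegree_eq_zero hd]; ring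
    have hE0 : E = 0 := by rw [hE, ← eq_C_of_natDegree_eq_zero hd, sub_self]
    rw [hE0, mul_zero, zero_add] at h1
    set s : ℂ → ℂ := fun w => (uu (2 * m) β ϑ w ^ m)⁻¹ with hs
    have hsb : ((√β : ℝ) : ℂ) ^ 2 = β := by rw [← ofReal_pow, Real.sq_sqrt hβ.le]
    have hsb0 : ((√β : ℝ) : ℂ) ≠ 0 := by exact_mod_cast (Real.sqrt_pos.2 hβ).ne'
    have hs1 : ∀ w, (√β : ℝ) * s w = -I * exp (w / 2) := fun w => by
      have e := uu_pow (2 * m) β ϑ w m
      have hm'' : (m : ℂ) ≠ 0 := by exact_mod_cast hm.ne'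
      have e1 : (m : ℂ) * (ϑ * I - Real.log β / (2 * m : ℕ)) =
          -(Real.pi / 2 * I) - (Real.log (√β) : ℝ) := by
        rw [Real.log_sqrt hβ.le, hϑ]; push_cast; field_simp
      have e2 : ((((m : ℝ) / (2 * m : ℕ) : ℝ)) : ℂ) * w = w / 2 := by push_cast; field_simp
      rw [e1, e2, Complex.exp_sub, Complex.exp_neg, exp_pi_div_two_mul_I, ← ofReal_exp,
        Real.exp_log (Real.sqrt_pos.2 hβ), inv_I] at e
      have := pow_ne_zero m (uu_ne (2 * m) β ϑ w)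
      rw [hs, ← inv_inv (exp (w / 2)), ← e]
      field_simp
    have l1 := lim hT hu (R j₀) b1
    have l2 := lim hT hu (L j₀) b3.le
    rw [b2] at l1
    rw [coeff_eq_zero_of_natDegree_lt b3] at l2
    have l3 : Tendsto (fun w => aeval (T w) (R j₀) - s w) Fr (𝓝 0) := by
      have h2 : ((1 : ℝ) : ℂ) + 1 ≠ 0 := by norm_num
      have := (l2.div (l1.add_const 1) h2).div_const (β : ℂ)
      simp only [ofReal_zero, zero_div] at this
      refine this.congr' ?_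
      filter_upwards [he, (l1.add_const 1).eventually_ne h2] with w hw hne
      have hu0 := pow_ne_zero m (uu_ne (2 * m) β ϑ w)
      have hβ0 : (β : ℂ) ≠ 0 := by exact_mod_cast hβ.ne'
      have e1 : (β : ℂ) * s w ^ 2 = -exp w := by
        rw [← hsb, ← mul_pow, hs1, mul_pow, neg_sq, I_sq, ← Complex.exp_nat_mul]
        push_cast; ring_nf
      have e2 : aeval (T w) (L j₀) = β * (aeval (T w) (R j₀) ^ 2 - s w ^ 2) := by
        simp only [hL, map_add, map_mul, map_pow, aeval_C, hw, Complex.coe_algebraMap]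
        linear_combination e1
      simp only [Pi.div_apply]
      rw [e2, div_div, div_eq_iff (mul_ne_zero hne hβ0), hs]
      field_simp
      ring
    refine cls_of hq hT (γ := 2 * r * √β) (L j - L j₀) (by omega) (Or.inr (by omega)) ?_ ?_
    · refine or_iff_not_imp_left.2 fun hne => mul_pos (h1.lt_of_ne' (leadingCoeff_ne_zero.2 hne)) ?_
      rw [hcos]
      have : ((L j - L j₀).natDegree : ℝ) / (2 * m) < 1 / 2 := by
        rw [div_lt_div_iff₀ (by positivity) two_pos]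
        have : ((L j - L j₀).natDegree : ℝ) < m := by exact_mod_cast hΛ
        linarith
      have h3 : 0 ≤ ((L j - L j₀).natDegree : ℝ) / (2 * m) := by positivity
      exact Real.cos_pos_of_mem_Ioo ⟨by nlinarith [Real.pi_pos], by nlinarith [Real.pi_pos]⟩
    · have := l3.const_mul (-2 * β * r : ℂ)
      rw [mul_zero] at this
      refine this.congr' (he.mono fun w hw => ?_)
      have e := congrArg (aeval (T w)) hPP
      simp only [map_sub, map_add, map_mul, aeval_C, hw, hr, Complex.coe_algebraMap] at e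
      simp only [map_sub]
      push_cast at e ⊢
      linear_combination -e + 2 * r * (√β : ℝ) * hs1 w - (2 * r * s w + r ^ 2) * hsb
  · -- the high parts differ
    have hEd : E.natDegree = (R j - R j₀).natDegree := by rw [hE, natDegree_sub_C]
    have hE0 : E ≠ 0 := fun h => by rw [h, natDegree_zero] at hEd; omega
    have hEl : E.leadingCoeff = (R j - R j₀).leadingCoeff := by
      rw [leadingCoeff, hEd, hE, coeff_sub, coeff_C, if_neg hd.ne', sub_zero, leadingCoeff]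
    have hX : (X ^ m * E).natDegree = m + (R j - R j₀).natDegree := by
      rw [natDegree_mul (pow_ne_zero _ X_ne_zero) hE0, natDegree_X_pow, hEd]
    rw [leadingCoeff_add_of_degree_lt' (degree_lt_degree (by omega)), leadingCoeff_mul,
      leadingCoeff_X_pow, one_mul, hEl] at h1
    have hD0 : R j - R j₀ ≠ 0 := fun h => by rw [h, natDegree_zero] at hd; omega
    have h2 : 0 < (R j - R j₀).leadingCoeff := h1.lt_of_ne' (leadingCoeff_ne_zero.2 hD0)
    have hc2 : (R j + R j₀).coeff m = 2 := by rw [coeff_add, a2, b2]; norm_num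
    have hS2 : (R j + R j₀).natDegree = m := natDegree_eq_of_le_of_coeff_ne_zero
      ((natDegree_add_le _ _).trans (max_le a1 b1)) (by rw [hc2]; exact two_ne_zero)
    have hS0 : R j + R j₀ ≠ 0 := fun h => by rw [h, natDegree_zero] at hS2; omega
    have hM : (C (-β) * ((R j - R j₀) * (R j + R j₀))).natDegree = (R j - R j₀).natDegree + m := by
      rw [natDegree_C_mul (neg_ne_zero.2 hβ.ne'), natDegree_mul hD0 hS0, hS2]
    have hlt := degree_lt_degree (p := L j - L j₀) (q := C (-β) * ((R j - R j₀) * (R j + R j₀)))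
      (by omega)
    have hdeg : (P j - P j₀).natDegree = (R j - R j₀).natDegree + m := by
      rw [hPP, natDegree_add_eq_left_of_degree_lt hlt, hM]
    refine cls_of hq hT (γ := 0) (P j - P j₀) (by omega) (Or.inl rfl) (Or.inr ?_) ?_
    · rw [hdeg, hcos, hPP, leadingCoeff_add_of_degree_lt' hlt, leadingCoeff_mul, leadingCoeff_mul,
        leadingCoeff_C, show (R j + R j₀).leadingCoeff = 2 by rw [leadingCoeff, hS2, hc2]]
      have e1 : (0 : ℝ) < (R j - R j₀).natDegree := by exact_mod_cast hd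
      have e2 : ((R j - R j₀).natDegree : ℝ) < m := by exact_mod_cast hD
      have e3 : 1 / 2 < (((R j - R j₀).natDegree + m : ℕ) : ℝ) / (2 * m) := by
        rw [div_lt_div_iff₀ two_pos (by positivity)]; push_cast; linarith
      have e4 : (((R j - R j₀).natDegree + m : ℕ) : ℝ) / (2 * m) < 1 := by
        rw [div_lt_one (by positivity)]; push_cast; linarith
      exact mul_pos_of_neg_of_neg (mul_neg_of_neg_of_pos (neg_neg_of_pos hβ) (by positivity))
        (Real.cos_neg_of_pi_div_two_lt_of_lt (by nlinarith [Real.pi_pos])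
          (by nlinarith [Real.pi_pos]))
    · refine tendsto_const_nhds.congr' (he.mono fun w hw => ?_)
      simp [hw]

end cls

/-- **Ties on one Stokes ray.** -/
theorem ties {D : Type*} [Finite D] [Nonempty D] (P : D → ℝ[X]) {q : ℕ} (hq : 0 < q)
    (hP : ∀ j, (P j).natDegree = q) :
    ∃ (j₀ : D) (T : ℂ → ℂ) (R β : ℝ), 0 < β ∧ β = |(P j₀).leadingCoeff| ∧
      (∀ j, β ≤ |(P j).leadingCoeff|) ∧ DifferentiableOn ℂ T {w | R < w.re} ∧
      (∀ w : ℂ, R < w.re → T w ≠ 0 ∧ aeval (T w) (P j₀) = exp w) ∧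
      Tendsto (fun w => β * ‖T w‖ ^ q / Real.exp w.re) Fr (𝓝 1) ∧
      ∀ j, Cls Fr fun w => aeval (T w) (P j) := by
  obtain ⟨j₁, h1⟩ := Finite.exists_min fun j => |(P j).leadingCoeff|
  set β' := (P j₁).leadingCoeff with hβ'
  have hne : β' ≠ 0 := leadingCoeff_ne_zero.2 fun h => by
    have := hP j₁; rw [h, natDegree_zero] at this; omega
  have hβ : 0 < |β'| := abs_pos.2 hne
  set S := {j | (P j).leadingCoeff = β'}
  have hS : S.Nonempty := ⟨j₁, rfl⟩
  have hq' : (q : ℂ) ≠ 0 := by exact_mod_cast hq.ne'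
  obtain ⟨ϑ, hϑ, j₀, h0, H⟩ : ∃ ϑ : ℝ, (β' : ℂ) * exp (q * (ϑ * I)) = (|β'| : ℝ) ∧
      ∃ j₀ ∈ S, ∀ T : ℂ → ℂ, Tendsto (fun w => T w * uu q |β'| ϑ w) Fr (𝓝 1) →
      (∀ᶠ w in Fr, aeval (T w) (P j₀) = exp w) → ∀ j ∈ S, Cls Fr fun w => aeval (T w) (P j) := by
    rcases hne.lt_or_gt with h | h
    · rcases Nat.even_or_odd q with ⟨m, hm⟩ | ho
      · obtain rfl : q = 2 * m := by omega
        refine ⟨-Real.pi / (2 * m : ℕ), ?_, half_ray P (by omega) hβ hP S hS fun j hj => ?_⟩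
        · have : ((2 * m : ℕ) : ℂ) * (((-Real.pi / (2 * m : ℕ) : ℝ) : ℂ) * I) = -(Real.pi * I) := by
            rw [ofReal_div, ofReal_natCast]; push_cast [-Nat.cast_mul]; field_simp
          rw [this, Complex.exp_neg, exp_pi_mul_I, abs_of_neg h]; simp
        · rw [abs_of_neg h, neg_neg]; exact hj
      · refine ⟨Real.pi, ?_, real_ray P hP hq S hS (fun j hj => hj) (s := -1) (by norm_num)
          fun k => Real.cos_nat_mul_pi k⟩
        rw [Complex.exp_nat_mul, exp_pi_mul_I, ho.neg_one_pow, abs_of_neg h]; simp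
    · refine ⟨0, by simp [abs_of_pos h], real_ray P hP hq S hS (fun j hj => hj) (s := 1)
        (by norm_num) fun k => by simp⟩
  have h0' : (P j₀).leadingCoeff = β' := h0
  obtain ⟨T, R, hT1, hT2, hT3⟩ := exists_inv (P j₀) hq (hP j₀) hβ (ϑ := ϑ) (by rw [h0']; exact hϑ)
  have he : ∀ᶠ w in Fr, aeval (T w) (P j₀) = exp w :=
    (tendsto_re.eventually (eventually_gt_atTop R)).mono fun w hw => (hT2 w hw).2
  refine ⟨j₀, T, R, |β'|, hβ, by rw [h0'], h1, hT1, hT2, ?_, fun j => ?_⟩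
  · have := hT3.norm.pow q
    rw [norm_one, one_pow] at this
    refine this.congr fun w => ?_
    rw [norm_mul, mul_pow, norm_uu_pow hq hβ]; ring
  · by_cases hj : j ∈ S
    · exact H T hT3 he j hj
    · refine Or.inr (Or.inr ⟨(P j).leadingCoeff / β', ?_, ?_⟩)
      · have e1 : 1 ≤ |(P j).leadingCoeff / β'| := by rw [abs_div]; exact (one_le_div hβ).2 (h1 j)
        have e2 : (P j).leadingCoeff / β' ≠ 1 := fun h => hj ((div_eq_one_iff_eq hne).1 h)
        rcases le_abs.1 e1 with h | h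
        · exact Or.inl (h.lt_of_ne' e2)
        · exact Or.inr (by linarith)
      · have l1 := lim hT3 (uu_tendsto hq _ _) (P j) (hP j).le
        have l2 := lim hT3 (uu_tendsto hq _ _) (P j₀) (hP j₀).le
        have e1 : (P j).coeff q = (P j).leadingCoeff := by rw [leadingCoeff, hP]
        have e2 : (P j₀).coeff q = β' := by rw [← h0', leadingCoeff, hP]
        rw [e1] at l1
        rw [e2] at l2
        rw [ofReal_div]
        refine (l1.div l2 (by exact_mod_cast hne)).congr' (he.mono fun w hw => ?_)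
        simp only [Pi.div_apply, hw]
        exact mul_div_mul_right _ _ (pow_ne_zero _ (uu_ne _ _ _ _))

end Crest.Agent.N250.Ti
end
end

-- ▼ part N250/Ti/Adm
section

/-!
# Row 250, block B2 (helper1): the classes of `Ti/Main` seen from the parabolic cut `hh` of `St/Defs2`.
-/

set_option autoImplicit false
open Set Filter Topology Complex

noncomputable section

namespace Crest.Agent.N250.Ti
open St

/-- `re w → +∞` in the strip `|im w| ≤ θ` -/
def Fq (θ : ℝ) : Filter ℂ := Fr ⊓ 𝓟 {w | |w.im| ≤ θ}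

theorem Fq_le (θ : ℝ) : Fq θ ≤ Fr := inf_le_left

theorem ev_Fq {θ : ℝ} {p : ℂ → Prop} : (∀ᶠ w in Fq θ, p w) ↔ ∃ x₀, ∀ w ∈ QQ x₀ θ, p w := by
  rw [Fq, eventually_inf_principal, eventually_comap, eventually_atTop]
  exact ⟨fun ⟨x, h⟩ => ⟨x, fun w hw => h _ hw.1 w rfl hw.2⟩,
    fun ⟨x, h⟩ => ⟨x, fun y hy w e hw => h w ⟨e ▸ hy, hw⟩⟩⟩

theorem ev_im (θ : ℝ) : ∀ᶠ w in Fq θ, |w.im| ≤ θ := ev_Fq.2 ⟨0, fun _ h => h.2⟩

theorem QQ_mono {x₀ x₁ θ : ℝ} (h : x₀ ≤ x₁) : QQ x₁ θ ⊆ QQ x₀ θ := fun _ hw => ⟨h.trans hw.1, hw.2⟩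

/-- the centre of an end -/
def sig (γ x : ℝ) : ℝ := -γ * Real.exp (x / 2)

@[simp] theorem pt_re (σ : ℝ → ℝ) (x s : ℝ) : (pt σ x s).re = x := by
  simp only [pt, add_re, ofReal_re, mul_re, I_re, ofReal_im, I_im]; ring

@[simp] theorem pt_im (σ : ℝ → ℝ) (x s : ℝ) : (pt σ x s).im = (s + σ x) / Real.exp x := by
  simp only [pt, add_im, ofReal_re, mul_im, I_re, ofReal_im, I_im]; ring

theorem exp_half_sq (x : ℝ) : Real.exp (x / 2) ^ 2 = Real.exp x := by
  rw [← Real.exp_nat_mul]; congr 1; push_cast; ring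

theorem half_atTop : Tendsto (fun x : ℝ => Real.exp (x / 2)) atTop atTop :=
  Real.tendsto_exp_atTop.comp (tendsto_id.atTop_div_const two_pos)

theorem half_inv : Tendsto (fun x : ℝ => (Real.exp (x / 2))⁻¹) atTop (𝓝 0) :=
  tendsto_inv_atTop_zero.comp half_atTop

/-- `√ρ · y → -γ` -/
theorem tendsto_sy (γ s : ℝ) :
    Tendsto (fun x => Real.exp (x / 2) * (pt (sig γ) x s).im) atTop (𝓝 (-γ)) := by
  have := (half_inv.const_mul s).add_const (-γ)
  rw [mul_zero, zero_add] at this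
  refine this.congr fun x => ?_
  rw [pt_im, sig, ← exp_half_sq x]
  have := Real.exp_pos (x / 2)
  generalize Real.exp (x / 2) = r at *
  field_simp

theorem tendsto_y (γ s : ℝ) : Tendsto (fun x => (pt (sig γ) x s).im) atTop (𝓝 0) := by
  have := half_inv.mul (tendsto_sy γ s)
  rw [zero_mul] at this
  exact this.congr fun x => inv_mul_cancel_left₀ (Real.exp_pos _).ne' _

theorem tendsto_pt {θ : ℝ} (hθ : 0 < θ) (γ s : ℝ) :
    Tendsto (fun x => pt (sig γ) x s) atTop (Fq θ) := by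
  refine tendsto_inf.2 ⟨tendsto_comap_iff.2 (tendsto_id.congr fun x => (pt_re _ _ _).symm),
    tendsto_principal.2 ?_⟩
  have := (tendsto_y γ s).abs
  rw [abs_zero] at this
  exact (this.eventually (eventually_le_nhds hθ))

theorem hh_le (w : ℂ) : hh w ≤ Real.exp w.re := by
  have := Real.exp_pos w.re
  rw [hh, chi]; nlinarith [sq_nonneg w.im]

theorem le_hh {w : ℂ} (h : |w.im| ≤ 1) : 5 / 8 * Real.exp w.re ≤ hh w := by
  have := Real.exp_pos w.re
  have h2 : w.im ^ 2 ≤ 1 := by rw [← sq_abs]; nlinarith [abs_nonneg w.im]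
  rw [hh, chi]; nlinarith

theorem hh_pos {w : ℂ} (h : |w.im| ≤ 1) : 0 < hh w :=
  lt_of_lt_of_le (by positivity) (le_hh h)

/-- `ζ = e^{w/2} + iγ/2` -/
def ze (γ : ℝ) (w : ℂ) : ℂ := exp (w / 2) + I * γ / 2

theorem ze_sq (γ : ℝ) (w : ℂ) :
    ze γ w ^ 2 = exp w + I * γ * exp (w / 2) - ((γ ^ 2 / 4 : ℝ) : ℂ) := by
  have : exp w = exp (w / 2) ^ 2 := by rw [← Complex.exp_nat_mul]; congr 1; push_cast; ring
  rw [ze, this]; push_cast
  linear_combination (γ ^ 2 / 4 : ℂ) * I_sq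

theorem ze_re (γ : ℝ) (w : ℂ) : (ze γ w).re = Real.exp (w.re / 2) * Real.cos (w.im / 2) := by
  simp [ze, exp_re]

theorem ze_im (γ : ℝ) (w : ℂ) :
    (ze γ w).im = Real.exp (w.re / 2) * Real.sin (w.im / 2) + γ / 2 := by
  simp [ze, exp_im]

theorem cos_half {y : ℝ} (h : |y| ≤ 1) : 7 / 8 ≤ Real.cos (y / 2) := by
  have h2 : y ^ 2 ≤ 1 := by rw [← sq_abs]; nlinarith [abs_nonneg y]
  have := Real.one_sub_sq_div_two_le_cos (x := y / 2)
  nlinarith

theorem sin_half (y : ℝ) : |Real.sin (y / 2)| ≤ |y| / 2 := by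
  have := Real.abs_sin_le_abs (x := y / 2)
  rwa [abs_div, abs_two] at this

theorem sin_cube {y : ℝ} (h : |y| ≤ 1) : |y - 2 * Real.sin (y / 2)| ≤ |y| ^ 3 / 16 := by
  wlog hy : 0 ≤ y generalizing y
  · have := this (y := -y) (by rwa [abs_neg]) (by linarith)
    rwa [neg_div, Real.sin_neg, abs_neg, ← abs_neg, show -(-y - 2 * -Real.sin (y / 2)) =
      y - 2 * Real.sin (y / 2) by ring] at this
  rcases hy.eq_or_lt with rfl | hy'
  · simp
  rw [abs_of_nonneg hy] at h ⊢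
  have h1 := Real.sin_gt_sub_cube (x := y / 2) (by linarith)
  have h2 := Real.sin_le (x := y / 2) (by linarith)
  rw [abs_of_nonneg (by linarith)]
  nlinarith [pow_pos hy' 3]

/-- the modulus of `ζ² + E` exceeds the level of the cut -/
theorem key {γ A : ℝ} {w E : ℂ} (hw : |w.im| ≤ 1) (hA : A - ‖E‖ * |w.im| ≤ E.re) :
    hh w + A - 18 * ‖E‖ ^ 2 / Real.exp w.re - 2 * |γ| * ‖E‖ / Real.exp (w.re / 2) ≤
      ‖ze γ w ^ 2 + E‖ := by
  set ζ := ze γ w
  set r := Real.exp (w.re / 2) with hr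
  have r0 : 0 < r := Real.exp_pos _
  have hρ : Real.exp w.re = r ^ 2 := (exp_half_sq _).symm
  have hc := cos_half hw
  have hs := sin_half w.im
  have hre : ζ.re = r * Real.cos (w.im / 2) := ze_re γ w
  have him : ζ.im = r * Real.sin (w.im / 2) + γ / 2 := ze_im γ w
  have hn : 7 / 8 * r ≤ ‖ζ‖ := le_trans (by rw [hre]; nlinarith) (re_le_norm ζ)
  have n0 : 0 < ‖ζ‖ := by linarith
  have hsq : ‖ζ‖ ^ 2 = r ^ 2 + γ * r * Real.sin (w.im / 2) + γ ^ 2 / 4 := by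
    rw [Complex.sq_norm, normSq_apply, hre, him]
    linear_combination r ^ 2 * Real.sin_sq_add_cos_sq (w.im / 2)
  have h1 : hh w + r ^ 2 * |w.im| ^ 2 / 8 ≤ ‖ζ‖ ^ 2 := by
    have e1 : -(|γ| * r * (|w.im| / 2)) ≤ γ * r * Real.sin (w.im / 2) := by
      refine neg_le_of_abs_le ?_
      rw [abs_mul, abs_mul, abs_of_pos r0]; gcongr
    rw [hsq, hh, chi, hρ, ← sq_abs w.im, ← sq_abs γ]
    nlinarith [sq_nonneg (r * |w.im| - |γ|)]
  have h2 : |ζ.im| ≤ r * (|w.im| / 2) + |γ| / 2 := by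
    rw [him]
    refine (abs_add_le _ _).trans (add_le_add ?_ (by rw [abs_div, abs_two]))
    rw [abs_mul, abs_of_pos r0]; gcongr
  -- test against the unit vector `conj ζ / ζ`
  set ν := (starRingEnd ℂ) ζ / ζ with hν
  have hζ : ζ ≠ 0 := norm_pos_iff.1 n0
  have hν1 : ‖ν‖ = 1 := by rw [hν, norm_div, norm_conj, div_self n0.ne']
  have h3 : ζ ^ 2 * ν = ((‖ζ‖ ^ 2 : ℝ) : ℂ) := by
    rw [Complex.sq_norm, ← mul_conj, hν]; field_simp
  have h4 : ‖1 - ν‖ ≤ 2 * (|w.im| + |γ| / r) := by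
    have : 1 - ν = (2 * ζ.im : ℝ) * I / ζ := by rw [← sub_conj, hν]; field_simp
    rw [this, norm_div, norm_mul, norm_I, mul_one, norm_real, Real.norm_eq_abs, abs_mul, abs_two,
      div_le_iff₀ n0]
    have e : 2 * (|w.im| + |γ| / r) * (7 / 8 * r) = 7 / 4 * (r * |w.im| + |γ|) := by field_simp; ring
    have : 2 * (|w.im| + |γ| / r) * (7 / 8 * r) ≤ 2 * (|w.im| + |γ| / r) * ‖ζ‖ := by gcongr
    have : 0 ≤ r * |w.im| + |γ| := by positivity
    linarith
  have h5 : ((ζ ^ 2 + E) * ν).re ≤ ‖ζ ^ 2 + E‖ :=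
    (re_le_norm _).trans (by rw [norm_mul, hν1, mul_one])
  have h6 : (ζ ^ 2 + E) * ν = ((‖ζ‖ ^ 2 : ℝ) : ℂ) + E - E * (1 - ν) := by rw [← h3]; ring
  have h7 : (E * (1 - ν)).re ≤ ‖E‖ * (2 * (|w.im| + |γ| / r)) :=
    (re_le_norm _).trans (by rw [norm_mul]; gcongr)
  rw [h6, sub_re, add_re, ofReal_re] at h5
  have h8 : 3 * ‖E‖ * |w.im| ≤ r ^ 2 * |w.im| ^ 2 / 8 + 18 * ‖E‖ ^ 2 / r ^ 2 := by
    have : 18 * ‖E‖ ^ 2 / r ^ 2 = 18 * (‖E‖ / r) ^ 2 := by field_simp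
    have e : ‖E‖ = ‖E‖ / r * r := by field_simp
    rw [this]
    generalize ‖E‖ / r = a at e
    rw [e]; nlinarith [sq_nonneg (r * |w.im| - 12 * a)]
  have h9 : ‖E‖ * (2 * (|w.im| + |γ| / r)) = 2 * ‖E‖ * |w.im| + 2 * |γ| * ‖E‖ / r := by ring
  rw [hρ]
  linarith

/-- the imaginary part of `ζ²` at the point `pt` -/
theorem im_ze_sq (γ x s : ℝ) : (ze γ (pt (sig γ) x s) ^ 2).im =
    Real.cos ((pt (sig γ) x s).im / 2) * (s - Real.exp x *
      ((pt (sig γ) x s).im - 2 * Real.sin ((pt (sig γ) x s).im / 2))) := by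
  have e : Real.exp x * (pt (sig γ) x s).im = s - γ * Real.exp (x / 2) := by
    rw [pt_im, mul_div_cancel₀ _ (Real.exp_pos x).ne', sig]; ring
  rw [sq, mul_im, ze_re, ze_im, pt_re, mul_sub (Real.exp x), e, ← exp_half_sq x]; ring

theorem im_ze_ge {γ x s : ℝ} (hw : |(pt (sig γ) x s).im| ≤ 1) (hx : |γ| ≤ Real.exp (x / 2)) :
    3 / 4 * |s| - γ ^ 2 ≤ |(ze γ (pt (sig γ) x s) ^ 2).im| := by
  have e : Real.exp x * (pt (sig γ) x s).im = s - γ * Real.exp (x / 2) := by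
    rw [pt_im, mul_div_cancel₀ _ (Real.exp_pos x).ne', sig]; ring
  rw [im_ze_sq]
  generalize (pt (sig γ) x s).im = y at *
  rw [← exp_half_sq x] at e ⊢
  set r := Real.exp (x / 2)
  have r0 : 0 < r := Real.exp_pos _
  have hc := cos_half hw
  have h3 := sin_cube hw
  have y0 := abs_nonneg y
  have g0 := abs_nonneg γ
  have h1 : r ^ 2 * |y| ≤ |s| + |γ| * r := by
    have := abs_sub s (γ * r)
    rwa [← e, abs_mul, abs_mul, abs_of_pos r0, abs_of_pos (pow_pos r0 2)] at this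
  have h2 : |γ| * r * |y| ≤ |s| + |γ| ^ 2 := by
    have : r * (|γ| * r * |y|) ≤ r * (|s| + |γ| ^ 2) := by nlinarith [abs_nonneg s]
    exact le_of_mul_le_mul_left this r0
  have h4 : r ^ 2 * |y| ^ 3 ≤ 2 * |s| + |γ| ^ 2 := by
    have a1 : r ^ 2 * |y| ^ 3 ≤ r ^ 2 * |y| * |y| := by
      have : |y| ^ 3 ≤ |y| * |y| := by nlinarith [mul_nonneg y0 y0]
      nlinarith [sq_nonneg r]
    have a2 : r ^ 2 * |y| * |y| ≤ (|s| + |γ| * r) * |y| := by gcongr
    nlinarith [abs_nonneg s]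
  have h5 : |r ^ 2 * (y - 2 * Real.sin (y / 2))| ≤ (2 * |s| + |γ| ^ 2) / 16 := by
    rw [abs_mul, abs_of_pos (pow_pos r0 2)]; nlinarith [sq_nonneg r]
  have h6 := abs_sub_abs_le_abs_sub s (r ^ 2 * (y - 2 * Real.sin (y / 2)))
  rw [abs_mul, abs_of_pos (show 0 < Real.cos (y / 2) by linarith), ← sq_abs γ]
  nlinarith [abs_nonneg (s - r ^ 2 * (y - 2 * Real.sin (y / 2))), sq_nonneg |γ|]

section cls
variable {θ : ℝ} {b : ℂ → ℂ} {γ e σ κ : ℝ} {c : ℂ}

theorem re_atTop (θ : ℝ) : Tendsto Complex.re (Fq θ) atTop := tendsto_re.mono_left (Fq_le θ)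

theorem exp_atTop (θ : ℝ) : Tendsto (fun w : ℂ => Real.exp w.re) (Fq θ) atTop :=
  Real.tendsto_exp_atTop.comp (re_atTop θ)

theorem hh_atTop (hθ : θ ≤ 1) : Tendsto hh (Fq θ) atTop :=
  tendsto_atTop_mono' _ ((ev_im θ).mono fun _ h => le_hh (h.trans hθ))
    ((exp_atTop θ).const_mul_atTop (by norm_num))

theorem tie_self {l : Filter ℂ} (h : Tendsto (fun w => b w - exp w) l (𝓝 0)) : Tie l b 0 0 :=
  h.congr fun w => by simp

theorem Tie.ze {l : Filter ℂ} (h : Tie l b γ e) :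
    Tendsto (fun w => b w - ze γ w ^ 2) l (𝓝 (e : ℂ)) := by
  have := Tendsto.add_const (e : ℂ) h
  rw [zero_add] at this
  exact this.congr fun w => by rw [ze_sq]; push_cast; ring

theorem Tie.norm_ge (hθ : θ ≤ 1) (h : Tie (Fq θ) b γ e) (d : ℝ) {η : ℝ} (hη : 0 < η) :
    ∀ᶠ w in Fq θ, hh w + (e - d - η) ≤ ‖b w - d‖ := by
  have h1 := h.ze.sub_const (d : ℂ)
  have h2 := ((continuous_re.tendsto _).comp h1).sub
    (((h1.norm.pow 2).const_mul 18).div_atTop (exp_atTop θ)) |>.sub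
    ((h1.norm.const_mul (2 * |γ|)).div_atTop (half_atTop.comp (re_atTop θ)))
  simp only [sub_re, ofReal_re, sub_zero] at h2
  filter_upwards [h2.eventually (eventually_ge_nhds (sub_lt_self _ hη)), ev_im θ] with w hw hy
  have := key (γ := γ) (E := b w - Ti.ze γ w ^ 2 - d) (hy.trans hθ)
    (sub_le_self _ (mul_nonneg (norm_nonneg _) (abs_nonneg _)))
  rw [show Ti.ze γ w ^ 2 + (b w - Ti.ze γ w ^ 2 - d) = b w - d by ring] at this
  simp only [Function.comp] at hw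
  linarith

theorem Mid.ze {l : Filter ℂ} (hl : l ≤ Fr) (h : Mid l b γ σ c) (d : ℝ) :
    Tendsto (fun w => (b w - ze γ w ^ 2 - d) / exp (σ * w)) l (𝓝 c) :=
  (h.congr hl (b' := fun w => b w + ((γ ^ 2 / 4 - d : ℝ) : ℂ)) (d := ((γ ^ 2 / 4 - d : ℝ) : ℂ))
    (tendsto_const_nhds.congr fun w => by ring)).2.2.2.2.congr fun w => by
      rw [ze_sq]; push_cast; ring

theorem Mid.norm_ge (hθ : θ ≤ 1) (h : Mid (Fq θ) b γ σ c) (d : ℝ) :
    ∀ᶠ w in Fq θ, hh w + c.re / 2 * Real.exp (σ * w.re) ≤ ‖b w - d‖ ∧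
      ‖b w - Ti.ze γ w ^ 2 - d‖ ≤ (‖c‖ + 1) * Real.exp (σ * w.re) := by
  have h1 := h.ze (Fq_le θ) d
  obtain ⟨s0, s1, c0, -, -⟩ := h
  have h3 : Tendsto (fun w : ℂ => Real.exp ((1 - σ) * w.re)) (Fq θ) atTop :=
    Real.tendsto_exp_atTop.comp ((re_atTop θ).const_mul_atTop (sub_pos.2 s1))
  have h2 := ((continuous_re.tendsto _).comp h1).sub
    (((h1.norm.pow 2).const_mul 18).div_atTop h3) |>.sub
    ((h1.norm.const_mul (2 * |γ|)).div_atTop (half_atTop.comp (re_atTop θ)))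
  simp only [sub_zero] at h2
  filter_upwards [h2.eventually (eventually_ge_nhds (half_lt_self c0)), ev_im θ,
    h1.norm.eventually (eventually_le_nhds (lt_add_one _))] with w hw hy hn
  simp only [Function.comp] at hw
  set E := b w - Ti.ze γ w ^ 2 - d
  set c' := E / exp (σ * w)
  have hE : E = c' * exp (σ * w) := (div_mul_cancel₀ _ (exp_ne_zero _)).symm
  set m := Real.exp (σ * w.re) with hm
  have m0 : 0 < m := Real.exp_pos _
  have hEn : ‖E‖ = ‖c'‖ * m := by rw [hE, norm_mul, norm_exp, re_ofReal_mul]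
  refine ⟨?_, by rw [hEn]; gcongr⟩
  have hA : m * c'.re - ‖E‖ * |w.im| ≤ E.re := by
    have e1 : exp (σ * w) = m * exp (I * (σ * w.im : ℝ)) := by
      rw [hm, ofReal_exp, ← Complex.exp_add]; congr 1
      conv_lhs => rw [← re_add_im w]
      push_cast; ring
    have e2 : E = m * c' + m * (c' * (exp (I * (σ * w.im : ℝ)) - 1)) := by rw [hE, e1]; ring
    have e3 : ‖c' * (exp (I * (σ * w.im : ℝ)) - 1)‖ ≤ ‖c'‖ * |w.im| := by
      rw [norm_mul]
      refine mul_le_mul_of_nonneg_left (Real.norm_exp_I_mul_ofReal_sub_one_le.trans ?_)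
        (norm_nonneg _)
      rw [Real.norm_eq_abs, abs_mul, abs_of_pos s0]; nlinarith [abs_nonneg w.im]
    have e4 := neg_le_of_abs_le ((abs_re_le_norm _).trans e3)
    rw [hEn]
    conv_rhs => rw [e2, add_re, re_ofReal_mul, re_ofReal_mul]
    nlinarith
  have := key (γ := γ) (hy.trans hθ) hA
  rw [show Ti.ze γ w ^ 2 + E = b w - d by simp only [E]; ring, hEn,
    show Real.exp w.re = Real.exp ((1 - σ) * w.re) * m by rw [hm, ← Real.exp_add]; ring_nf] at this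
  have e5 : 18 * (‖c'‖ * m) ^ 2 / (Real.exp ((1 - σ) * w.re) * m) =
      m * (18 * ‖c'‖ ^ 2 / Real.exp ((1 - σ) * w.re)) := by field_simp
  have e6 : 2 * |γ| * (‖c'‖ * m) / Real.exp (w.re / 2) =
      m * (2 * |γ| * ‖c'‖ / Real.exp (w.re / 2)) := by ring
  rw [e5, e6] at this
  nlinarith [mul_le_mul_of_nonneg_left hw m0.le]

theorem Mid.gap (h : Mid (Fq θ) b γ σ c) :
    Tendsto (fun w : ℂ => c.re / 2 * Real.exp (σ * w.re)) (Fq θ) atTop :=
  (Real.tendsto_exp_atTop.comp ((re_atTop θ).const_mul_atTop h.1)).const_mul_atTop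
    (half_pos h.2.2.1)

theorem Far.norm_ge (h : Far (Fq θ) b κ) (d : ℝ) {k : ℝ} (hk : k < |κ|) :
    ∀ᶠ w in Fq θ, k * Real.exp w.re ≤ ‖b w - d‖ := by
  have h1 := (h.congr (Fq_le θ) (b' := fun w => b w - d) (d := -(d : ℂ))
    (tendsto_const_nhds.congr fun w => by ring)).2.norm
  rw [norm_real, Real.norm_eq_abs] at h1
  filter_upwards [h1.eventually (eventually_ge_nhds hk)] with w hw
  rwa [norm_div, norm_exp, le_div_iff₀ (Real.exp_pos _)] at hw

theorem Far.re_le (hθ : θ ≤ 1) (h : Far (Fq θ) b κ) (hκ : κ ≤ -1) (d : ℝ) :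
    ∀ᶠ w in Fq θ, (b w - d).re ≤ -(1 / 4) * Real.exp w.re := by
  have h1 := tendsto_iff_norm_sub_tendsto_zero.1 (h.congr (Fq_le θ) (b' := fun w => b w - d)
    (d := -(d : ℂ)) (tendsto_const_nhds.congr fun w => by ring)).2
  filter_upwards [h1.eventually (eventually_le_nhds (show (0 : ℝ) < 1 / 4 by norm_num)), ev_im θ]
    with w hw hy
  have e : b w - d = κ * exp w + ((b w - d) / exp w - κ) * exp w := by
    have := exp_ne_zero w
    field_simp; ring
  have h2 : w.im ^ 2 ≤ 1 := by rw [← sq_abs]; nlinarith [abs_nonneg w.im]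
  have h3 := Real.one_sub_sq_div_two_le_cos (x := w.im)
  have h4 := re_le_norm (((b w - d) / exp w - κ) * exp w)
  have h5 := Real.exp_pos w.re
  rw [norm_mul, norm_exp] at h4
  rw [e, add_re, re_ofReal_mul, exp_re]
  have : 1 / 2 * Real.exp w.re ≤ Real.exp w.re * Real.cos w.im := by nlinarith
  nlinarith

theorem adm_of {B δ : ℝ} {z : ℂ} (hB : 0 ≤ B) (hδ : 0 < δ)
    (h : B < ‖z‖ ∨ z.re ≤ 0 ∧ B ^ 2 < (1 + 2 * δ) * ‖z‖ ^ 2) : ‖B + δ * z‖ < (1 + δ) * ‖z‖ := by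
  rcases h with h | ⟨h1, h2⟩
  · refine (norm_add_le _ _).trans_lt ?_
    rw [norm_mul, norm_real, norm_real, Real.norm_of_nonneg hB, Real.norm_of_nonneg hδ.le]
    linarith
  · refine lt_of_pow_lt_pow_left₀ 2 (by positivity) ?_
    rw [mul_pow, Complex.sq_norm, Complex.sq_norm, normSq_apply, normSq_apply] at *
    simp only [add_re, add_im, ofReal_re, ofReal_im, re_ofReal_mul, im_ofReal_mul]
    nlinarith [mul_nonneg (mul_nonneg hδ.le hB) (neg_nonneg.2 h1)]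

theorem mem_DB {B δ : ℝ} {a z : ℂ} (hB : 0 < B) (ha : a * z = -2)
    (h : ‖B + δ * z‖ < (1 + δ) * ‖z‖) : a ∈ B2.DB δ B := by
  have hz : z ≠ 0 := fun h => by simp [h] at ha
  have hB' : (B : ℂ) ≠ 0 := by exact_mod_cast hB.ne'
  have e : a - ((2 * δ / B : ℝ) : ℂ) = -2 * (B + δ * z) / (z * B) := by
    rw [eq_div_of_mul_eq hz ha]; push_cast; field_simp; ring
  rw [B2.DB, mem_ball_iff_norm, e, norm_div, norm_mul, norm_mul, norm_neg, norm_real,
    Real.norm_of_nonneg hB.le, div_lt_div_iff₀ (mul_pos (norm_pos_iff.2 hz) hB) hB]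
  simp only [Complex.norm_ofNat]
  nlinarith


/-- **admissibility**, with room `1 / 4` in `b` -/
theorem Cls.adm (hθ : θ ≤ 1) (h : Cls (Fq θ) b) {δ : ℝ} (hδ : 0 < δ) (d : ℝ) :
    ∀ᶠ w in Fq θ, 0 < hh w - d - 1 ∧ ∀ z a : ℂ, ‖z - b w‖ ≤ 1 / 4 → a * (z - d) = -2 →
      a ∈ B2.DB δ (hh w - d - 1) := by
  have h0 := (hh_atTop hθ).eventually (eventually_gt_atTop (d + 1))
  have hz : ∀ w z : ℂ, ‖z - b w‖ ≤ 1 / 4 → ‖b w - d‖ - 1 / 4 ≤ ‖z - d‖ := fun w z hz => by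
    have := norm_sub_le (z - d) (z - b w)
    rw [show z - d - (z - b w) = b w - d by ring] at this
    linarith
  have fin : (∀ᶠ w in Fq θ, hh w - d - 1 / 2 ≤ ‖b w - d‖) →
      ∀ᶠ w in Fq θ, 0 < hh w - d - 1 ∧ ∀ z a : ℂ, ‖z - b w‖ ≤ 1 / 4 → a * (z - d) = -2 →
        a ∈ B2.DB δ (hh w - d - 1) := fun H => by
    filter_upwards [H, h0] with w hw h1
    exact ⟨by linarith, fun z a h2 h3 => mem_DB (by linarith) h3
      (adm_of (by linarith) hδ (Or.inl (by linarith [hz w z h2])))⟩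
  rcases h with ⟨γ, e, he, h⟩ | ⟨γ, σ, c, h⟩ | ⟨κ, h⟩
  · exact fin ((h.norm_ge hθ d one_half_pos).mono fun w hw => by linarith)
  · refine fin ?_
    filter_upwards [h.norm_ge hθ d, h.gap.eventually (eventually_ge_atTop (-d))] with w h1 h2
    linarith [h1.1]
  rcases h.1 with hκ | hκ
  · refine fin ?_
    filter_upwards [h.norm_ge d (k := (1 + κ) / 2) (lt_of_lt_of_le (by linarith) (le_abs_self κ)),
      ((exp_atTop θ).const_mul_atTop (show 0 < (κ - 1) / 2 by linarith)).eventually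
        (eventually_ge_atTop (-d))] with w h1 h2
    linarith [hh_le w]
  · obtain ⟨ε, ε0, hε⟩ : ∃ ε : ℝ, 0 < ε ∧ ε < 1 / 4 ∧
        (1 + ε) ^ 2 < (1 + 2 * δ) * (1 - 2 * ε) ^ 2 := by
      have hc : ContinuousAt (fun ε : ℝ => (1 + 2 * δ) * (1 - 2 * ε) ^ 2 - (1 + ε) ^ 2) 0 := by
        fun_prop
      have := (hc.eventually (lt_mem_nhds (show (0 : ℝ) < _ by simpa using hδ))).and
        (gt_mem_nhds (show (0 : ℝ) < 1 / 4 by norm_num))
      obtain ⟨ε, h1, h2⟩ := ((this.filter_mono nhdsWithin_le_nhds).and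
        (self_mem_nhdsWithin (s := Ioi (0 : ℝ)))).exists
      exact ⟨ε, h2, h1.2, by linarith [h1.1]⟩
    filter_upwards [h.norm_ge d (k := 1 - ε) (lt_of_lt_of_le (by linarith) (neg_le_abs κ)),
      h.re_le hθ hκ d, h0, ((exp_atTop θ).const_mul_atTop ε0).eventually
        (eventually_ge_atTop (|d| + 1 / 4))] with w h1 h2 h3 h4
    refine ⟨by linarith, fun z a h5 h6 => mem_DB (by linarith) h6
      (adm_of (by linarith) hδ (Or.inr ⟨?_, ?_⟩))⟩
    · have := re_le_norm (z - b w)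
      rw [show z - d = (z - b w) + (b w - d) by ring, add_re]
      nlinarith [abs_nonneg d, Real.exp_pos w.re]
    · have r0 := Real.exp_pos w.re
      have a1 : (1 - 2 * ε) * Real.exp w.re ≤ ‖z - d‖ := by linarith [hz w z h5, abs_nonneg d]
      have a2 : hh w - d - 1 ≤ (1 + ε) * Real.exp w.re := by linarith [hh_le w, neg_le_abs d]
      calc (hh w - d - 1) ^ 2 ≤ ((1 + ε) * Real.exp w.re) ^ 2 := by gcongr; linarith
        _ < (1 + 2 * δ) * ((1 - 2 * ε) * Real.exp w.re) ^ 2 := by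
          rw [mul_pow, mul_pow, ← mul_assoc]; exact mul_lt_mul_of_pos_right hε.2 (by positivity)
        _ ≤ _ := by
          have : 0 ≤ (1 - 2 * ε) * Real.exp w.re := mul_nonneg (by linarith [hε.1]) r0.le
          gcongr

/-- `1 + |s| ≤ C (1 + ‖u‖)` about the centre `sig γ` -/
def Ctr (θ : ℝ) (b : ℂ → ℂ) (γ : ℝ) : Prop :=
  ∃ C x₀ : ℝ, 0 < C ∧ ∀ x s, pt (sig γ) x s ∈ QQ x₀ θ →
    1 + |s| ≤ C * (1 + ‖b (pt (sig γ) x s) - hh (pt (sig γ) x s)‖)

theorem ctr_of (hθ : θ ≤ 1) {K : ℝ} (hK : 0 ≤ K)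
    (h : ∀ᶠ w in Fq θ, ‖b w - ze γ w ^ 2‖ ≤ K * (1 + ‖b w - hh w‖)) : Ctr θ b γ := by
  obtain ⟨x₀, H⟩ := ev_Fq.1 (h.and ((half_atTop.comp (re_atTop θ)).eventually
    (eventually_ge_atTop |γ|)))
  refine ⟨2 * (1 + K + γ ^ 2), x₀, by positivity, fun x s hx => ?_⟩
  obtain ⟨h1, h2⟩ := H _ hx
  rw [Function.comp, pt_re] at h2
  have h3 := im_ze_ge (hx.2.trans hθ) h2
  set w := pt (sig γ) x s
  have h4 : (ze γ w ^ 2).im = (b w - hh w - (b w - ze γ w ^ 2)).im := by simp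
  have h5 := (abs_im_le_norm _).trans (norm_sub_le (b w - hh w) (b w - ze γ w ^ 2))
  rw [← h4] at h5
  have h6 := norm_nonneg (b w - hh w)
  nlinarith [sq_nonneg γ, mul_nonneg (sq_nonneg γ) h6, mul_nonneg hK h6]

theorem Tie.ctr (hθ : θ ≤ 1) (h : Tie (Fq θ) b γ e) : Ctr θ b γ :=
  ctr_of hθ (K := ‖(e : ℂ)‖ + 1) (by positivity)
    ((h.ze.norm.eventually (eventually_le_nhds (lt_add_one _))).mono fun w hw =>
      hw.trans (le_mul_of_one_le_right (by positivity) (by simp)))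

theorem norm_sub_hh {w : ℂ} (z : ℂ) (h : |w.im| ≤ 1) : ‖z‖ - hh w ≤ ‖z - hh w‖ := by
  have := norm_sub_norm_le z (hh w)
  rwa [norm_real, Real.norm_of_nonneg (hh_pos h).le] at this

theorem Mid.far (hθ : θ ≤ 1) (h : Mid (Fq θ) b γ σ c) :
    Tendsto (fun w => ‖b w - hh w‖) (Fq θ) atTop := by
  refine tendsto_atTop_mono' _ ?_ h.gap
  filter_upwards [h.norm_ge hθ 0, ev_im θ] with w h1 h2
  have := norm_sub_hh (b w) (h2.trans hθ)
  have h3 := h1.1
  rw [ofReal_zero, sub_zero] at h3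
  linarith

theorem Mid.ctr (hθ : θ ≤ 1) (h : Mid (Fq θ) b γ σ c) : Ctr θ b γ := by
  have c0 := h.2.2.1
  refine ctr_of hθ (K := (‖c‖ + 1) / (c.re / 2)) (by positivity) ?_
  filter_upwards [h.norm_ge hθ 0, ev_im θ] with w h1 h2
  have := norm_sub_hh (b w) (h2.trans hθ)
  rw [ofReal_zero, sub_zero, sub_zero] at h1
  refine h1.2.trans ?_
  rw [div_mul_eq_mul_div, mul_div_assoc]
  gcongr
  rw [le_div_iff₀ (half_pos c0)]
  linarith [h1.1]

theorem Far.lin (hθ : θ ≤ 1) (h : Far (Fq θ) b κ) :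
    ∃ k, 0 < k ∧ ∀ᶠ w in Fq θ, k * Real.exp w.re ≤ ‖b w - hh w‖ := by
  rcases h.1 with hκ | hκ
  · refine ⟨(κ - 1) / 2, by linarith, ?_⟩
    filter_upwards [h.norm_ge 0 (k := (1 + κ) / 2) (lt_of_lt_of_le (by linarith) (le_abs_self κ)),
      ev_im θ] with w h1 h2
    rw [ofReal_zero, sub_zero] at h1
    linarith [norm_sub_hh (b w) (h2.trans hθ), hh_le w]
  · refine ⟨1 / 4, by norm_num, ?_⟩
    filter_upwards [h.re_le hθ hκ 0, ev_im θ] with w h1 h2
    rw [ofReal_zero, sub_zero] at h1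
    have := neg_le_of_abs_le (abs_re_le_norm (b w - hh w))
    rw [sub_re, ofReal_re] at this
    linarith [hh_pos (h2.trans hθ)]

theorem Far.far (hθ : θ ≤ 1) (h : Far (Fq θ) b κ) :
    Tendsto (fun w => ‖b w - hh w‖) (Fq θ) atTop := by
  obtain ⟨k, k0, H⟩ := h.lin hθ
  exact tendsto_atTop_mono' _ H ((exp_atTop θ).const_mul_atTop k0)

/-- any end with `‖u‖ ≥ k ρ` is centred at `0` -/
theorem ctr_of_lin (hθ : θ ≤ 1) {k : ℝ} (k0 : 0 < k)
    (H : ∀ᶠ w in Fq θ, k * Real.exp w.re ≤ ‖b w - hh w‖) : Ctr θ b 0 := by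
  obtain ⟨x₀, H⟩ := ev_Fq.1 H
  refine ⟨1 + k⁻¹, x₀, by positivity, fun x s hx => ?_⟩
  have h1 := H _ hx
  have h2 := hx.2.trans hθ
  rw [pt_re] at h1
  rw [pt_im, sig, neg_zero, zero_mul, add_zero, abs_div, abs_of_pos (Real.exp_pos x),
    div_le_one (Real.exp_pos x)] at h2
  have h3 := (le_inv_mul_iff₀ k0).2 h1
  have h4 := norm_nonneg (b (pt (sig 0) x s) - hh (pt (sig 0) x s))
  nlinarith [inv_pos.2 k0]

theorem Far.ctr (hθ : θ ≤ 1) (h : Far (Fq θ) b κ) : Ctr θ b 0 := by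
  obtain ⟨k, k0, H⟩ := h.lin hθ
  exact ctr_of_lin hθ k0 H

theorem ze_lim (γ s : ℝ) : Tendsto (fun x => ze γ (pt (sig γ) x s) ^ 2 - hh (pt (sig γ) x s)) atTop
    (𝓝 (((γ ^ 2 / 8 : ℝ) : ℂ) + s * I)) := by
  have hy := tendsto_y γ s
  have hs := tendsto_sy γ s
  have hc : Tendsto (fun x => Real.cos ((pt (sig γ) x s).im / 2)) atTop (𝓝 1) := by
    have := (Real.continuous_cos.tendsto _).comp (hy.div_const 2)
    rwa [zero_div, Real.cos_zero] at this
  have h3 : Tendsto (fun x => Real.exp x *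
      ((pt (sig γ) x s).im - 2 * Real.sin ((pt (sig γ) x s).im / 2))) atTop (𝓝 0) := by
    have := ((hs.abs.pow 2).mul hy.abs).div_const 16
    rw [abs_zero, mul_zero, zero_div] at this
    refine squeeze_zero_norm' ?_ this
    filter_upwards [(tendsto_pt one_pos γ s).eventually (ev_im 1)] with x hx
    rw [norm_mul, Real.norm_of_nonneg (Real.exp_pos x).le, Real.norm_eq_abs, abs_mul, mul_pow,
      sq_abs (Real.exp _), exp_half_sq]
    nlinarith [sin_cube hx, Real.exp_pos x]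
  have h4 : Tendsto (fun x => Real.exp (x / 2) * Real.sin ((pt (sig γ) x s).im / 2)) atTop
      (𝓝 (-γ / 2)) := by
    have := (hs.sub (half_inv.mul h3)).div_const 2
    rw [zero_mul, sub_zero] at this
    refine this.congr fun x => ?_
    rw [← exp_half_sq x]
    have := Real.exp_pos (x / 2)
    generalize Real.exp (x / 2) = r at *
    field_simp; ring
  have hre := ((((hs.pow 2).const_mul (3 / 8)).sub (h4.pow 2)).sub
    ((h4.add_const (γ / 2)).pow 2))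
  have him := hc.mul ((tendsto_const_nhds (x := s)).sub h3)
  have := ((continuous_ofReal.tendsto _).comp hre).add
    (((continuous_ofReal.tendsto _).comp him).mul_const I)
  rw [show 3 / 8 * (-γ) ^ 2 - (-γ / 2) ^ 2 - (-γ / 2 + γ / 2) ^ 2 = γ ^ 2 / 8 by ring, sub_zero,
    one_mul] at this
  refine this.congr fun x => ?_
  simp only [Function.comp, ← im_ze_sq]
  refine Complex.ext ?_ (by
    rw [add_im, ofReal_im, mul_I_im, ofReal_re, sub_im, ofReal_im, zero_add, sub_zero])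
  have e : (ze γ (pt (sig γ) x s) ^ 2).re = (ze γ (pt (sig γ) x s)).re ^ 2 -
      (ze γ (pt (sig γ) x s)).im ^ 2 := by rw [sq, mul_re]; ring
  rw [add_re, ofReal_re, mul_I_re, ofReal_im, sub_re, ofReal_re, e, ze_re, ze_im, hh, chi, pt_re,
    ← exp_half_sq x]
  linear_combination (-Real.exp (x / 2) ^ 2) * Real.sin_sq_add_cos_sq ((pt (sig γ) x s).im / 2)

/-- the limit of `u = b - hh` for a tie -/
theorem Tie.lim (hθ : 0 < θ) (h : Tie (Fq θ) b γ e) (s : ℝ) :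
    Tendsto (fun x => b (pt (sig γ) x s) - hh (pt (sig γ) x s)) atTop
      (𝓝 (((e + γ ^ 2 / 8 : ℝ) : ℂ) + s * I)) := by
  have := (h.ze.comp (tendsto_pt hθ γ s)).add (ze_lim γ s)
  rw [ofReal_add, add_assoc]
  exact this.congr fun x => by simp only [Function.comp]; ring

/-- **summary**: every end has a centre, and is far or a tie -/
theorem Cls.geo (h0 : 0 < θ) (hθ : θ ≤ 1) (h : Cls (Fq θ) b) : ∃ γ, Ctr θ b γ ∧
    (Tendsto (fun w => ‖b w - hh w‖) (Fq θ) atTop ∨ ∃ d : ℝ, 0 ≤ d ∧ ∀ s : ℝ,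
      Tendsto (fun x => b (pt (sig γ) x s) - hh (pt (sig γ) x s)) atTop (𝓝 (d + s * I))) := by
  rcases h with ⟨γ, e, he, h⟩ | ⟨γ, σ, c, h⟩ | ⟨κ, h⟩
  · exact ⟨γ, h.ctr hθ, Or.inr ⟨_, by positivity, h.lim h0⟩⟩
  · exact ⟨γ, h.ctr hθ, Or.inl (h.far hθ)⟩
  · exact ⟨0, h.ctr hθ, Or.inl (h.far hθ)⟩

end cls

end Crest.Agent.N250.Ti
end
end

-- ▼ part N250/Ov/Cont
section

/-!
# Row 250, block (B2), helper21: regularity of the curve `w ↦ (hh w, zz w)`.
-/

set_option autoImplicit false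
set_option linter.unusedSectionVars false

open Set Metric Filter Topology Function MeasureTheory

noncomputable section

namespace Crest.Agent.N250.Ov
open B2 Cc St

variable {ι κ Γ : Type} [Fintype ι] [Fintype κ]
variable {f : ℝ → (ι ⊕ κ → ℂ) → ℂ} {m : κ → ℝ → (ι ⊕ κ → ℂ) → ℂ} {φ : ℂ → ℂ} {M : ℝ → ℝ}
  {ω : ℂ} {d : κ → ℝ} {r δ B0 C g : ℝ}

theorem isOpen_dom (h : Rx f m φ M ω d r δ B0 C g) :
    IsOpen {p : ℝ × (ι ⊕ κ → ℂ) | B0 < p.1 ∧ p.2 ∈ DomB r δ d p.1} := by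
  refine isOpen_iff_mem_nhds.2 fun p hp => ?_
  have h1 : ∀ᶠ x : ℝ × (ι ⊕ κ → ℂ) in 𝓝 p, B0 < x.1 :=
    continuousAt_const.eventually_lt continuousAt_fst hp.1
  have h2 : ∀ᶠ x : ℝ × (ι ⊕ κ → ℂ) in 𝓝 p, ∀ i, ‖x.2 (Sum.inl i)‖ < r :=
    eventually_all.2 fun i => ContinuousAt.eventually_lt (by fun_prop) continuousAt_const (hp.2.1 i)
  have h3 : ∀ᶠ x : ℝ × (ι ⊕ κ → ℂ) in 𝓝 p, ∀ j, x.2 (Sum.inr j) ∈ DB δ (x.1 - d j - 1) := by
    refine eventually_all.2 fun j => ?_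
    have h0 : p.1 - d j - 1 ≠ 0 := by linarith [h.lev_pos hp.1 j, h.B0_pos, hp.1]
    have a : ContinuousAt (fun x : ℝ × (ι ⊕ κ → ℂ) => 2 * δ / (x.1 - d j - 1)) p :=
      continuousAt_const.div (by fun_prop) h0
    have b : ContinuousAt (fun x : ℝ × (ι ⊕ κ → ℂ) => 2 * (1 + δ) / (x.1 - d j - 1)) p :=
      continuousAt_const.div (by fun_prop) h0
    have c : ContinuousAt (fun x : ℝ × (ι ⊕ κ → ℂ) =>
        dist (x.2 (Sum.inr j)) ((2 * δ / (x.1 - d j - 1) : ℝ) : ℂ)) p :=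
      Tendsto.dist (by fun_prop : ContinuousAt (fun x : ℝ × (ι ⊕ κ → ℂ) => x.2 (Sum.inr j)) p)
        (Complex.continuous_ofReal.continuousAt.comp a)
    exact c.eventually_lt b (hp.2.2 j)
  filter_upwards [h1, h2, h3] with x a b c using ⟨a, b, c⟩

theorem chi_ge {y : ℝ} (h : |y| ≤ 1) : 5 / 8 ≤ St.chi y := by
  have : y ^ 2 ≤ 1 := by rw [← sq_abs]; nlinarith [abs_nonneg y]
  unfold St.chi; linarith

theorem chi_le (y : ℝ) : St.chi y ≤ 1 := by unfold St.chi; nlinarith [sq_nonneg y]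

theorem hh_le (w : ℂ) : hh w ≤ Real.exp w.re :=
  mul_le_of_le_one_right (Real.exp_pos _).le (chi_le _)

theorem le_hh {w : ℂ} (h : |w.im| ≤ 1) : Real.exp w.re / 2 ≤ hh w := by
  have := chi_ge h
  have := Real.exp_pos w.re
  unfold hh; nlinarith

theorem hh_smooth : ContDiff ℝ 1 hh := by
  have a : ContDiff ℝ 1 fun w : ℂ => w.re := Complex.reCLM.contDiff
  have b : ContDiff ℝ 1 fun w : ℂ => w.im := Complex.imCLM.contDiff
  unfold hh St.chi
  exact a.exp.mul (contDiff_const.sub ((contDiff_const.mul (b.pow 2)).div_const _))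

variable {T : ℂ → ℂ} {al R : ℝ} {q : ℕ}

theorem sg_inv (al : ℝ) (q : ℕ) (τ : ℂ) : sg al q τ⁻¹ = ‖τ‖ ^ q / al := by
  rw [sg, norm_inv, inv_pow, mul_inv, inv_inv, div_eq_mul_inv, mul_comm]

/-- `sg (1 / T w) ∼ e^x / 2` -/
theorem Tin.ev (h : Tin T al q R) {a b : ℝ} (ha : a < 1) (hb : 1 < b) : ∃ x1, R < x1 ∧ 0 ≤ x1 ∧
    ∀ w : ℂ, x1 ≤ w.re → a * (Real.exp w.re / 2) < sg al q (T w)⁻¹ ∧
      sg al q (T w)⁻¹ < b * (Real.exp w.re / 2) := by
  obtain ⟨x, hx⟩ := eventually_atTop.1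
    (eventually_comap.1 (h.lim.eventually (Ioo_mem_nhds ha hb)))
  refine ⟨max x (max (R + 1) 0), by simp, by simp, fun w hw => ?_⟩
  have h1 := hx w.re ((le_max_left _ _).trans hw) w rfl
  have h2 := Real.exp_pos w.re
  have e : 2 / al * ‖T w‖ ^ q / Real.exp w.re = sg al q (T w)⁻¹ / (Real.exp w.re / 2) := by
    rw [sg_inv]; field_simp
  rw [e, lt_div_iff₀ (by positivity), div_lt_iff₀ (by positivity)] at h1
  exact h1

theorem ev_exp (A : ℝ) : ∃ x1, ∀ x, x1 ≤ x → A < Real.exp x / 2 :=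
  ⟨2 * A, fun x hx => by linarith [Real.add_one_le_exp x]⟩

theorem ev_An (h : Tin T al q R) {th Lam θ : ℝ} (s1 B0 : ℝ) (ht : th < 1) (hL : 1 < Lam)
    (hθ : θ ≤ 1) : ∃ x1, R < x1 ∧ 0 ≤ x1 ∧ ∀ w ∈ QQ x1 θ, s1 < Real.exp w.re / 2 ∧
      (T w)⁻¹ ∈ An al q th Lam (Real.exp w.re / 2) ∧ B0 < hh w := by
  obtain ⟨x, h1, h2, h3⟩ := h.ev ht hL
  obtain ⟨y, hy⟩ := ev_exp (max s1 B0)
  refine ⟨max x y, h1.trans_le (le_max_left _ _), h2.trans (le_max_left _ _), fun w hw => ?_⟩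
  have a := hy w.re ((le_max_right _ _).trans hw.1)
  exact ⟨(le_max_left _ _).trans_lt a, h3 w ((le_max_left _ _).trans hw.1),
    ((le_max_right _ _).trans_lt a).trans_le (le_hh (hw.2.trans hθ))⟩

theorem Tin.an (h : Tin T al q R) {w : ℂ} (hw : R < w.re) : AnalyticAt ℂ (fun w => (T w)⁻¹) w :=
  (h.hol.analyticAt ((isOpen_lt continuous_const Complex.continuous_re).mem_nhds hw)).inv
    (h.ne w hw)

theorem exp_half_smooth : ContDiff ℝ 1 fun w : ℂ => Real.exp w.re / 2 :=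
  (ContDiff.exp (Complex.reCLM.contDiff (n := 1))).div_const _

variable [DecidableEq κ] {Q : Cells Γ} {F : (κ → Γ) → (ι ⊕ κ → ℂ) → ℂ} {P : ℕ → ι ⊕ κ → ℝ}
  {lam Lam th s1 C1 θ : ℝ} {N : ℕ} {f0 : ℂ} {Z : ℝ → ℂ → ι ⊕ κ → ℂ}

theorem zz_c1 (hC : Cv Q F r P q al lam Lam th s1 C1 N f0 Z) (hT : Tin T al q R) {w : ℂ}
    (hw : R < w.re) (h1 : s1 < Real.exp w.re / 2)
    (h2 : (T w)⁻¹ ∈ An al q th Lam (Real.exp w.re / 2)) : ContDiffAt ℝ 1 (zz Z T) w :=
  ContDiffAt.comp (g := uncurry Z) (f := fun w : ℂ => (Real.exp w.re / 2, (T w)⁻¹)) w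
    (hC.c1 _ h1 _ h2)
    (exp_half_smooth.contDiffAt.prodMk ((hT.an hw).contDiffAt.restrict_scalars ℝ))

/-- everything holds on a far half strip -/
theorem ev_all (hC : Cv Q F r P q al lam Lam th s1 C1 N f0 Z) (hL : 1 < Lam) (hT : Tin T al q R)
    (hθ : θ ≤ 1) (hA : Adm r δ d Z T θ) (B0 : ℝ) : ∃ (n : ℕ) (x1 : ℝ), R < x1 ∧ 0 ≤ x1 ∧
      ∀ w ∈ QQ x1 θ, s1 < Real.exp w.re / 2 ∧ (T w)⁻¹ ∈ An al q th Lam (Real.exp w.re / 2) ∧
        B0 < hh w ∧ ball (zz Z T w) (Real.exp (-w.re) ^ n) ⊆ DomB r δ d (hh w) ∧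
        zz Z T w ∈ DomB r δ d (hh w) ∧ ContDiffAt ℝ 1 (zz Z T) w := by
  obtain ⟨n, y, hy⟩ := hA
  obtain ⟨x, h1, h2, h3⟩ := ev_An hT s1 B0 hC.th_lt hL hθ
  refine ⟨n, max x y, h1.trans_le (le_max_left _ _), h2.trans (le_max_left _ _), fun w hw => ?_⟩
  obtain ⟨a, b, c⟩ := h3 w (QQ_mono (le_max_left _ _) hw)
  have e := hy w (QQ_mono (le_max_right _ _) hw)
  exact ⟨a, b, c, e, e (mem_ball_self (by positivity)),
    zz_c1 hC hT (h1.trans_le ((le_max_left _ _).trans hw.1)) a b⟩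

theorem mm_cont (hR : Rx f m φ M ω d r δ B0 C g) (hC : Cv Q F r P q al lam Lam th s1 C1 N f0 Z)
    (hL : 1 < Lam) (hT : Tin T al q R) (hθ : θ ≤ 1) (hA : Adm r δ d Z T θ) :
    ∃ x1, ∀ j, ContinuousOn (mm m Z T j) (QQ x1 θ) := by
  obtain ⟨n, x, -, -, h⟩ := ev_all hC hL hT hθ hA B0
  refine ⟨x, fun j => ?_⟩
  exact (hR.mcont j).comp (f := fun w => (hh w, zz Z T w))
    (fun w hw => (hh_smooth.continuous.continuousAt.prodMk
      (h w hw).2.2.2.2.2.continuousAt).continuousWithinAt)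
    fun w hw => ⟨(h w hw).2.2.1, (h w hw).2.2.2.2.1⟩

/-- the form used by `Prof.cont` -/
theorem cont_slice {Φ : ℂ → ℂ} {x1 θ : ℝ} (h : ContinuousOn Φ (QQ x1 θ)) (x : ℝ) (hx : x1 ≤ x) :
    ContinuousOn (fun y : ℝ => Φ (x + y * Complex.I)) (Icc (-θ) θ) :=
  h.comp (by fun_prop) fun y hy => ⟨by simpa using hx, by simpa using abs_le.2 hy⟩

end Crest.Agent.N250.Ov

end
end

-- ▼ part N250/Ti/Br
section

/-!
# Row 250, block B2 (helper1): from the curve `Cv` to the classes of the ends; admissibility.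
-/

set_option autoImplicit false
set_option linter.unusedSectionVars false
open Set Filter Topology Complex Polynomial Metric

noncomputable section

namespace Crest.Agent.N250.Ti
open St B2 Cc Ov

theorem laurent (q : ℕ) {A : ℝ[X]} (hA : A.coeff 0 ≠ 0) : ∃ P : ℝ[X], P.natDegree = q ∧
    P.leadingCoeff = (A.coeff 0)⁻¹ ∧
    Tendsto (fun t : ℂ => (t ^ q * aeval t A)⁻¹ - aeval t⁻¹ P) (𝓝[≠] 0) (𝓝 0) := by
  obtain ⟨U, V, h⟩ : IsCoprime (X ^ (q + 1)) A :=
    (irreducible_X.coprime_iff_not_dvd.2 (by rwa [X_dvd_iff])).pow_left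
  have hm : (X ^ (q + 1) : ℝ[X]).Monic := monic_X_pow _
  set B := V %ₘ X ^ (q + 1)
  set H := U + V /ₘ X ^ (q + 1) * A
  have e : B * A = 1 - X ^ (q + 1) * H := by
    have := modByMonic_add_div V (X ^ (q + 1))
    simp only [B, H]
    linear_combination h + A * this
  have hB : B.natDegree ≤ q := by
    refine natDegree_le_iff_degree_le.2 (Order.le_of_lt_succ ?_)
    have := degree_modByMonic_lt V hm
    rwa [degree_X_pow] at this
  have h0 : B.coeff 0 = (A.coeff 0)⁻¹ := by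
    have := congrArg (coeff · 0) e
    simp only [mul_coeff_zero, coeff_sub, coeff_one_zero, coeff_X_pow, Nat.zero_ne_add_one,
      if_false, zero_mul, sub_zero] at this
    exact eq_inv_of_mul_eq_one_left this
  have hc : (reflect q B).coeff q = (A.coeff 0)⁻¹ := by
    rw [coeff_reflect, revAt_le le_rfl, Nat.sub_self, h0]
  have hd : (reflect q B).natDegree = q := natDegree_eq_of_le_of_coeff_ne_zero
    (natDegree_reflect_le.trans (max_le le_rfl hB)) (by rw [hc]; exact inv_ne_zero hA)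
  refine ⟨reflect q B, hd, by rw [leadingCoeff, hd, hc], ?_⟩
  have hA0 : aeval (0 : ℂ) A ≠ 0 := by
    rw [← coeff_zero_eq_aeval_zero', Complex.coe_algebraMap]; exact_mod_cast hA
  have cA := (A.continuous_aeval (A := ℂ)).tendsto 0
  have l := ((continuous_id.tendsto (0 : ℂ)).mul ((H.continuous_aeval (A := ℂ)).tendsto 0)).div cA hA0
  simp only [id, zero_mul, zero_div] at l
  refine (l.mono_left nhdsWithin_le_nhds).congr' ?_
  filter_upwards [self_mem_nhdsWithin, (cA.eventually_ne hA0).filter_mono nhdsWithin_le_nhds]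
    with t ht hne
  have ht : t ≠ 0 := ht
  have : Invertible t := invertibleOfNonzero ht
  have e1 := eval₂_reflect_mul_pow (algebraMap ℝ ℂ) t q B hB
  rw [invOf_eq_inv, ← aeval_def, ← aeval_def] at e1
  have e2 := congrArg (aeval t) e
  simp only [map_mul, map_sub, map_one, map_pow, aeval_X] at e2
  simp only [Pi.div_apply]
  rw [eq_div_of_mul_eq (pow_ne_zero q ht) e1]
  field_simp
  linear_combination e2

theorem Cls.mono {l l' : Filter ℂ} (hl : l ≤ Fr) (hl' : l' ≤ l) {b : ℂ → ℂ} (h : Cls l b) :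
    Cls l' b := h.congr hl hl' (tendsto_const_nhds.congr fun _ => (sub_self _).symm)

variable {ι κ Γ : Type}

/-- the shifted exponent `b_j + d_j` of the end `j` along the curve -/
def bb (d : κ → ℝ) (Z : ℝ → ℂ → ι ⊕ κ → ℂ) (T : ℂ → ℂ) (j : κ) (w : ℂ) : ℂ :=
  -2 / aa (zz Z T w) j + d j


variable [Fintype ι] [Fintype κ]

/-- the ends along the curve -/
structure Brg (P : ℕ → ι ⊕ κ → ℝ) (q : ℕ) (d : κ → ℝ) (Z : ℝ → ℂ → ι ⊕ κ → ℂ) (T : ℂ → ℂ)
    (j₀ : κ) : Prop where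
  cls : ∀ j, P q (Sum.inr j) ≠ 0 → Cls Fr (bb d Z T j)
  low : ∀ j, P q (Sum.inr j) ≠ 0 → ∃ k, 0 < k ∧
    ∀ᶠ w in Fr, k ≤ ‖aa (zz Z T w) j‖ * Real.exp w.re
  top : P q (Sum.inr j₀) ≠ 0 ∧ Tie Fr (bb d Z T j₀) 0 0
  high : ∀ j, P q (Sum.inr j) = 0 →
    Tendsto (fun w => ‖aa (zz Z T w) j‖ * Real.exp w.re) Fr (𝓝 0)
  zero : Tendsto (zz Z T) Fr (𝓝 0)

variable {P : ℕ → ι ⊕ κ → ℝ} {q : ℕ} {d : κ → ℝ} {Z : ℝ → ℂ → ι ⊕ κ → ℂ} {T : ℂ → ℂ} {j₀ : κ}

theorem Brg.ne (h : Brg P q d Z T j₀) {j : κ} (hj : P q (Sum.inr j) ≠ 0) :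
    ∀ᶠ w in Fr, aa (zz Z T w) j ≠ 0 := by
  obtain ⟨k, k0, H⟩ := h.low j hj
  exact H.mono fun w hw e => by rw [e, norm_zero, zero_mul] at hw; linarith

theorem exp_neg_zero : Tendsto (fun w : ℂ => Real.exp (-w.re)) Fr (𝓝 0) :=
  Real.tendsto_exp_neg_atTop_nhds_zero.comp tendsto_re

theorem Brg.adm (h : Brg P q d Z T j₀) {r δ θ : ℝ} (hr : 0 < r) (hδ : 0 < δ) (hθ : θ ≤ 1) :
    Ov.Adm r δ d Z T θ := by
  refine ⟨3, ev_Fq.1 ?_⟩
  have h1 : ∀ᶠ w in Fr, ‖zz Z T w‖ + Real.exp (-w.re) ^ 3 < r := by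
    have := h.zero.norm.add (exp_neg_zero.pow 3)
    simp only [norm_zero, ne_eq, OfNat.ofNat_ne_zero, not_false_eq_true, zero_pow, add_zero] at this
    exact this.eventually (gt_mem_nhds hr)
  have h2 : ∀ j, ∀ᶠ w in Fq θ, ∀ a : ℂ, ‖a - aa (zz Z T w) j‖ < Real.exp (-w.re) ^ 3 →
      a ∈ DB δ (hh w - d j - 1) := fun j => by
    by_cases hj : P q (Sum.inr j) = 0
    · have l := (h.high j hj).add (exp_neg_zero.pow 2)
      simp only [ne_eq, OfNat.ofNat_ne_zero, not_false_eq_true, zero_pow, add_zero] at l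
      filter_upwards [(l.eventually (gt_mem_nhds one_pos)).filter_mono (Fq_le θ),
        (hh_atTop hθ).eventually (eventually_gt_atTop (d j + 1)),
        (exp_atTop θ).eventually (eventually_ge_atTop |d j|)] with w a1 a2 a3 a ha
      refine ball_sub_DB hδ.le (by linarith) (mem_ball_zero_iff.2 ?_)
      have r0 := Real.exp_pos w.re
      have e : Real.exp (-w.re) ^ 3 * Real.exp w.re = Real.exp (-w.re) ^ 2 := by
        rw [Real.exp_neg]; field_simp
      have b1 : ‖a‖ ≤ Real.exp (-w.re) ^ 3 + ‖aa (zz Z T w) j‖ := by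
        linarith [norm_sub_norm_le a (aa (zz Z T w) j)]
      have b2 : ‖a‖ * Real.exp w.re < 1 := by nlinarith
      rw [lt_div_iff₀ (by linarith)]
      have b3 : hh w - d j - 1 ≤ 2 * Real.exp w.re := by linarith [Ti.hh_le w, neg_le_abs (d j)]
      nlinarith [norm_nonneg a]
    · obtain ⟨k, k0, H⟩ := h.low j hj
      filter_upwards [H.filter_mono (Fq_le θ), ((h.cls j hj).mono le_rfl (Fq_le θ)).adm hθ hδ (d j),
        (exp_neg_zero.eventually (ge_mem_nhds (show 0 < min (k ^ 2 / 16) (min 1 (k / 2)) by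
          positivity))).filter_mono (Fq_le θ)] with w a1 a2 a3 a ha
      set a₀ := aa (zz Z T w) j
      set η := Real.exp (-w.re) with hη
      have η0 : 0 < η := Real.exp_pos _
      simp only [le_min_iff] at a3
      have b0 : k * η ≤ ‖a₀‖ := by
        rw [hη, Real.exp_neg, ← div_eq_mul_inv, div_le_iff₀ (Real.exp_pos _)]; exact a1
      have b1 : k / 2 * η ≤ ‖a‖ := by
        have : η ^ 3 ≤ k / 2 * η := by nlinarith [mul_le_mul a3.2.1 a3.2.2 η0.le zero_le_one]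
        linarith [norm_sub_norm_le a₀ a, norm_sub_rev a a₀]
      have n0 : 0 < ‖a₀‖ := lt_of_lt_of_le (by positivity) b0
      have n1 : 0 < ‖a‖ := lt_of_lt_of_le (by positivity) b1
      have m0 := norm_pos_iff.1 n0
      have m1 := norm_pos_iff.1 n1
      refine a2.2 (-2 / a + d j) a ?_ (by field_simp; ring)
      have e : -2 / a + d j - bb d Z T j w = 2 * (a - a₀) / (a * a₀) := by
        change _ - (-2 / a₀ + d j) = _
        field_simp; ring
      rw [e, norm_div, norm_mul, norm_mul, Complex.norm_ofNat, div_le_iff₀ (mul_pos n1 n0)]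
      have c1 : k / 2 * η * (k * η) ≤ ‖a‖ * ‖a₀‖ := by gcongr
      nlinarith [mul_le_mul_of_nonneg_left a3.1 (sq_nonneg η)]
  filter_upwards [h1.filter_mono (Fq_le θ), eventually_all.2 h2] with w a1 a2 z hz
  rw [mem_ball_iff_norm] at hz
  refine ⟨fun i => ?_, fun j => a2 j _ ((norm_le_pi_norm (z - zz Z T w) _).trans_lt hz)⟩
  linarith [norm_le_pi_norm z (Sum.inl i), norm_sub_norm_le z (zz Z T w)]

variable [DecidableEq κ] {Q : Cells Γ} {F : (κ → Γ) → (ι ⊕ κ → ℂ) → ℂ}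
  {r al lam Lam th s1 C1 : ℝ} {N : ℕ} {f0 : ℂ}

theorem cv_fac (hO : Ord P q al) (hN : q + 1 ≤ N) (j : κ) : ∃ A : ℝ[X],
    A.coeff 0 = P q (Sum.inr j) ∧ ∀ t : ℂ, cv P N t (Sum.inr j) = t ^ q * aeval t A := by
  obtain ⟨n, rfl⟩ := Nat.exists_eq_add_of_le hN
  refine ⟨∑ m ∈ Finset.range (1 + n), monomial m (P (q + m) (Sum.inr j)), ?_, fun t => ?_⟩
  · simp [finsetSum_coeff, coeff_monomial]
  · rw [cv_apply, add_assoc, Finset.sum_range_add, Finset.sum_eq_zero fun m hm => by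
      rw [hO.low m (Finset.mem_range.1 hm), ofReal_zero, mul_zero], zero_add, map_sum,
      Finset.mul_sum]
    refine Finset.sum_congr rfl fun m _ => ?_
    rw [aeval_monomial, Complex.coe_algebraMap, pow_add]; ring

/-- **bridge** -/
theorem bridge (hO : Ord P q al) (hC : Cv Q F r P q al lam Lam th s1 C1 N f0 Z)
    (hN : 2 * q + 1 ≤ N) (hL : 1 < Lam) (d : κ → ℝ) :
    ∃ (T : ℂ → ℂ) (R : ℝ) (j₀ : κ), Tin T al q R ∧ Brg P q d Z T j₀ := by
  have hq := hO.q_pos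
  have ha := hO.al_pos
  choose A hA0 hA using cv_fac hO (show q + 1 ≤ N by omega)
  obtain ⟨j₁, h1⟩ : ∃ j, |P q (Sum.inr j)| = al := by
    by_contra hc
    push Not at hc
    have : ‖aa (P q)‖ < al := (pi_norm_lt_iff ha).2 fun j => (hO.abs_le j).lt_of_ne (hc j)
    exact this.ne hO.al_eq.symm
  set D := {j // P q (Sum.inr j) ≠ 0}
  have : Nonempty D := ⟨⟨j₁, fun h => by rw [h, abs_zero] at h1; exact ha.ne h1⟩⟩
  choose L hL1 hL2 hL3 using fun j : D => laurent q (A := A j.1) (by rw [hA0]; exact j.2)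
  have hd : ∀ j : D, (C (-2) * L j).natDegree = q := fun j => by
    rw [natDegree_C_mul (by norm_num), hL1]
  have hlc : ∀ j : D, |(C (-2) * L j + C (d j.1)).leadingCoeff| = 2 / |P q (Sum.inr j.1)| :=
    fun j => by
      rw [leadingCoeff_add_of_degree_lt' (degree_C_le.trans_lt
        (natDegree_pos_iff_degree_pos.1 (by rw [hd]; exact hq))), leadingCoeff_mul, leadingCoeff_C,
        hL2, hA0, abs_mul, abs_inv, abs_neg, abs_two, div_eq_mul_inv]
  obtain ⟨j₀, T, R, β, β0, e0, e1, t1, t2, t3, t4⟩ := ties (fun j : D => C (-2) * L j + C (d j.1)) hq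
    fun j => by rw [natDegree_add_C, hd]
  have hβ : β = 2 / al := by
    refine le_antisymm ?_ ?_
    · have := e1 ⟨j₁, fun h => by rw [h, abs_zero] at h1; exact ha.ne h1⟩
      rwa [hlc, h1] at this
    · rw [e0, hlc]
      exact div_le_div_of_nonneg_left zero_le_two (abs_pos.2 j₀.2) (hO.abs_le _)
  have hT : Tin T al q R := ⟨t1, fun w hw => (t2 w hw).1, hβ ▸ t3⟩
  have ev := tendsto_re.eventually (eventually_gt_atTop R)
  -- size of `t`
  have s1' : Tendsto (fun w => ‖(T w)⁻¹‖ ^ q * Real.exp w.re) Fr (𝓝 β) := by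
    have := (t3.inv₀ one_ne_zero).const_mul β
    rw [inv_one, mul_one] at this
    refine this.congr fun w => ?_
    rw [norm_inv, inv_pow, inv_div, mul_div_assoc', mul_div_mul_left _ _ β0.ne', div_eq_inv_mul]
  have s2 : Tendsto (fun w => ‖(T w)⁻¹‖) Fr (𝓝 0) := by
    have := s1'.mul exp_neg_zero
    rw [mul_zero] at this
    refine tendsto_order.2 ⟨fun a h => Eventually.of_forall fun w => h.trans_le (norm_nonneg _),
      fun a h => (this.eventually (gt_mem_nhds (pow_pos h q))).mono fun w hw => ?_⟩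
    rw [mul_assoc, ← Real.exp_add, add_neg_cancel, Real.exp_zero, mul_one] at hw
    exact lt_of_pow_lt_pow_left₀ q h.le hw
  have s3 : Tendsto (fun w => (T w)⁻¹) Fr (𝓝[≠] 0) := tendsto_nhdsWithin_iff.2
    ⟨tendsto_zero_iff_norm_tendsto_zero.2 s2, ev.mono fun w hw => inv_ne_zero (t2 w hw).1⟩
  have s4 := s2.eventually (ge_mem_nhds one_pos)
  have near : ∀ᶠ w in Fr, ‖zz Z T w - cv P N (T w)⁻¹‖ ≤ |C1| * ‖(T w)⁻¹‖ ^ N := by
    obtain ⟨x1, -, -, H⟩ := hT.ev hC.th_lt hL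
    obtain ⟨x2, H2⟩ := ev_exp s1
    filter_upwards [tendsto_re.eventually (eventually_ge_atTop x1),
      tendsto_re.eventually (eventually_ge_atTop x2)] with w a1 a2
    exact (hC.near _ (H2 _ a2) _ (H w a1)).trans (by gcongr; exact le_abs_self _)
  have tail : ∀ n ≤ N, ∃ K, ∀ᶠ w in Fr, ‖zz Z T w - cv P n (T w)⁻¹‖ ≤ K * ‖(T w)⁻¹‖ ^ n :=
    fun n hn => by
      obtain ⟨K, -, H⟩ := cv_tail P hn
      refine ⟨|C1| + K, ?_⟩
      filter_upwards [near, s4] with w a1 a2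
      have := pow_le_pow_of_le_one (norm_nonneg _) a2 hn
      have := norm_sub_le_norm_sub_add_norm_sub (zz Z T w) (cv P N (T w)⁻¹) (cv P n (T w)⁻¹)
      nlinarith [H _ a2, abs_nonneg C1]
  -- the level-`q` ends
  have rel : ∀ j n, n < N → Tendsto (fun w => (aa (zz Z T w) j - (T w)⁻¹ ^ q * aeval (T w)⁻¹ (A j)) /
      (T w)⁻¹ ^ n) Fr (𝓝 0) := fun j n hn => by
    have := s2.const_mul |C1|
    rw [mul_zero] at this
    refine squeeze_zero_norm' ?_ this
    filter_upwards [near, s4, ev] with w a1 a2 a3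
    have n0 : 0 < ‖(T w)⁻¹‖ := norm_pos_iff.2 (inv_ne_zero (t2 w a3).1)
    rw [norm_div, norm_pow, div_le_iff₀ (pow_pos n0 n), ← hA, mul_assoc, ← pow_succ']
    exact ((norm_le_pi_norm (zz Z T w - cv P N (T w)⁻¹) (Sum.inr j)).trans a1).trans
      (mul_le_mul_of_nonneg_left (pow_le_pow_of_le_one n0.le a2 hn) (abs_nonneg _))
  have lA : ∀ j, Tendsto (fun w => aeval (T w)⁻¹ (A j)) Fr (𝓝 (P q (Sum.inr j) : ℂ)) := fun j => by
    have := (((A j).continuous_aeval (A := ℂ)).tendsto 0).comp (s3.mono_right nhdsWithin_le_nhds)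
    rwa [← coeff_zero_eq_aeval_zero', hA0, Complex.coe_algebraMap] at this
  have la : ∀ j, Tendsto (fun w => aa (zz Z T w) j / (T w)⁻¹ ^ q) Fr (𝓝 (P q (Sum.inr j) : ℂ)) :=
    fun j => by
      have := (rel j q (by omega)).add (lA j)
      rw [zero_add] at this
      refine this.congr' (ev.mono fun w hw => ?_)
      have := pow_ne_zero q (inv_ne_zero (t2 w hw).1)
      simp only
      generalize (T w)⁻¹ = t at *
      field_simp; ring
  have ln : ∀ j, Tendsto (fun w => ‖aa (zz Z T w) j‖ * Real.exp w.re) Fr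
      (𝓝 (|P q (Sum.inr j)| * β)) := fun j => by
    have := (la j).norm.mul s1'
    rw [norm_real, Real.norm_eq_abs] at this
    refine this.congr' (ev.mono fun w hw => ?_)
    have := pow_ne_zero q (norm_ne_zero_iff.2 (inv_ne_zero (t2 w hw).1))
    simp only [norm_div, norm_pow]
    generalize ‖(T w)⁻¹‖ = t at *
    field_simp
  have lb : ∀ j : D, Tendsto (fun w => bb d Z T j.1 w - aeval (T w) (C (-2) * L j + C (d j.1))) Fr
      (𝓝 0) := fun j => by
    have hα : (P q (Sum.inr j.1) : ℂ) ≠ 0 := by exact_mod_cast j.2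
    have := (((rel j.1 (2 * q) (by omega)).div ((la j.1).mul (lA j.1)) (mul_ne_zero hα hα)).sub
      ((hL3 j).comp s3)).const_mul 2
    simp only [zero_div, sub_zero, mul_zero] at this
    refine this.congr' ?_
    filter_upwards [ev, (la j.1).eventually_ne hα, (lA j.1).eventually_ne hα] with w a1 a2 a3
    have b1 := pow_ne_zero q (inv_ne_zero (t2 w a1).1)
    have b2 : aa (zz Z T w) j.1 ≠ 0 := fun h => a2 (by rw [h, zero_div])
    simp only [Function.comp, Pi.div_apply, inv_inv, bb, map_add, map_mul, aeval_C,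
      Complex.coe_algebraMap, pow_mul']
    generalize (T w)⁻¹ ^ q = τ at *
    generalize aeval (T w)⁻¹ (A j.1) = α at *
    push_cast
    field_simp
    ring
  refine ⟨T, R, j₀.1, hT, fun j hj => (t4 ⟨j, hj⟩).congr le_rfl le_rfl (lb ⟨j, hj⟩), fun j hj => ?_,
    ⟨j₀.2, tie_self ((lb j₀).congr' (ev.mono fun w hw => by simp only [(t2 w hw).2]))⟩,
    fun j hj => by simpa only [hj, abs_zero, zero_mul] using ln j, ?_⟩
  · have : 0 < |P q (Sum.inr j)| * β := mul_pos (abs_pos.2 hj) β0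
    exact ⟨_, half_pos this, (ln j).eventually (eventually_ge_nhds (half_lt_self this))⟩
  · obtain ⟨K, H⟩ := tail 1 (by omega)
    have := s2.const_mul K
    rw [mul_zero] at this
    exact squeeze_zero_norm' (H.mono fun w hw => by rwa [cv_one hO.zero, sub_zero, pow_one] at hw) this

end Crest.Agent.N250.Ti
end
end

-- ▼ part N250/St/Prf
section

/-!
# Row 250, block B2 (helper66): the profiles of the ends along the curve (`Ov.Prf`)
-/

set_option autoImplicit false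
open Set Filter Topology MeasureTheory

noncomputable section

namespace Crest.Agent.N250.St.PF
open B2 Ov Ti

theorem inv_sq_le (s : ℝ) : ((1 + |s|) ^ 2)⁻¹ ≤ (1 + s ^ 2)⁻¹ := by
  have := abs_nonneg s
  refine inv_anti₀ (by positivity) ?_
  nlinarith [sq_abs s]

theorem hh_rpow_le {w : ℂ} (hw : |w.im| ≤ 1) {g : ℝ} (hg : 0 < g) :
    hh w ^ (-(1 / 2 + g)) ≤ (1 / 2 : ℝ) ^ (-(1 / 2 + g)) * Real.exp (-(1 / 2 + g) * w.re) := by
  have h1 := Ov.le_hh hw
  have h2 := Real.exp_pos w.re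
  refine (Real.rpow_le_rpow_of_nonpos (by positivity) h1 (by linarith)).trans (le_of_eq ?_)
  rw [div_eq_inv_mul, Real.mul_rpow (by norm_num) h2.le, ← Real.exp_mul, one_div (2 : ℝ), mul_comm w.re]

theorem tend_rpow {θ g : ℝ} (hθ : θ ≤ 1) (hg : 0 < g) :
    Tendsto (fun w => hh w ^ (-(1 / 2 + g))) (Fq θ) (𝓝 0) :=
  (tendsto_rpow_neg_atTop (by linarith)).comp (hh_atTop hθ)

variable {Φ b : ℂ → ℂ} {θ C g γ : ℝ}

/-- the dominating function -/
theorem dom (hθ : θ ≤ 1) (hC : 0 ≤ C) (hg : 0 < g)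
    (hb : ∀ᶠ w in Fq θ, ‖Φ w‖ ≤ C * (((1 + ‖b w - hh w‖) ^ 2)⁻¹ + hh w ^ (-(1 / 2 + g))))
    (hc : Ctr θ b γ) : ∃ (x1 K K' : ℝ), ∀ x s, pt (sig γ) x s ∈ QQ x1 θ →
      ‖Φ (pt (sig γ) x s)‖ ≤ K * (1 + s ^ 2)⁻¹ + K' * Real.exp (-(1 / 2 + g) * x) := by
  obtain ⟨x0, h0⟩ := ev_Fq.1 hb
  obtain ⟨K, x1, hK, h1⟩ := hc
  refine ⟨max x0 x1, C * K ^ 2, C * (1 / 2 : ℝ) ^ (-(1 / 2 + g)), fun x s hx => ?_⟩
  have a1 := h0 _ (Ti.QQ_mono (le_max_left _ _) hx)
  have a2 := h1 x s (Ti.QQ_mono (le_max_right _ _) hx)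
  have a3 := hh_rpow_le (hx.2.trans hθ) hg
  rw [Ti.pt_re] at a3
  set n := ‖b (pt (sig γ) x s) - hh (pt (sig γ) x s)‖
  have hn : 0 ≤ n := norm_nonneg _
  have hs := abs_nonneg s
  have a4 : ((1 + n) ^ 2)⁻¹ ≤ K ^ 2 * ((1 + |s|) ^ 2)⁻¹ := by
    rw [← div_eq_mul_inv, le_div_iff₀ (by positivity), inv_mul_le_iff₀ (by positivity), ← mul_pow,
      mul_comm]
    gcongr
  have a5 := mul_le_mul_of_nonneg_left (inv_sq_le s) (sq_nonneg K)
  calc _ ≤ C * (K ^ 2 * (1 + s ^ 2)⁻¹ +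
        (1 / 2 : ℝ) ^ (-(1 / 2 + g)) * Real.exp (-(1 / 2 + g) * x)) :=
        a1.trans (mul_le_mul_of_nonneg_left (add_le_add (a4.trans a5) a3) hC)
    _ = _ := by ring

/-- an end that does not contribute -/
theorem prof_far (h0 : 0 < θ) (hθ : θ ≤ 1) (hC : 0 ≤ C) (hg : 0 < g)
    (hcont : ∃ x1, ContinuousOn Φ (QQ x1 θ))
    (hb : ∀ᶠ w in Fq θ, ‖Φ w‖ ≤ C * (((1 + ‖b w - hh w‖) ^ 2)⁻¹ + hh w ^ (-(1 / 2 + g))))
    (hc : Ctr θ b γ) (hf : Tendsto (fun w => ‖b w - hh w‖) (Fq θ) atTop) :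
    ∃ x1, Prof Φ x1 θ 0 (fun _ => 0) fun _ => 0 := by
  obtain ⟨x1, K, K', h1⟩ := dom hθ hC hg hb hc
  obtain ⟨x2, h2⟩ := hcont
  have t1 : Tendsto (fun w => ((1 + ‖b w - hh w‖) ^ 2)⁻¹) (Fq θ) (𝓝 0) :=
    tendsto_inv_atTop_zero.comp ((tendsto_pow_atTop two_ne_zero).comp
      (tendsto_atTop_add_const_left _ 1 hf))
  have t2 := (t1.add (tend_rpow hθ hg)).const_mul C
  rw [add_zero, mul_zero] at t2
  refine ⟨max x1 x2, cont_slice (h2.mono (Ti.QQ_mono (le_max_right _ _))), integrable_zero _ _ _,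
    integrable_zero _ _ _, fun _ => le_rfl, sig γ, fun s => K * (1 + s ^ 2)⁻¹, K', g, hg,
    integrable_inv_one_add_sq.const_mul _, Or.inl fun _ => ⟨rfl, rfl⟩,
    fun x s hx => h1 x s (Ti.QQ_mono (le_max_left _ _) hx), fun s e he => ?_⟩
  filter_upwards [(tendsto_pt h0 γ s).eventually (hb.and (t2.eventually (ge_mem_nhds he)))]
    with x hx _
  rw [sub_zero, zero_add]
  exact hx.1.trans hx.2

/-- a tied end -/
theorem prof_tie {φ : ℂ → ℂ} {M : ℝ → ℝ} {p : ℕ} {dd : ℝ} (h0 : 0 < θ) (hθ : θ ≤ 1) (hC : 0 ≤ C)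
    (hg : 0 < g) (hk : Ker φ M p C) (hcont : ∃ x1, ContinuousOn Φ (QQ x1 θ))
    (hb : ∀ᶠ w in Fq θ, ‖Φ w‖ ≤ C * (((1 + ‖b w - hh w‖) ^ 2)⁻¹ + hh w ^ (-(1 / 2 + g))))
    (hs : ∀ V ε : ℝ, 0 < ε → ∀ᶠ w in Fq θ, ‖b w - hh w‖ ≤ V → -1 ≤ (b w - hh w).re →
      ‖Φ w - φ (b w - hh w)‖ ≤ M (b w - hh w).im + ε)
    (hc : Ctr θ b γ) (hd : 0 ≤ dd) (ht : ∀ s : ℝ, Tendsto
      (fun x => b (pt (sig γ) x s) - hh (pt (sig γ) x s)) atTop (𝓝 (dd + s * Complex.I))) :
    ∃ x1, Prof Φ x1 θ γ (fun s => φ (dd + s * Complex.I)) M := by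
  obtain ⟨x1, K, K', h1⟩ := dom hθ hC hg hb hc
  obtain ⟨x2, h2⟩ := hcont
  have hre : ∀ s : ℝ, ((dd : ℂ) + s * Complex.I).re = dd := fun s => by simp
  have him : ∀ s : ℝ, ((dd : ℂ) + s * Complex.I).im = s := fun s => by simp
  have c1 : Continuous fun s : ℝ => φ (dd + s * Complex.I) :=
    hk.cont.comp_continuous (by fun_prop) fun s => by
      change (-1 : ℝ) ≤ ((dd : ℂ) + s * Complex.I).re
      rw [hre]; linarith
  have hdiv : ∀ s : ℝ, C / (1 + |s|) ^ 2 ≤ C * (1 + s ^ 2)⁻¹ := fun s => by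
    rw [div_eq_mul_inv]; exact mul_le_mul_of_nonneg_left (inv_sq_le s) hC
  refine ⟨max x1 x2, cont_slice (h2.mono (Ti.QQ_mono (le_max_right _ _))), ?_, ?_, hk.M_nonneg,
    sig γ, fun s => K * (1 + s ^ 2)⁻¹, K', g, hg, integrable_inv_one_add_sq.const_mul _,
    Or.inr fun _ => rfl, fun x s hx => h1 x s (Ti.QQ_mono (le_max_left _ _) hx), fun s e he => ?_⟩
  · refine (integrable_inv_one_add_sq.const_mul C).mono' c1.aestronglyMeasurable
      (Eventually.of_forall fun s => (hk.dec _ (by rw [hre]; linarith)).trans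
        (le_trans ?_ (hdiv s)))
    have a1 : |s| ≤ ‖(dd : ℂ) + s * Complex.I‖ := by
      simpa using Complex.abs_im_le_norm ((dd : ℂ) + s * Complex.I)
    have := abs_nonneg s
    gcongr
  · refine (integrable_inv_one_add_sq.const_mul C).mono' hk.M_cont.aestronglyMeasurable
      (Eventually.of_forall fun s => ?_)
    rw [Real.norm_of_nonneg (hk.M_nonneg s)]
    exact (hk.M_le s).trans (hdiv s)
  · have a2 : {v : ℂ | -1 ≤ v.re} ∈ 𝓝 ((dd : ℂ) + s * Complex.I) :=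
      Complex.continuous_re.continuousAt.eventually (le_mem_nhds (by rw [hre]; linarith))
    have a3 := (hk.cont.continuousAt a2).tendsto.comp (ht s)
    have a4 := ((hk.M_cont.comp Complex.continuous_im).tendsto _).comp (ht s)
    simp only [Function.comp_def, him] at a4
    have he3 : 0 < e / 3 := by positivity
    filter_upwards [(ht s).norm.eventually (ge_mem_nhds (lt_add_one _)), (ht s).eventually a2,
      Metric.tendsto_nhds.1 a3 _ he3, a4.eventually (ge_mem_nhds (lt_add_of_pos_right _ he3)),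
      (tendsto_pt h0 γ s).eventually (hs (‖(dd : ℂ) + s * Complex.I‖ + 1) _ he3)]
      with x b1 b2 b3 b4 b5 _
    have b6 := b5 b1 b2
    rw [dist_eq_norm, Function.comp_apply] at b3
    linarith [norm_sub_le_norm_sub_add_norm_sub (Φ (pt (sig γ) x s))
      (φ (b (pt (sig γ) x s) - hh (pt (sig γ) x s))) (φ (dd + s * Complex.I))]

variable {ι κ : Type} [Fintype ι] [Fintype κ] {f : ℝ → (ι ⊕ κ → ℂ) → ℂ}
  {m : κ → ℝ → (ι ⊕ κ → ℂ) → ℂ} {φ : ℂ → ℂ} {M : ℝ → ℝ} {ω : ℂ} {d : κ → ℝ} {r δ B0 : ℝ}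
  {Z : ℝ → ℂ → ι ⊕ κ → ℂ} {T : ℂ → ℂ}

theorem rel {a : ℂ} (ha : a ≠ 0) (B dj : ℝ) :
    a * (((B - dj : ℝ) : ℂ) + (-2 / a + dj - B)) = -2 := by
  push_cast; field_simp; ring

theorem ev_dom (hθ : θ ≤ 1) (hA : Adm r δ d Z T θ) (B0 : ℝ) :
    ∀ᶠ w in Fq θ, B0 < hh w ∧ zz Z T w ∈ DomB r δ d (hh w) := by
  obtain ⟨n, x1, h1⟩ := hA
  filter_upwards [(hh_atTop hθ).eventually (eventually_gt_atTop B0), ev_Fq.2 ⟨x1, h1⟩] with w a1 a2
  exact ⟨a1, a2 (Metric.mem_ball_self (by positivity))⟩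

/-- **the profiles of all ends** -/
theorem prf_of (h : Rx f m φ M ω d r δ B0 C g) (h0 : 0 < θ) (hθ : θ ≤ 1) (hA : Adm r δ d Z T θ)
    (hcont : ∃ x1, ∀ j, ContinuousOn (mm m Z T j) (QQ x1 θ))
    (hz : Tendsto (zz Z T) (Fq θ) (𝓝 0))
    (hE : ∀ j, Tendsto (fun w => ‖aa (zz Z T w) j‖ * Real.exp w.re) (Fq θ) (𝓝 0) ∨
      (Cls (Fq θ) (fun w => -2 / aa (zz Z T w) j + d j) ∧ ∀ᶠ w in Fq θ, aa (zz Z T w) j ≠ 0))
    (j0 : κ) (h1 : Tie (Fq θ) (fun w => -2 / aa (zz Z T w) j0 + d j0) 0 0)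
    (h2 : ∀ᶠ w in Fq θ, aa (zz Z T w) j0 ≠ 0) : Prf m Z T θ := by
  classical
  have hC := h.C_nonneg
  have hD := ev_dom hθ hA B0
  have hcj : ∀ j, ∃ x1, ContinuousOn (mm m Z T j) (QQ x1 θ) := fun j => hcont.imp fun _ a => a j
  have hb : ∀ j, (∀ᶠ w in Fq θ, aa (zz Z T w) j ≠ 0) → ∀ᶠ w in Fq θ, ‖mm m Z T j w‖ ≤
      C * (((1 + ‖(-2 / aa (zz Z T w) j + d j) - hh w‖) ^ 2)⁻¹ + hh w ^ (-(1 / 2 + g))) :=
    fun j hj => by
      filter_upwards [hD, hj] with w a1 a2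
      exact h.crude' a1.1 a1.2 j _ (rel a2 _ _)
  have hs : ∀ j, (∀ᶠ w in Fq θ, aa (zz Z T w) j ≠ 0) → ∀ V ε : ℝ, 0 < ε → ∀ᶠ w in Fq θ,
      ‖(-2 / aa (zz Z T w) j + d j) - hh w‖ ≤ V →
      -1 ≤ ((-2 / aa (zz Z T w) j + d j) - hh w).re →
      ‖mm m Z T j w - φ ((-2 / aa (zz Z T w) j + d j) - hh w)‖ ≤
        M ((-2 / aa (zz Z T w) j + d j) - hh w).im + ε := fun j hj V ε hε => by
    obtain ⟨B1, r2, hr2, H⟩ := h.sharp V ε hε
    filter_upwards [hD, hj, (hh_atTop hθ).eventually (eventually_gt_atTop B1),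
      hz.norm.eventually (gt_mem_nhds (by simpa using hr2 : ‖(0 : ι ⊕ κ → ℂ)‖ < r2))]
      with w a1 a2 a3 a4
    exact H _ a3 _ a1.2 a4 j _ (rel a2 _ _)
  have key : ∀ j, ∃ (γ : ℝ) (ψ : ℝ → ℂ) (N : ℝ → ℝ) (x1 : ℝ), Prof (mm m Z T j) x1 θ γ ψ N ∧
      ∫ s, N s ≤ ∫ s, M s ∧ 0 ≤ (∫ s : ℝ, Complex.exp ((s / 4 : ℝ) * Complex.I) * ψ s).re ∧
      (j = j0 → γ = 0 ∧ ψ = fun s : ℝ => φ (s * Complex.I)) := by
    intro j
    have hM : 0 ≤ ∫ s, M s := integral_nonneg h.ker.M_nonneg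
    by_cases hj : j = j0
    · subst hj
      obtain ⟨x1, p1⟩ := prof_tie (dd := 0) h0 hθ hC h.g_pos h.ker (hcj j) (hb j h2) (hs j h2)
        (h1.ctr hθ) le_rfl fun s => by simpa using h1.lim h0 s
      refine ⟨0, _, M, x1, p1, le_rfl, h.ker.pos0 0 le_rfl, fun _ => ⟨rfl, ?_⟩⟩
      ext s; simp
    rcases hE j with hj1 | ⟨hj1, hj2⟩
    · have a1 : ∀ᶠ w in Fq θ, ‖mm m Z T j w‖ ≤
          C * (((1 + ‖(3 * Real.exp w.re : ℂ) - hh w‖) ^ 2)⁻¹ + hh w ^ (-(1 / 2 + g))) := by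
        filter_upwards [hD, hj1.eventually (ge_mem_nhds one_pos)] with w a1 a2
        have a3 : 0 < hh w := h.B0_pos.trans a1.1
        have a4 : ‖aa (zz Z T w) j‖ ≤ 1 / hh w := by
          rw [le_div_iff₀ a3]
          exact (mul_le_mul_of_nonneg_left (Ti.hh_le w) (norm_nonneg _)).trans a2
        refine (h.crude0 _ a1.1 _ a1.2 j a4).trans (mul_le_mul_of_nonneg_left ?_ hC)
        exact le_add_of_nonneg_left (by positivity)
      have a2 : ∀ w : ℂ, 1 * Real.exp w.re ≤ ‖(3 * Real.exp w.re : ℂ) - hh w‖ := fun w => by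
        have a3 := Complex.re_le_norm ((3 * Real.exp w.re : ℂ) - hh w)
        have a4 := Ti.hh_le w
        have a5 := Real.exp_pos w.re
        simp only [Complex.sub_re, Complex.mul_re, Complex.ofReal_re, Complex.ofReal_im,
          Complex.re_ofNat, Complex.im_ofNat] at a3
        linarith
      obtain ⟨x1, p1⟩ := prof_far (b := fun w => (3 * Real.exp w.re : ℂ)) h0 hθ hC h.g_pos (hcj j) a1
        (ctr_of_lin hθ one_pos (Eventually.of_forall a2))
        (tendsto_atTop_mono a2 (by simpa using exp_atTop θ))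
      exact ⟨0, _, _, x1, p1, by simpa using hM, by simp, fun a => absurd a hj⟩
    obtain ⟨γ, c1, c2 | ⟨dd, c2, c3⟩⟩ := hj1.geo h0 hθ
    · obtain ⟨x1, p1⟩ := prof_far h0 hθ hC h.g_pos (hcj j) (hb j hj2) c1 c2
      exact ⟨0, _, _, x1, p1, by simpa using hM, by simp, fun a => absurd a hj⟩
    · obtain ⟨x1, p1⟩ := prof_tie h0 hθ hC h.g_pos h.ker (hcj j) (hb j hj2) (hs j hj2) c1 c2 c3
      exact ⟨γ, _, M, x1, p1, le_rfl, h.ker.pos0 dd c2, fun a => absurd a hj⟩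
  choose γ ψ N x1 k1 k2 k3 k4 using key
  obtain ⟨x2, hx2⟩ := (Set.finite_range x1).bddAbove
  refine ⟨γ, ψ, N, x2, fun j => Prof_mono (k1 j) (hx2 ⟨j, rfl⟩), ?_⟩
  have a1 : ∑ j, ∫ s, N j s ≤ Fintype.card κ * ∫ s, M s := by
    rw [← Finset.card_univ, ← nsmul_eq_mul, ← Finset.sum_const]
    exact Finset.sum_le_sum fun j _ => k2 j
  refine a1.trans_lt (h.ker.pos.trans_le (le_trans (le_of_eq ?_) (Finset.single_le_sum (f := fun j =>
    (∫ s : ℝ, Complex.exp ((s / 4 : ℝ) * Complex.I) * ψ j s).re) (fun j _ => k3 j)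
    (a := j0) (by simp [(k4 j0 rfl).1]))))
  rw [(k4 j0 rfl).2]

end Crest.Agent.N250.St.PF

end
end

-- ▼ part N250/Ov/Bar
section

/-!
# Row 250, block (B2), helper21: the chain rule for `∂̄ G` and the bound of the `∂_s Z` term.
-/

set_option autoImplicit false
set_option linter.unusedSectionVars false

open Set Metric Filter Topology Function MeasureTheory

noncomputable section

namespace Crest.Agent.N250.Ov
open B2 Cc St

theorem split {E X : Type*} [NormedAddCommGroup E] [NormedSpace ℂ E] [NormedSpace ℝ E]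
    [IsScalarTower ℝ ℂ E] [NormedAddCommGroup X] [NormedSpace ℂ X] [NormedSpace ℝ X]
    [IsScalarTower ℝ ℂ X] {F : ℝ × E → X} {F' : ℝ × E →L[ℝ] X} {a : ℝ} {z : E} {A : X}
    {D : E →L[ℂ] X} (h : HasFDerivAt F F' (a, z)) (h1 : HasDerivAt (fun s => F (s, z)) A a)
    (h2 : HasFDerivAt (fun y => F (a, y)) D z) (s : ℝ) (v : E) :
    F' (s, v) = (s : ℂ) • A + D v := by
  have e1 : F' (1, 0) = A :=
    (HasFDerivAt.comp_hasDerivAt (f := fun s : ℝ => (s, z)) a h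
      ((hasDerivAt_id a).prodMk (hasDerivAt_const a z))).unique h1
  have e2 : F' (0, v) = D v := by
    have := (HasFDerivAt.comp (f := fun y : E => (a, y)) z h (hasFDerivAt_prodMk_right a z)).unique
      (h2.restrictScalars ℝ)
    exact congrArg (fun L : E →L[ℝ] X => L v) this
  have e : ((s, v) : ℝ × E) = s • ((1 : ℝ), (0 : E)) + (0, v) := by simp
  rw [e, map_add, map_smul, e1, e2, ← Complex.coe_algebraMap, algebraMap_smul]

theorem hh_der (w : ℂ) : ∃ H : ℂ →L[ℝ] ℝ, HasFDerivAt hh H w ∧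
    H 1 = Real.exp w.re * St.chi w.im ∧ H Complex.I = Real.exp w.re * (-(3 / 4 * w.im)) := by
  have a : HasFDerivAt (fun w : ℂ => w.re) Complex.reCLM w := Complex.reCLM.hasFDerivAt
  have b : HasFDerivAt (fun w : ℂ => w.im) Complex.imCLM w := Complex.imCLM.hasFDerivAt
  have c : HasDerivAt St.chi (-(3 / 4 * w.im)) w.im := by
    have := (((hasDerivAt_pow 2 w.im).const_mul 3).div_const 8).const_sub 1
    exact this.congr_deriv (by simp; ring)
  refine ⟨_, a.exp.mul (c.comp_hasFDerivAt w b), ?_, ?_⟩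
  · simp [mul_comm]
  · simp

theorem An_nhds {al th Lam s : ℝ} {q : ℕ} {t : ℂ} (h0 : 0 < th * s) (h : t ∈ An al q th Lam s) :
    An al q th Lam s ∈ 𝓝 t := by
  have h1 : al * ‖t‖ ^ q ≠ 0 := fun e => by
    have := h.1; rw [sg, e, inv_zero] at this; linarith
  have c : ContinuousAt (sg al q) t := ContinuousAt.inv₀ (by fun_prop) h1
  exact (continuousAt_const.eventually_lt c h.1).and (c.eventually_lt continuousAt_const h.2)

variable {ι κ Γ : Type} [Fintype ι] [Fintype κ] [DecidableEq κ]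
variable {f : ℝ → (ι ⊕ κ → ℂ) → ℂ} {m : κ → ℝ → (ι ⊕ κ → ℂ) → ℂ} {φ : ℂ → ℂ} {M : ℝ → ℝ}
  {ω : ℂ} {d : κ → ℝ} {r δ B0 C g : ℝ} {T : ℂ → ℂ} {al R : ℝ} {q : ℕ}
  {Q : Cells Γ} {F : (κ → Γ) → (ι ⊕ κ → ℂ) → ℂ} {P : ℕ → ι ⊕ κ → ℝ}
  {lam Lam th s1 C1 θ : ℝ} {N : ℕ} {f0 : ℂ} {Z : ℝ → ℂ → ι ⊕ κ → ℂ}

/-- the function of the Stokes argument -/
def GG (f : ℝ → (ι ⊕ κ → ℂ) → ℂ) (ω f0 : ℂ) (Z : ℝ → ℂ → ι ⊕ κ → ℂ) (T : ℂ → ℂ) (w : ℂ) : ℂ :=
  ω⁻¹ * (f (hh w) (zz Z T w) - f0)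

/-- the factor in `OV2.dbar` -/
def WW (w : ℂ) : ℂ :=
  Real.exp w.re * ((St.chi w.im : ℂ) - (3 / 4 * w.im : ℝ) * Complex.I) * Real.exp (-hh w / 4)

theorem le_WW {w : ℂ} (h : |w.im| ≤ 1) :
    Real.exp w.re / 2 * Real.exp (-hh w / 4) ≤ ‖WW w‖ := by
  have h1 : 1 / 2 ≤ ‖(St.chi w.im : ℂ) - (3 / 4 * w.im : ℝ) * Complex.I‖ := by
    refine le_trans ?_ (Complex.re_le_norm _)
    have := chi_ge h
    simp; linarith
  rw [WW, norm_mul, norm_mul, Complex.norm_real, Complex.norm_real,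
    Real.norm_of_nonneg (Real.exp_pos _).le, Real.norm_of_nonneg (Real.exp_pos _).le, div_eq_mul_one_div]
  gcongr

theorem WW_ne {w : ℂ} (h : |w.im| ≤ 1) : WW w ≠ 0 :=
  norm_pos_iff.1 (lt_of_lt_of_le (by positivity) (le_WW h))

theorem WW_cont : Continuous WW := by
  have := hh_smooth.continuous
  unfold WW St.chi
  fun_prop

theorem GG_c1 (hR : Rx f m φ M ω d r δ B0 C g) {w : ℂ} (h1 : B0 < hh w)
    (h2 : zz Z T w ∈ DomB r δ d (hh w)) (h3 : ContDiffAt ℝ 1 (zz Z T) w) :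
    ContDiffAt ℝ 1 (GG f ω f0 Z T) w :=
  contDiffAt_const.mul ((ContDiffAt.comp (g := fun p : ℝ × (ι ⊕ κ → ℂ) => f p.1 p.2)
    (f := fun w => (hh w, zz Z T w)) w (hR.c1.contDiffAt ((isOpen_dom hR).mem_nhds ⟨h1, h2⟩))
    (hh_smooth.contDiffAt.prodMk h3)).sub contDiffAt_const)

theorem GG_bar (hR : Rx f m φ M ω d r δ B0 C g) (hC : Cv Q F r P q al lam Lam th s1 C1 N f0 Z)
    (hT : Tin T al q R) {w : ℂ} (hw : R < w.re) (h1 : s1 < Real.exp w.re / 2)
    (h2 : (T w)⁻¹ ∈ An al q th Lam (Real.exp w.re / 2)) (h3 : B0 < hh w)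
    (h4 : zz Z T w ∈ DomB r δ d (hh w)) :
    ∃ Z', ‖Z'‖ ≤ C1 * Real.exp (-lam * (Real.exp w.re / 2)) ∧
      fderiv ℝ (GG f ω f0 Z T) w 1 + Complex.I * fderiv ℝ (GG f ω f0 Z T) w Complex.I =
        WW w * ∑ j, mm m Z T j w +
          ω⁻¹ * (Real.exp w.re / 2 : ℝ) * fderiv ℂ (f (hh w)) (zz Z T w) Z' := by
  obtain ⟨Z', hZ, hZ'⟩ := hC.ds _ h1 _ h2
  refine ⟨Z', hZ', ?_⟩
  obtain ⟨H, hH, H1, HI⟩ := hh_der w
  have a1 : HasFDerivAt (fun w : ℂ => Real.exp w.re / 2)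
      ((Real.exp w.re / 2) • Complex.reCLM) w := by
    have a : HasFDerivAt (fun w : ℂ => w.re) Complex.reCLM w := Complex.reCLM.hasFDerivAt
    exact ((Real.hasDerivAt_exp w.re).div_const 2).comp_hasFDerivAt w a
  have a2 := (hT.an hw).differentiableAt.hasDerivAt
  set τ := deriv (fun w => (T w)⁻¹) w
  have a3 := ((hC.c1 _ h1 _ h2).differentiableAt one_ne_zero).hasFDerivAt
  have a4 := ((hC.hol _ h1).differentiableAt
    (An_nhds (mul_pos hC.th_pos (hC.s1_pos.trans h1)) h2)).hasFDerivAt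
  have a5 := split a3 hZ a4
  have a6 := ((hR.c1.contDiffAt (x := (hh w, zz Z T w))
    ((isOpen_dom hR).mem_nhds ⟨h3, h4⟩)).differentiableAt one_ne_zero).hasFDerivAt
  have a7 := ((hR.hol _ h3).differentiableAt ((isOpen_DomB r δ d _).mem_nhds h4)).hasFDerivAt
  have a8 : ∀ (s : ℝ) v, _ = (s : ℂ) • (ω * (Real.exp (-hh w / 4) : ℂ) * ∑ j, mm m Z T j w) +
      fderiv ℂ (f (hh w)) (zz Z T w) v := split a6 (hR.der _ h3 _ h4) a7
  have b1 := HasFDerivAt.comp (f := fun w : ℂ => (Real.exp w.re / 2, (T w)⁻¹)) w a3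
    (a1.prodMk (a2.hasFDerivAt.restrictScalars ℝ))
  have b2 := HasFDerivAt.comp (f := fun w : ℂ => (hh w, zz Z T w)) w a6 (hH.prodMk b1)
  have b3 : HasFDerivAt (GG f ω f0 Z T) _ w := (b2.sub_const f0).const_mul ω⁻¹
  rw [b3.fderiv]
  simp only [smul_apply, ContinuousLinearMap.comp_apply,
    ContinuousLinearMap.prod_apply, a8, a5, H1, HI, map_add, map_smul, smul_eq_mul,
    ContinuousLinearMap.coe_restrictScalars', ContinuousLinearMap.toSpanSingleton_apply,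
    Complex.reCLM_apply, Complex.one_re, Complex.I_re, mul_one, mul_zero, one_mul]
  have e : fderiv ℂ (Z (Real.exp w.re / 2)) (T w)⁻¹ (Complex.I * τ) =
      Complex.I • fderiv ℂ (Z (Real.exp w.re / 2)) (T w)⁻¹ τ := by
    rw [← smul_eq_mul, map_smul]
  have hω := hR.ω_ne
  rw [e, map_smul, smul_eq_mul, WW]
  push_cast
  field_simp
  ring_nf
  rw [Complex.I_sq]
  ring

end Crest.Agent.N250.Ov

end
end

-- ▼ part N250/Ov/Main
section

/-!
# Row 250, block (B2), helper21: `ovStmt`.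
-/

set_option autoImplicit false
set_option linter.unusedSectionVars false

open Set Metric Filter Topology Function MeasureTheory

noncomputable section

namespace Crest.Agent.N250.Ov
open B2 Cc St

variable {ι κ : Type} [Fintype ι] [Fintype κ] [DecidableEq κ]
variable {f : ℝ → (ι ⊕ κ → ℂ) → ℂ} {m : κ → ℝ → (ι ⊕ κ → ℂ) → ℂ} {φ : ℂ → ℂ} {M : ℝ → ℝ}
  {ω : ℂ} {d : κ → ℝ} {r δ B0 C g : ℝ} {T : ℂ → ℂ} {al R : ℝ} {q : ℕ} {P : ℕ → ι ⊕ κ → ℝ}
  {lam Lam th s1 C1 θ : ℝ} {N : ℕ} {f0 : ℂ} {Z : ℝ → ℂ → ι ⊕ κ → ℂ}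

theorem ne_of_ord (h : Ord P q al) : Nonempty κ := by
  by_contra hk
  rw [not_nonempty_iff] at hk
  have := h.al_pos
  rw [h.al_eq, Subsingleton.elim (aa (P q)) 0, norm_zero] at this
  exact lt_irrefl _ this

theorem cmp2 (hR : Rx f m φ M ω d r δ B0 C g) {B B' : ℝ} (hB : B0 < B) (hB' : B0 < B')
    {z : ι ⊕ κ → ℂ} (hz : z ∈ DomB r δ d B) (hz' : z ∈ DomB r δ d B') :
    ‖f B z - f B' z‖ ≤
      8 * ‖ω‖ * Fintype.card κ * C * (Real.exp (-B / 4) + Real.exp (-B' / 4)) := by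
  have hC := hR.C_nonneg
  rcases le_total B B' with h | h
  · rw [norm_sub_rev]
    refine (hR.cmp hB h hz').trans ?_
    gcongr
    exact le_add_of_nonneg_right (Real.exp_pos _).le
  · refine (hR.cmp hB' h hz).trans ?_
    gcongr
    exact le_add_of_nonneg_left (Real.exp_pos _).le

theorem lev_inv (B0 σ : ℝ) : lev B0 σ⁻¹ = 2 * σ - B0 / 4 := by rw [lev, div_inv_eq_mul]

theorem mem_of_disc (hR : Rx f m φ M ω d r δ B0 C g) {hB : 0 < B0} {ρ : ℝ} (h0 : 0 < ρ)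
    (h1 : ρ < 1 / B0) {z : ι ⊕ κ → ℂ}
    (hz : z ∈ (cells B0 hB).Dom r fun _ : κ => (cells B0 hB).disc ρ) :
    z ∈ DomB r δ d (lev B0 ρ) :=
  hR.mem_lev h0 h1 hz.1 fun j => mem_ball_zero_iff.1 (hz.2 j)

/-- the `∂_s Z` term is small -/
theorem grad_le (hR : Rx f m φ M ω d r δ B0 C g) {hB : 0 < B0} (hO : Ord P q al)
    (hC : Cv (cells B0 hB) (fam f B0) r P q al lam Lam th s1 C1 N f0 Z) (hl : 1 / 4 < lam)
    (ht : 2 * lam ≤ th ^ 2) (hL : 1 < Lam) (n : ℕ) : ∃ K, 0 ≤ K ∧ ∀ (w t : ℂ), 0 ≤ w.re →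
      s1 < Real.exp w.re / 2 → t ∈ An al q th Lam (Real.exp w.re / 2) → B0 < hh w →
      ball (Z (Real.exp w.re / 2) t) (Real.exp (-w.re) ^ n) ⊆ DomB r δ d (hh w) →
      ‖fderiv ℂ (f (hh w)) (Z (Real.exp w.re / 2) t)‖ * Real.exp (hh w / 4) *
        Real.exp (-lam * (Real.exp w.re / 2)) ≤ K * Real.exp (-w.re) := by
  have := ne_of_ord hO
  have hal := hO.al_pos
  have hth := hC.th_pos
  have hth1 := hC.th_lt
  have hC0 := hR.C_nonneg
  set a := 2 * lam - 1 / 2 with ha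
  have ha0 : 0 < a := by linarith
  have hl2 : lam ≤ 1 / 2 := by nlinarith
  obtain ⟨C2, hC2, hp⟩ := poly_abs (N + n) (a := a) (b := a / 2) (A := 2 + al * Lam)
    (by linarith) (by positivity)
  set K0 := 8 * ‖ω‖ * Fintype.card κ * C with hK0
  have hK : 0 ≤ K0 := by positivity
  refine ⟨(|C1| + 2 * K0 * (1 + Real.exp (B0 / 16))) * C2 * (4 / a), by positivity,
    fun w t hw hs hA hL0 hb => ?_⟩
  have hle := hh_le w
  set s := Real.exp w.re / 2 with hs'
  have h1 : 1 ≤ 2 * s := by have := Real.one_le_exp hw; linarith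
  have hs0 : 0 < s := by linarith
  set σ := sg al q t with hσ
  have hσ1 : th * s < σ := hA.1
  have hσ0 : 0 < σ := (mul_pos hth hs0).trans hσ1
  have p0 : th ^ 2 * s ≤ th * σ := by
    rw [sq, mul_assoc]; exact mul_le_mul_of_nonneg_left hσ1.le hth.le
  have p1 : a * s = 2 * (lam * s) - s / 2 := by rw [ha]; ring
  have p2 : lam * s ≤ 1 / 2 * s := mul_le_mul_of_nonneg_right hl2 hs0.le
  have p3 : 2 * lam * s ≤ th ^ 2 * s := mul_le_mul_of_nonneg_right ht hs0.le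
  have p4 : hh w ≤ 2 * s := by linarith
  have hρ : (th * σ)⁻¹ ≤ (th ^ 2 * s)⁻¹ := inv_anti₀ (by positivity) p0
  obtain ⟨d1, d2⟩ := hC.dom s hs t hA
  have hρ1 : (th * σ)⁻¹ < 1 / B0 := hρ.trans_lt d1
  have hρ0 : 0 < (th * σ)⁻¹ := by positivity
  have g1 := hC.grad s hs t hA _ le_rfl hρ
  rw [show Fd (cells B0 hB) (fam f B0) (th * sg al q t)⁻¹ = f (lev B0 (th * σ)⁻¹) from
    fam_const hρ0.le] at g1
  have ht0 : 0 < ‖t‖ := norm_pos_iff.2 fun e => by
    rw [hσ, e, sg, norm_zero, zero_pow hO.q_pos.ne', mul_zero, inv_zero] at hσ0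
    exact lt_irrefl _ hσ0
  set τ := min ‖t‖ (Real.exp (-w.re)) with hτ
  have hτ0 : 0 < τ := lt_min ht0 (Real.exp_pos _)
  have hτ1 : τ ≤ 1 := (min_le_right _ _).trans (Real.exp_le_one_iff.2 (by linarith))
  have hτi : τ⁻¹ ≤ (2 + al * Lam) * s := by
    have e1 : (‖t‖⁻¹) ^ q = al * σ := by rw [hσ, sg, inv_pow]; field_simp
    have e2 : al * σ ≤ al * (Lam * s) := mul_le_mul_of_nonneg_left hA.2.le hal.le
    have e3 : ‖t‖⁻¹ ≤ 1 + (‖t‖⁻¹) ^ q := by
      rcases le_total ‖t‖⁻¹ 1 with h | h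
      · exact h.trans (le_add_of_nonneg_right (by positivity))
      · linarith [le_self_pow₀ h hO.q_pos.ne']
    have e4 : 0 ≤ al * (Lam * s) := by positivity
    rcases min_choice ‖t‖ (Real.exp (-w.re)) with h | h <;> rw [hτ, h]
    · linarith
    · rw [Real.exp_neg, inv_inv]; linarith
  have r1 : τ ^ (N + n) ≤ ‖t‖ ^ N :=
    (pow_le_pow_of_le_one hτ0.le hτ1 (by omega)).trans
      (pow_le_pow_left₀ hτ0.le (min_le_left _ _) _)
  have r2 : τ ^ (N + n) ≤ Real.exp (-w.re) ^ n :=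
    (pow_le_pow_of_le_one hτ0.le hτ1 (by omega)).trans
      (pow_le_pow_left₀ hτ0.le (min_le_right _ _) _)
  have r3 : τ ^ (N + n) ≤ 1 := pow_le_one₀ hτ0.le hτ1
  have r0 : 0 < τ ^ (N + n) := by positivity
  have s1' := (ball_subset_ball r2).trans hb
  have s2' : ball (Z s t) (τ ^ (N + n)) ⊆ DomB r δ d (lev B0 (th * σ)⁻¹) := fun y hy =>
    mem_of_disc hR hρ0 hρ1 (d2 _ le_rfl hρ1 (ball_subset_ball r1 hy))
  have hL2 := hR.lt_lev hρ0 hρ1
  have g2 := grad_cmp r0 ((hR.hol _ hL0).mono s1') ((hR.hol _ hL2).mono s2')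
    fun y hy => cmp2 hR hL0 hL2 (s1' hy) (s2' hy)
  have g3 := (norm_le_norm_sub_add _ _).trans (add_le_add g2 g1)
  have x1 : Real.exp (-lam * s) * Real.exp (hh w / 4) * Real.exp (-lam * s) ≤
      Real.exp (-a * s) := by
    rw [← Real.exp_add, ← Real.exp_add]; exact Real.exp_le_exp.2 (by linarith)
  have x2 : Real.exp (-hh w / 4) * Real.exp (hh w / 4) * Real.exp (-lam * s) ≤
      Real.exp (-a * s) := by
    rw [← Real.exp_add, ← Real.exp_add]; exact Real.exp_le_exp.2 (by linarith)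
  have x3 : Real.exp (-lev B0 (th * σ)⁻¹ / 4) * Real.exp (hh w / 4) * Real.exp (-lam * s) ≤
      Real.exp (B0 / 16) * Real.exp (-a * s) := by
    rw [← Real.exp_add, ← Real.exp_add, ← Real.exp_add, lev_inv]
    exact Real.exp_le_exp.2 (by linarith)
  have x4 : Real.exp (-(a / 2) * s) ≤ 4 / a * Real.exp (-w.re) := by
    have e1 := Real.add_one_le_exp (a / 2 * s)
    rw [neg_mul, Real.exp_neg, Real.exp_neg, show Real.exp w.re = 2 * s by rw [hs']; ring]
    refine (inv_anti₀ (by positivity : 0 < a / 2 * s) (by linarith)).trans (le_of_eq ?_)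
    field_simp; norm_num
  have x5 := hp s τ hs0 hτ0 hτi
  have x6 : Real.exp (-a * s) ≤ Real.exp (-a * s) / τ ^ (N + n) :=
    le_div_self (Real.exp_pos _).le r0 r3
  calc _ ≤ (2 * (K0 * (Real.exp (-hh w / 4) + Real.exp (-lev B0 (th * σ)⁻¹ / 4))) / τ ^ (N + n) +
        |C1| * Real.exp (-lam * s)) * Real.exp (hh w / 4) * Real.exp (-lam * s) := by
        gcongr
        refine g3.trans ?_
        gcongr
        exact le_abs_self _
    _ = 2 * K0 * (Real.exp (-hh w / 4) * Real.exp (hh w / 4) * Real.exp (-lam * s) +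
        Real.exp (-lev B0 (th * σ)⁻¹ / 4) * Real.exp (hh w / 4) * Real.exp (-lam * s)) /
          τ ^ (N + n) + |C1| * (Real.exp (-lam * s) * Real.exp (hh w / 4) *
            Real.exp (-lam * s)) := by ring
    _ ≤ 2 * K0 * (Real.exp (-a * s) + Real.exp (B0 / 16) * Real.exp (-a * s)) / τ ^ (N + n) +
        |C1| * (Real.exp (-a * s) / τ ^ (N + n)) := by
        gcongr
        exact x1.trans x6
    _ = (|C1| + 2 * K0 * (1 + Real.exp (B0 / 16))) * (Real.exp (-a * s) / τ ^ (N + n)) := by ring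
    _ ≤ (|C1| + 2 * K0 * (1 + Real.exp (B0 / 16))) * (C2 * (4 / a * Real.exp (-w.re))) := by
        gcongr
        exact x5.trans (by gcongr)
    _ = _ := by ring

/-- the sharp rate -/
theorem rate (hR : Rx f m φ M ω d r δ B0 C g) {hB : 0 < B0} (hO : Ord P q al) (hth : th < 1)
    (hl : 1 / 4 < lam) (hV : Val2 (cells B0 hB) (fam f B0) r (1 / 2) q al lam Lam th f0 Z)
    (hT : Tin T al q R) {x0 : ℝ}
    (h : ∀ w ∈ QQ x0 θ, (T w)⁻¹ ∈ An al q th Lam (Real.exp w.re / 2) ∧ B0 < hh w ∧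
      zz Z T w ∈ DomB r δ d (hh w)) (ε : ℝ) (hε : 0 < ε) :
    ∃ K, ∀ w ∈ QQ x0 θ, ‖GG f ω f0 Z T w‖ ≤ K * Real.exp (-(1 / 4 - ε) * hh w) := by
  have := ne_of_ord hO
  have hC0 := hR.C_nonneg
  set η := max (max th (1 - ε)) (1 / 2) with hη
  have η1 : η < 1 := by simp only [hη, max_lt_iff]; exact ⟨⟨hth, by linarith⟩, by norm_num⟩
  have η2 : 1 - ε ≤ η := (le_max_right _ _).trans (le_max_left _ _)
  have η3 : 1 / 2 ≤ η := le_max_right _ _
  obtain ⟨C', s2, hv⟩ := hV η ((le_max_left _ _).trans (le_max_left _ _)) η1 (η / 2) (by linarith)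
  obtain ⟨x1, -, -, hx1⟩ := hT.ev η1 one_lt_two
  obtain ⟨x2, hx2⟩ := ev_exp (max s2 (4 * B0))
  set K0 := 8 * ‖ω‖ * Fintype.card κ * C with hK0
  have hK : 0 ≤ K0 := by positivity
  refine ⟨‖ω⁻¹‖ * ((C + ‖f0‖) * Real.exp (Real.exp (max x1 x2) / 4) +
    (K0 * (1 + Real.exp (B0 / 16)) + 2 * |C'|)), fun w hw => ?_⟩
  obtain ⟨a1, a2, a3⟩ := h w hw
  have a4 := hh_le w
  have a0 : 0 < hh w := hR.B0_pos.trans a2
  rw [GG, norm_mul, mul_assoc]
  refine mul_le_mul_of_nonneg_left ?_ (norm_nonneg _)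
  set E := Real.exp (-(1 / 4 - ε) * hh w) with hE
  have hE0 : 0 < E := Real.exp_pos _
  rcases le_total w.re (max x1 x2) with hx | hx
  · have b1 : 1 ≤ Real.exp (Real.exp (max x1 x2) / 4) * E := by
      rw [hE, ← Real.exp_add]
      have := Real.exp_le_exp.2 hx
      exact Real.one_le_exp (by linarith [mul_pos hε a0])
    have b2 : ‖f (hh w) (zz Z T w) - f0‖ ≤ C + ‖f0‖ :=
      (norm_sub_le _ _).trans (by gcongr; exact hR.bdd _ a2 _ a3)
    have b3 : 0 ≤ (K0 * (1 + Real.exp (B0 / 16)) + 2 * |C'|) * E := by positivity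
    have b4 := mul_le_mul_of_nonneg_left b1 (by positivity : 0 ≤ C + ‖f0‖)
    linarith
  · have b1 := (hx1 w ((le_max_left _ _).trans hx)).1
    have b2 := hx2 w.re ((le_max_right _ _).trans hx)
    set s := Real.exp w.re / 2 with hs
    have hs0 : 0 < s := by positivity
    have a5 : hh w ≤ 2 * s := by linarith
    obtain ⟨c1, c2⟩ := hv s ((le_max_left _ _).trans_lt b2) _ a1
    set σ := η * sg al q (T w)⁻¹ with hσ
    have b3 : η ^ 2 * s ≤ σ := by
      rw [sq, mul_assoc]; exact mul_le_mul_of_nonneg_left b1.le (by linarith)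
    have b4 : B0 < σ := by
      have : (1 / 2) ^ 2 * s ≤ η ^ 2 * s := by gcongr
      linarith [(le_max_right _ _).trans_lt b2]
    have hσ0 : 0 < σ := hB.trans b4
    have hρ0 : 0 < σ⁻¹ := by positivity
    have hρ1 : σ⁻¹ < 1 / B0 := by rw [one_div]; exact inv_strictAnti₀ hB b4
    rw [show Fd (cells B0 hB) (fam f B0) σ⁻¹ = f (lev B0 σ⁻¹) from fam_const hρ0.le] at c2
    have c3 := cmp2 hR a2 (hR.lt_lev hρ0 hρ1) a3 (mem_of_disc hR hρ0 hρ1 c1)
    have η4 : 1 - 4 * ε ≤ η ^ 3 := by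
      have := one_add_mul_le_pow (a := η - 1) (by linarith) 3
      simp only [add_sub_cancel, Nat.cast_ofNat] at this
      linarith
    have η5 : (1 / 4 - ε) * hh w ≤ η / 2 * σ := by
      have e1 : (1 / 4 - ε) * hh w ≤ η ^ 3 / 4 * hh w := by gcongr; linarith
      have e2 : η ^ 3 / 4 * hh w ≤ η ^ 3 / 4 * (2 * s) := by gcongr
      have e3 : η / 2 * (η ^ 2 * s) ≤ η / 2 * σ := by gcongr
      linarith
    have y0 := mul_pos hε a0
    have y1 : Real.exp (-hh w / 4) ≤ E := Real.exp_le_exp.2 (by linarith)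
    have y2 : Real.exp (-lev B0 σ⁻¹ / 4) ≤ Real.exp (B0 / 16) * E := by
      rw [hE, ← Real.exp_add, lev_inv]
      have : η * σ ≤ 1 * σ := by gcongr
      exact Real.exp_le_exp.2 (by linarith)
    have y3 : Real.exp (-(η / 2) * σ) ≤ E := Real.exp_le_exp.2 (by linarith)
    have y4 : Real.exp (-(2 * lam) * s) ≤ E := by
      have : 1 / 4 * s ≤ lam * s := by gcongr
      exact Real.exp_le_exp.2 (by linarith)
    have y5 : ‖f (lev B0 σ⁻¹) (zz Z T w) - f0‖ ≤ |C'| * (E + E) :=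
      c2.trans (by gcongr; exact le_abs_self _)
    have y6 : ‖f (hh w) (zz Z T w) - f (lev B0 σ⁻¹) (zz Z T w)‖ ≤
        K0 * (E + Real.exp (B0 / 16) * E) := c3.trans (by gcongr)
    have y7 : 0 ≤ (C + ‖f0‖) * Real.exp (Real.exp (max x1 x2) / 4) * E := by positivity
    linarith [norm_sub_le_norm_sub_add_norm_sub (f (hh w) (zz Z T w))
      (f (lev B0 σ⁻¹) (zz Z T w)) f0]

theorem ovStmt : OvStmt := by
  intro ι κ _ _ _ f m φ M ω d r δ B0 C g hB P q al lam Lam th s1 C1 N f0 Z T R θ hR hO hC hl ht hL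
    hV hT h0 h1 hA hP
  obtain ⟨γ, φ', M', x2, hp, hpos⟩ := hP
  obtain ⟨x3, hm⟩ := mm_cont hR hC hL hT h1 hA
  obtain ⟨n, x1, hR1, hx1, h⟩ := ev_all hC hL hT h1 hA B0
  obtain ⟨K, hK, hg⟩ := grad_le hR hO hC hl ht hL n
  set x0 := max x1 (max x2 x3) with hx0
  have q1 : QQ x0 θ ⊆ QQ x1 θ := QQ_mono (le_max_left _ _)
  have q3 : QQ x0 θ ⊆ QQ x3 θ := QQ_mono ((le_max_right _ _).trans (le_max_right _ _))
  set G := GG f ω f0 Z T with hG
  set S : ℂ → ℂ := fun w => (fderiv ℝ G w 1 + Complex.I * fderiv ℝ G w Complex.I) / WW w with hS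
  set E : ℂ → ℂ := fun w => S w - ∑ j, mm m Z T j w with hE
  have c1 : ∀ w ∈ QQ x0 θ, ContDiffAt ℝ 1 G w := fun w hw =>
    GG_c1 hR (h w (q1 hw)).2.2.1 (h w (q1 hw)).2.2.2.2.1 (h w (q1 hw)).2.2.2.2.2
  have cS : ContinuousOn S (QQ x0 θ) := fun w hw => by
    have a := (c1 w hw).continuousAt_fderiv one_ne_zero
    exact (((a.clm_apply continuousAt_const).add (continuousAt_const.mul
      (a.clm_apply continuousAt_const))).div WW_cont.continuousAt
        (WW_ne (hw.2.trans h1))).continuousWithinAt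
  have cE : ContinuousOn E (QQ x0 θ) := cS.sub (continuousOn_finsetSum _ fun j _ => (hm j).mono q3)
  have bE : ∀ w ∈ QQ x0 θ, ‖E w‖ ≤ ‖ω⁻¹‖ * |C1| * K * Real.exp (-w.re) := fun w hw => by
    obtain ⟨a1, a2, a3, a4, a5, -⟩ := h w (q1 hw)
    obtain ⟨Z', b1, b2⟩ := GG_bar (f0 := f0) hR hC hT (hR1.trans_le (q1 hw).1) a1 a2 a3 a5
    have b3 := hg w _ (hx1.trans (q1 hw).1) a1 a2 a3 a4
    have b4 := le_WW (hw.2.trans h1)
    have b5 := WW_ne (hw.2.trans h1)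
    have e : E w = ω⁻¹ * (Real.exp w.re / 2 : ℝ) * fderiv ℂ (f (hh w)) (zz Z T w) Z' / WW w := by
      simp only [hE, hS, hG, b2]
      field_simp
      ring
    have b6 : ‖Z'‖ ≤ |C1| * Real.exp (-lam * (Real.exp w.re / 2)) :=
      b1.trans (by gcongr; exact le_abs_self _)
    rw [e, norm_div, norm_mul, norm_mul, Complex.norm_real, Real.norm_of_nonneg (by positivity)]
    calc _ ≤ ‖ω⁻¹‖ * (Real.exp w.re / 2) * (‖fderiv ℂ (f (hh w)) (zz Z T w)‖ *
          (|C1| * Real.exp (-lam * (Real.exp w.re / 2)))) /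
          (Real.exp w.re / 2 * Real.exp (-hh w / 4)) := by
          gcongr
          exact (ContinuousLinearMap.le_opNorm _ _).trans (by gcongr)
      _ = ‖ω⁻¹‖ * |C1| * (‖fderiv ℂ (f (hh w)) (zz Z T w)‖ * Real.exp (hh w / 4) *
          Real.exp (-lam * (Real.exp w.re / 2))) := by
          rw [neg_div, Real.exp_neg (hh w / 4)]; field_simp
      _ ≤ ‖ω⁻¹‖ * |C1| * (K * Real.exp (-w.re)) :=
          mul_le_mul_of_nonneg_left b3 (by positivity)
      _ = _ := by ring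
  have hsum : ∀ w, ∑ j : Option κ, (j.elim E (mm m Z T)) w = S w := fun w => by
    rw [Fintype.sum_option]; simp [hE]
  have pre : ∀ x s, (pt (fun _ => 0) x s).re = x := fun x s => by
    simp only [pt, Complex.add_re, Complex.ofReal_re, Complex.mul_re, Complex.I_re,
      Complex.ofReal_im, Complex.I_im]
    ring
  refine ⟨G, fderiv ℝ G, x0, fun j => j.elim E (mm m Z T), fun j => j.elim 0 γ,
    fun j => j.elim 0 φ', fun j => j.elim 0 M', h0, h1,
    fun w hw => ((c1 w hw).differentiableAt one_ne_zero).hasFDerivAt, fun w hw => ?_, ?_,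
    rate hR hO hC.th_lt hl hV hT fun w hw =>
      ⟨(h w (q1 hw)).2.1, (h w (q1 hw)).2.2.1, (h w (q1 hw)).2.2.2.2.1⟩, ?_, ?_⟩
  · rw [hsum]
    exact (mul_div_cancel₀ _ (WW_ne (hw.2.trans h1))).symm
  · simpa only [hsum] using cS
  · rintro (_ | j)
    · refine ⟨cont_slice cE, integrable_zero _ _ _, integrable_zero _ _ _, fun _ => le_rfl,
        fun _ => 0, 0, ‖ω⁻¹‖ * |C1| * K, 1 / 2, by norm_num, integrable_zero _ _ _,
        Or.inl fun _ => ⟨rfl, rfl⟩, fun x s hw => ?_, fun s e he => ?_⟩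
      · have := bE _ hw
        rw [pre] at this
        simpa [show (2 : ℝ)⁻¹ + 2⁻¹ = 1 by norm_num] using this
      · have t := (Real.tendsto_exp_neg_atTop_nhds_zero.const_mul (‖ω⁻¹‖ * |C1| * K))
        rw [mul_zero] at t
        filter_upwards [t.eventually (gt_mem_nhds he)] with x hx hw
        have := bE _ hw
        rw [pre] at this
        simpa using this.trans hx.le
    · exact Prof_mono (hp j) ((le_max_left _ _).trans (le_max_right _ _))
  · rw [Finset.sum_filter, Fintype.sum_option, Fintype.sum_option]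
    rw [Finset.sum_filter] at hpos
    simpa using hpos

end Crest.Agent.N250.Ov

end
end

-- ▼ part N250/B2/Nc2

/-!
# Row 250, block B2 (helper47): no critical formal curve; the gradient inequalities.
-/

set_option autoImplicit false

noncomputable section

namespace Crest.Agent.N250.B2
open Cc Ov Ti

theorem nc2Stmt : NC2Stmt := by
  intro ι κ _ _ _ f m φ M ω d r δ B0 C g C' hB k r1 P hR hW hT hK
  obtain ⟨q, al, lam, Lam, th, s1, C1, N, f0, Z, h1, h2, h3, h4, h5, h6, h7⟩ :=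
    curve3 hW hK.zero hK.ne (hnStmt ι κ ℝ _ _ r _ C' k r1 P hW hT hK)
  obtain ⟨T, R, j0, h8, h9⟩ := bridge h1 h3 h2 h6 d
  have hA : Ov.Adm r δ d Z T 1 := h9.adm hR.r_pos hR.δ_pos le_rfl
  have h14 : Prf m Z T 1 := St.PF.prf_of hR one_pos le_rfl hA (mm_cont hR h3 h6 h8 le_rfl hA)
    (h9.zero.mono_left (Fq_le 1))
    (fun j => (eq_or_ne (P q (Sum.inr j)) 0).imp (fun hj => (h9.high j hj).mono_left (Fq_le 1))
      fun hj => ⟨(h9.cls j hj).mono le_rfl (Fq_le 1), (h9.ne hj).filter_mono (Fq_le 1)⟩)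
    j0 (h9.top.2.mono_left (Fq_le 1)) ((h9.ne h9.top.1).filter_mono (Fq_le 1))
  obtain ⟨G, G', x₀, Φ, γ, φ', M', h15⟩ := ovStmt ι κ f m φ M ω d r δ B0 C g hB P q al lam Lam th s1
    C1 N f0 Z T R 1 hR h1 h3 h4 h5 h6 h7 h8 one_pos le_rfl hA h14
  exact St.st2Stmt _ G G' x₀ 1 Φ γ φ' M' h15

theorem gl2Stmt : GL2Stmt := gl2_of nc2Stmt

end Crest.Agent.N250.B2

end
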